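import Vale.Agent.P366.T2.S9.Defs
import Vale.Agent.P366.T2.Frame92

open MeasureTheory Metric Filter Topology Set
open scoped ContDiff ENNReal

noncomputable section
namespace Vale.Agent.S9
open Vale.Agent.P366.Stmt

variable {n : ℕ}

theorem sum_sq (x : E n) : ∑ i, x i * x i = len x ^ 2 := by
  unfold len
  rw [EuclideanSpace.norm_sq_eq]
  exact Finset.sum_congr rfl fun i _ => by rw [Real.norm_eq_abs, sq_abs]; ring

theorem len_ne {x : E n} (hx : x ≠ 0) : len x ≠ 0 := by simp [len, hx]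

namespace Oct

variable (O : Oct n)

theorem symm_apply (a : Fin 9) (i j : Fin n) : O.P a j i = O.P a i j := by
  have := congrFun (congrFun (O.symm a) i) j
  simpa [Matrix.transpose_apply] using this

theorem cliff_apply (a b : Fin 9) (i k : Fin n) :
    ∑ j, O.P a i j * O.P b j k + ∑ j, O.P b i j * O.P a j k =
      if a = b then (if i = k then 2 else 0) else 0 := by
  have := congrFun (congrFun (O.cliff a b) i) k
  rw [Matrix.add_apply, Matrix.mul_apply, Matrix.mul_apply] at this
  rw [this]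
  by_cases h : a = b
  · simp only [h, if_true]
    rw [show (2 : Matrix (Fin n) (Fin n) ℝ) = (2 : ℝ) • 1 by
      rw [two_smul]; norm_num]
    rw [Matrix.smul_apply, Matrix.one_apply]
    split_ifs <;> simp
  · simp [h]

/-- the quadratic forms `⟨P_a x, x⟩` -/
def w (a : Fin 9) (x : E n) : ℝ := ∑ j, x j * O.Z a x j

theorem Z_add (a : Fin 9) (x y : E n) (i : Fin n) : O.Z a (x + y) i = O.Z a x i + O.Z a y i := by
  unfold Oct.Z
  rw [← Finset.sum_add_distrib]
  exact Finset.sum_congr rfl fun j _ => by rw [PiLp.add_apply]; ring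

theorem Z_sub (a : Fin 9) (x y : E n) (i : Fin n) : O.Z a (x - y) i = O.Z a x i - O.Z a y i := by
  unfold Oct.Z
  rw [← Finset.sum_sub_distrib]
  exact Finset.sum_congr rfl fun j _ => by rw [PiLp.sub_apply]; ring

theorem Z_smul (a : Fin 9) (t : ℝ) (x : E n) (i : Fin n) : O.Z a (t • x) i = t * O.Z a x i := by
  unfold Oct.Z
  rw [Finset.mul_sum]
  exact Finset.sum_congr rfl fun j _ => by rw [PiLp.smul_apply, smul_eq_mul]; ring

theorem Z_single (a : Fin 9) (i k : Fin n) :
    O.Z a (EuclideanSpace.single k (1 : ℝ)) i = O.P a i k := by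
  unfold Oct.Z
  simp

theorem dot_Z_symm (a : Fin 9) (x y : E n) : ∑ j, x j * O.Z a y j = ∑ j, y j * O.Z a x j := by
  unfold Oct.Z
  simp only [Finset.mul_sum]
  rw [Finset.sum_comm]
  refine Finset.sum_congr rfl fun i _ => Finset.sum_congr rfl fun j _ => ?_
  rw [O.symm_apply a i j]
  ring

theorem hopf' (x : E n) (i : Fin n) : ∑ a, O.w a x * O.Z a x i = len x ^ 2 * x i := O.hopf x i

theorem Z_Z (a b : Fin 9) (x : E n) :
    ∑ i, O.Z a x i * O.Z b x i = if a = b then len x ^ 2 else 0 := by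
  have h1 : ∀ a b, ∑ i, O.Z a x i * O.Z b x i = ∑ j, ∑ k, (∑ i, O.P a j i * O.P b i k) *
      (x j * x k) := by
    intro a b
    have e1 : ∀ i, O.Z a x i * O.Z b x i = ∑ j, ∑ k, (O.P a j i * O.P b i k) * (x j * x k) := by
      intro i
      unfold Oct.Z
      rw [Finset.sum_mul_sum]
      refine Finset.sum_congr rfl fun j _ => Finset.sum_congr rfl fun k _ => ?_
      rw [O.symm_apply a i j]
      ring
    simp only [e1]
    rw [Finset.sum_comm]
    refine Finset.sum_congr rfl fun j _ => ?_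
    rw [Finset.sum_comm]
    exact Finset.sum_congr rfl fun k _ => by rw [Finset.sum_mul]
  have h2 : (∑ i, O.Z a x i * O.Z b x i) + (∑ i, O.Z b x i * O.Z a x i) =
      if a = b then 2 * len x ^ 2 else 0 := by
    have e2 : (∑ j, ∑ k, (∑ i, O.P a j i * O.P b i k) * (x j * x k)) +
        (∑ j, ∑ k, (∑ i, O.P b j i * O.P a i k) * (x j * x k)) =
        ∑ j, ∑ k, (if a = b then (if j = k then 2 else 0) else 0) * (x j * x k) := by
      rw [← Finset.sum_add_distrib]
      refine Finset.sum_congr rfl fun j _ => ?_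
      rw [← Finset.sum_add_distrib]
      refine Finset.sum_congr rfl fun k _ => ?_
      rw [← O.cliff_apply a b j k]; ring
    rw [h1, h1, e2]
    by_cases h : a = b
    · simp only [h, if_true]
      rw [← sum_sq, Finset.mul_sum]
      refine Finset.sum_congr rfl fun i _ => ?_
      simp only [ite_mul, zero_mul, Finset.sum_ite_eq, Finset.mem_univ, if_true]
    · simp [h]
  have h3 : ∑ i, O.Z b x i * O.Z a x i = ∑ i, O.Z a x i * O.Z b x i :=
    Finset.sum_congr rfl fun i _ => mul_comm _ _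
  rw [h3] at h2
  split_ifs at h2 ⊢ <;> linarith

theorem sum_w_sq (x : E n) : ∑ a, O.w a x ^ 2 = len x ^ 4 := by
  have h1 : ∑ a, O.w a x ^ 2 = ∑ i, x i * (∑ a, O.w a x * O.Z a x i) := by
    have : ∀ a, O.w a x ^ 2 = ∑ i, x i * (O.w a x * O.Z a x i) := by
      intro a
      rw [sq]
      conv_lhs => rw [show O.w a x * O.w a x = O.w a x * ∑ j, x j * O.Z a x j from rfl]
      rw [Finset.mul_sum]
      exact Finset.sum_congr rfl fun i _ => by ring
    simp only [this]
    rw [Finset.sum_comm]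
    exact Finset.sum_congr rfl fun i _ => by rw [Finset.mul_sum]
  rw [h1]
  simp only [O.hopf']
  rw [show len x ^ 4 = len x ^ 2 * len x ^ 2 by ring]
  conv_rhs => rw [← sum_sq x]
  rw [sum_sq x, ← sum_sq x, Finset.sum_mul]
  refine Finset.sum_congr rfl fun i _ => ?_
  rw [sum_sq]; ring

/-- the polarized Hopf identity -/
theorem polar (x y : E n) (i : Fin n) :
    ∑ a, O.w a x * O.Z a y i + 2 * ∑ a, (∑ j, y j * O.Z a x j) * O.Z a x i =
      len x ^ 2 * y i + 2 * (∑ j, x j * y j) * x i := by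
  have hw : ∀ a, O.w a (x + y) = O.w a x + 2 * (∑ j, y j * O.Z a x j) + O.w a y := by
    intro a
    have e1 : O.w a (x + y) = (∑ j, x j * O.Z a x j) + (∑ j, x j * O.Z a y j) +
        (∑ j, y j * O.Z a x j) + ∑ j, y j * O.Z a y j := by
      unfold Oct.w
      rw [← Finset.sum_add_distrib, ← Finset.sum_add_distrib, ← Finset.sum_add_distrib]
      refine Finset.sum_congr rfl fun j _ => ?_
      rw [O.Z_add, PiLp.add_apply]; ring
    rw [e1, O.dot_Z_symm a x y]
    unfold Oct.w
    ring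
  have hw' : ∀ a, O.w a (x - y) = O.w a x - 2 * (∑ j, y j * O.Z a x j) + O.w a y := by
    intro a
    have e1 : O.w a (x - y) = (∑ j, x j * O.Z a x j) - (∑ j, x j * O.Z a y j) -
        (∑ j, y j * O.Z a x j) + ∑ j, y j * O.Z a y j := by
      unfold Oct.w
      rw [← Finset.sum_sub_distrib, ← Finset.sum_sub_distrib, ← Finset.sum_add_distrib]
      refine Finset.sum_congr rfl fun j _ => ?_
      rw [O.Z_sub, PiLp.sub_apply]; ring
    rw [e1, O.dot_Z_symm a x y]
    unfold Oct.w
    ring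
  have hl : len (x + y) ^ 2 = len x ^ 2 + 2 * (∑ j, x j * y j) + len y ^ 2 := by
    rw [← sum_sq, ← sum_sq, ← sum_sq, Finset.mul_sum, ← Finset.sum_add_distrib,
      ← Finset.sum_add_distrib]
    exact Finset.sum_congr rfl fun j _ => by rw [PiLp.add_apply]; ring
  have hl' : len (x - y) ^ 2 = len x ^ 2 - 2 * (∑ j, x j * y j) + len y ^ 2 := by
    rw [← sum_sq, ← sum_sq, ← sum_sq, Finset.mul_sum, ← Finset.sum_sub_distrib,
      ← Finset.sum_add_distrib]
    exact Finset.sum_congr rfl fun j _ => by rw [PiLp.sub_apply]; ring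
  have h1 := O.hopf' (x + y) i
  have h2 := O.hopf' (x - y) i
  have h3 := O.hopf' y i
  rw [hl, PiLp.add_apply] at h1
  rw [hl', PiLp.sub_apply] at h2
  simp only [hw, O.Z_add] at h1
  simp only [hw', O.Z_sub] at h2
  have h4 : ∑ a, ((O.w a x + 2 * (∑ j, y j * O.Z a x j) + O.w a y) *
      (O.Z a x i + O.Z a y i)) - ∑ a, ((O.w a x - 2 * (∑ j, y j * O.Z a x j) + O.w a y) *
      (O.Z a x i - O.Z a y i)) = 2 * (∑ a, O.w a x * O.Z a y i) +
      4 * (∑ a, (∑ j, y j * O.Z a x j) * O.Z a x i) + 2 * ∑ a, O.w a y * O.Z a y i := by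
    rw [← Finset.sum_sub_distrib, Finset.mul_sum, Finset.mul_sum, Finset.mul_sum,
      ← Finset.sum_add_distrib, ← Finset.sum_add_distrib]
    exact Finset.sum_congr rfl fun a _ => by ring
  rw [h1, h2, h3] at h4
  linarith

/-- the Fierz identity -/
theorem fierz (x : E n) (i k : Fin n) :
    ∑ a, O.w a x * O.P a i k + 2 * ∑ a, O.Z a x i * O.Z a x k =
      (if i = k then len x ^ 2 else 0) + 2 * (x i * x k) := by
  have h := O.polar x (EuclideanSpace.single k (1 : ℝ)) i
  simp only [O.Z_single] at h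
  have h1 : ∀ a, ∑ j, (EuclideanSpace.single k (1 : ℝ) : E n) j * O.Z a x j = O.Z a x k := by
    intro a; simp
  have h2 : ∑ j, x j * (EuclideanSpace.single k (1 : ℝ) : E n) j = x k := by simp
  simp only [h1, h2] at h
  have h3 : (EuclideanSpace.single k (1 : ℝ) : E n) i = if i = k then 1 else 0 := by
    simp
  rw [h3] at h
  have h4 : ∑ a, O.Z a x k * O.Z a x i = ∑ a, O.Z a x i * O.Z a x k :=
    Finset.sum_congr rfl fun a _ => mul_comm _ _
  rw [h4] at h
  rw [h]
  split_ifs <;> ring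

theorem sq_one (a : Fin 9) : O.P a * O.P a = 1 := by
  have h := O.cliff a a
  simp only [if_true] at h
  have h2 : (2 : ℝ) • (O.P a * O.P a) = (2 : ℝ) • (1 : Matrix (Fin n) (Fin n) ℝ) := by
    rw [two_smul, h, two_smul]; norm_num
  exact smul_right_injective _ (two_ne_zero) h2

theorem trace_zero (a : Fin 9) : (O.P a).trace = 0 := by
  obtain ⟨b, hb⟩ : ∃ b : Fin 9, a ≠ b := by
    by_cases h : a = 0
    · exact ⟨1, by rw [h]; decide⟩
    · exact ⟨0, h⟩
  have h := O.cliff a b
  rw [if_neg hb] at h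
  have h1 : (O.P a).trace = (O.P a * O.P b * O.P b).trace := by
    rw [Matrix.mul_assoc, O.sq_one, Matrix.mul_one]
  have h2 : (O.P a * O.P b * O.P b).trace = (O.P b * (O.P a * O.P b)).trace :=
    Matrix.trace_mul_comm _ _
  have h3 : O.P a * O.P b = -(O.P b * O.P a) := eq_neg_of_add_eq_zero_left h
  have h4 : (O.P b * (O.P a * O.P b)).trace = -(O.P a).trace := by
    rw [h3, Matrix.mul_neg, Matrix.trace_neg, ← Matrix.mul_assoc, O.sq_one, Matrix.one_mul]
  rw [← h2, ← h1] at h4
  linarith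

include O in
theorem n_eq (hn : 0 < n) : n = 16 := by
  set x : E n := EuclideanSpace.single ⟨0, hn⟩ 1 with hx
  have hlen : len x = 1 := by simp [hx, len]
  have h1 : ∑ i, (∑ a, O.w a x * O.P a i i + 2 * ∑ a, O.Z a x i * O.Z a x i) =
      ∑ i : Fin n, (1 + 2 * (x i * x i)) := by
    refine Finset.sum_congr rfl fun i _ => ?_
    rw [O.fierz x i i]
    simp [hlen]
  rw [Finset.sum_add_distrib, Finset.sum_add_distrib, ← Finset.mul_sum, ← Finset.mul_sum,
    sum_sq, hlen] at h1
  have h2 : ∑ i, ∑ a, O.w a x * O.P a i i = 0 := by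
    rw [Finset.sum_comm]
    refine Finset.sum_eq_zero fun a _ => ?_
    rw [← Finset.mul_sum]
    have : ∑ i, O.P a i i = 0 := O.trace_zero a
    rw [this, mul_zero]
  have h3 : ∑ i, ∑ a, O.Z a x i * O.Z a x i = 9 := by
    rw [Finset.sum_comm]
    simp only [O.Z_Z, if_true, hlen]
    simp
  rw [h2, h3] at h1
  simp at h1
  have h4 : (n : ℝ) = 16 := by linarith
  exact_mod_cast h4

end Oct

end Vale.Agent.S9
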