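import Vale.Agent.P366.T2.S9.Quad2
import Vale.Agent.P366.T2.A765.SCStmt

/-! The scalar curvature of `Spin(9)`-invariant metrics. -/

open MeasureTheory Metric Filter Topology Set
open scoped ContDiff ENNReal

noncomputable section
namespace Vale.Agent.S9
open Vale.Agent.P366.Stmt
open Vale.Agent.P366.T2 (HP Lg Vg scal_div)

variable {n : ℕ} {D : Data n} {g K : Field n}

theorem isOpen_out (R : ℝ) : IsOpen {x : E n | R < len x} :=
  isOpen_lt continuous_const continuous_norm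

theorem hasDeriv_al (D : Data n) (r : ℝ) : HasDerivAt D.al (deriv D.al r) r :=
  (D.al_smooth.differentiable (by norm_num) r).hasDerivAt

theorem hasDeriv_p (D : Data n) (r : ℝ) : HasDerivAt D.p (deriv D.p r) r :=
  (D.p_smooth.differentiable (by norm_num) r).hasDerivAt

theorem hasDeriv_c (D : Data n) (r : ℝ) : HasDerivAt D.c (deriv D.c r) r :=
  (D.c_smooth.differentiable (by norm_num) r).hasDerivAt

theorem hasDeriv2 {f : ℝ → ℝ} (hf : ContDiff ℝ ∞ f) (r : ℝ) :
    HasDerivAt (deriv f) (deriv (deriv f) r) r := by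
  have h1 : ContDiff ℝ ∞ (deriv f) := (contDiff_infty_iff_deriv.1 hf).2
  exact (h1.differentiable (by norm_num) r).hasDerivAt

/-- first derivatives of `g` -/
theorem pd_g (h : Fits D g K) {x : E n} (hx : D.R < len x) (k i j : Fin n) :
    pd k (fun y => g y i j) x =
      Nn x k * D.O.tv (deriv D.al (len x)) (deriv D.p (len x)) (deriv D.c (len x)) x i j +
        (D.p (len x) - D.c (len x)) / len x * Oct.Ww x k i j +
        (D.c (len x) - D.al (len x)) / len x * D.O.Bb x k i j := by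
  have h0 := ne_zero_of_le hx.le
  have h1 := D.O.HP_tv h0 (hasDeriv_al D (len x)) (hasDeriv_p D (len x)) (hasDeriv_c D (len x))
    k i j
  refine (h1.congr ?_).pd
  filter_upwards [(isOpen_out D.R).mem_nhds hx] with y hy
  exact g_tv h (le_of_lt hy) i j

/-- first derivatives of the inverse metric -/
theorem pd_up (h : Fits D g K) {x : E n} (hx : D.R < len x) (k i j : Fin n) :
    pd k (up g i j) x =
      Nn x k * D.O.tv (-deriv D.al (len x) / D.al (len x) ^ 2)
        (-deriv D.p (len x) / D.p (len x) ^ 2) (-deriv D.c (len x) / D.c (len x) ^ 2) x i j +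
        ((D.p (len x))⁻¹ - (D.c (len x))⁻¹) / len x * Oct.Ww x k i j +
        ((D.c (len x))⁻¹ - (D.al (len x))⁻¹) / len x * D.O.Bb x k i j := by
  have h0 := ne_zero_of_le hx.le
  have hal := (D.al_pos _ hx.le).ne'
  have hp := (D.p_pos _ hx.le).ne'
  have hc := (D.c_pos _ hx.le).ne'
  have h1 := D.O.HP_tv h0 (f := fun r => (D.al r)⁻¹) (u := fun r => (D.p r)⁻¹)
    (s := fun r => (D.c r)⁻¹) ((hasDeriv_al D (len x)).fun_inv hal)
    ((hasDeriv_p D (len x)).fun_inv hp) ((hasDeriv_c D (len x)).fun_inv hc) k i j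
  refine (h1.congr ?_).pd
  filter_upwards [(isOpen_out D.R).mem_nhds hx] with y hy
  exact up_eq h (le_of_lt hy) i j

namespace Data

/-- `L = ell N` -/
def ell (D : Data n) (r : ℝ) : ℝ :=
  (1 / 2) * (8 * (deriv D.al r / D.al r) + deriv D.p r / D.p r + 7 * (deriv D.c r / D.c r))

/-- `V = vel N` -/
def vel (D : Data n) (r : ℝ) : ℝ :=
  -(D.ell r / D.p r) + deriv D.p r / D.p r ^ 2 - 15 / (D.p r * r) +
    (7 / D.c r + 8 / D.al r) / r

end Data

theorem Lg_eq (h : Fits D g K) {x : E n} (hx : D.R < len x) (i : Fin n) :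
    Lg g i x = D.ell (len x) * Nn x i := by
  have h0 := ne_zero_of_le hx.le
  have hal := (D.al_pos _ hx.le).ne'
  have hp := (D.p_pos _ hx.le).ne'
  have hc := (D.c_pos _ hx.le).ne'
  unfold Lg
  simp only [up_eq h hx.le, pd_g h hx]
  have e : ∀ k l, D.O.tv (D.al (len x))⁻¹ (D.p (len x))⁻¹ (D.c (len x))⁻¹ x k l *
      (Nn x i * D.O.tv (deriv D.al (len x)) (deriv D.p (len x)) (deriv D.c (len x)) x k l +
        (D.p (len x) - D.c (len x)) / len x * Oct.Ww x i k l +
        (D.c (len x) - D.al (len x)) / len x * D.O.Bb x i k l) =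
      Nn x i * (D.O.tv (D.al (len x))⁻¹ (D.p (len x))⁻¹ (D.c (len x))⁻¹ x k l *
        D.O.tv (deriv D.al (len x)) (deriv D.p (len x)) (deriv D.c (len x)) x k l) +
      (D.p (len x) - D.c (len x)) / len x *
        (D.O.tv (D.al (len x))⁻¹ (D.p (len x))⁻¹ (D.c (len x))⁻¹ x k l * Oct.Ww x i k l) +
      (D.c (len x) - D.al (len x)) / len x *
        (D.O.tv (D.al (len x))⁻¹ (D.p (len x))⁻¹ (D.c (len x))⁻¹ x k l * D.O.Bb x i k l) :=
    fun k l => by ring
  simp only [e, Finset.sum_add_distrib, ← Finset.mul_sum, D.O.C_tv h0, D.O.C_W h0, D.O.C_B h0]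
  unfold Data.ell
  field_simp
  ring

theorem Vg_eq (h : Fits D g K) {x : E n} (hx : D.R < len x) (k : Fin n) :
    Vg g k x = D.vel (len x) * Nn x k := by
  have h0 := ne_zero_of_le hx.le
  have hr : 0 < len x := lt_trans D.hR hx
  have hal := (D.al_pos _ hx.le).ne'
  have hp := (D.p_pos _ hx.le).ne'
  have hc := (D.c_pos _ hx.le).ne'
  unfold Vg
  simp only [up_eq h hx.le, Lg_eq h hx, pd_up h hx]
  have e1 : ∑ j, D.O.tv (D.al (len x))⁻¹ (D.p (len x))⁻¹ (D.c (len x))⁻¹ x k j *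
      (D.ell (len x) * Nn x j) = D.ell (len x) * ((D.p (len x))⁻¹ * Nn x k) := by
    rw [← D.O.tv_N h0 (D.al (len x))⁻¹ (D.p (len x))⁻¹ (D.c (len x))⁻¹ k, Finset.mul_sum]
    exact Finset.sum_congr rfl fun j _ => by ring
  rw [e1]
  simp only [Finset.sum_add_distrib, ← Finset.mul_sum, Oct.div_W h0 k D.O, D.O.div_B h0]
  have e2 : ∑ j, Nn x j * D.O.tv (-deriv D.al (len x) / D.al (len x) ^ 2)
        (-deriv D.p (len x) / D.p (len x) ^ 2) (-deriv D.c (len x) / D.c (len x) ^ 2) x k j =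
      (-deriv D.p (len x) / D.p (len x) ^ 2) * Nn x k := by
    rw [← D.O.tv_N h0 (-deriv D.al (len x) / D.al (len x) ^ 2)
        (-deriv D.p (len x) / D.p (len x) ^ 2) (-deriv D.c (len x) / D.c (len x) ^ 2) k]
    exact Finset.sum_congr rfl fun j _ => by ring
  rw [e2]
  unfold Data.vel
  field_simp
  ring

/-- second-order quantities -/
theorem ell_deriv (D : Data n) {r : ℝ} (hr : D.R ≤ r) : HasDerivAt D.ell
    ((1 / 2) * (8 * (deriv (deriv D.al) r / D.al r - (deriv D.al r / D.al r) ^ 2) +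
      (deriv (deriv D.p) r / D.p r - (deriv D.p r / D.p r) ^ 2) +
      7 * (deriv (deriv D.c) r / D.c r - (deriv D.c r / D.c r) ^ 2))) r := by
  have hal := (D.al_pos _ hr).ne'
  have hp := (D.p_pos _ hr).ne'
  have hc := (D.c_pos _ hr).ne'
  have h1 := ((((hasDeriv2 D.al_smooth r).fun_div (hasDeriv_al D r) hal).const_mul 8).fun_add
    ((hasDeriv2 D.p_smooth r).fun_div (hasDeriv_p D r) hp)).fun_add
    (((hasDeriv2 D.c_smooth r).fun_div (hasDeriv_c D r) hc).const_mul 7)
  refine ((h1.const_mul (1 / 2 : ℝ)).congr_deriv ?_)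
  field_simp

theorem vel_deriv (D : Data n) {r : ℝ} (hr : D.R ≤ r) {e1 : ℝ} (he : HasDerivAt D.ell e1 r) :
    HasDerivAt D.vel
    (-(e1 / D.p r - D.ell r * deriv D.p r / D.p r ^ 2) +
      (deriv (deriv D.p) r / D.p r ^ 2 - 2 * deriv D.p r ^ 2 / D.p r ^ 3) +
      15 * (D.p r + deriv D.p r * r) / (D.p r * r) ^ 2 +
      (-(7 * deriv D.c r / D.c r ^ 2) - 8 * deriv D.al r / D.al r ^ 2) / r -
      (7 / D.c r + 8 / D.al r) / r ^ 2) r := by
  have hr0 : 0 < r := lt_of_lt_of_le D.hR hr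
  have hal := (D.al_pos _ hr).ne'
  have hp := (D.p_pos _ hr).ne'
  have hc := (D.c_pos _ hr).ne'
  have hid := hasDerivAt_id' r
  have h1 := (he.fun_div (hasDeriv_p D r) hp).fun_neg
  have h2 := (hasDeriv2 D.p_smooth r).fun_div ((hasDeriv_p D r).fun_pow 2) (pow_ne_zero 2 hp)
  have h3 := (hasDerivAt_const r (15 : ℝ)).fun_div ((hasDeriv_p D r).fun_mul hid)
    (mul_ne_zero hp hr0.ne')
  have h4 := (((hasDerivAt_const r (7 : ℝ)).fun_div (hasDeriv_c D r) hc).fun_add
    ((hasDerivAt_const r (8 : ℝ)).fun_div (hasDeriv_al D r) hal)).fun_div hid hr0.ne'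
  refine (((h1.fun_add h2).fun_sub h3).fun_add h4).congr_deriv ?_
  simp only [Nat.cast_ofNat, Nat.add_one_sub_one, pow_one]
  field_simp
  ring

/-! ### the mean curvature -/

namespace Data

/-- `H √p` -/
def hh (D : Data n) (r : ℝ) : ℝ :=
  8 * (1 / r + deriv D.al r / (2 * D.al r)) + 7 * (1 / r + deriv D.c r / (2 * D.c r))

variable (D : Data n)

theorem yb_eq {r : ℝ} (hr : D.R ≤ r) : D.yb r = 1 / r + deriv D.al r / (2 * D.al r) := by
  have hr0 : 0 < r := lt_of_lt_of_le D.hR hr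
  have hal := D.al_pos r hr
  have hsq : HasDerivAt (fun t : ℝ => t ^ 2) (2 * r) r := by
    simpa using hasDerivAt_pow 2 r
  have h1 : deriv D.Yb r = 2 * r * D.al r + r ^ 2 * deriv D.al r :=
    (hsq.mul (hasDeriv_al D r)).deriv
  unfold yb
  rw [h1]
  unfold Yb
  field_simp

theorem yf_eq {r : ℝ} (hr : D.R ≤ r) : D.yf r = 1 / r + deriv D.c r / (2 * D.c r) := by
  have hr0 : 0 < r := lt_of_lt_of_le D.hR hr
  have hc := D.c_pos r hr
  have hsq : HasDerivAt (fun t : ℝ => t ^ 2) (2 * r) r := by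
    simpa using hasDerivAt_pow 2 r
  have h1 : deriv D.Yf r = 2 * r * D.c r + r ^ 2 * deriv D.c r :=
    (hsq.mul (hasDeriv_c D r)).deriv
  unfold yf
  rw [h1]
  unfold Yf
  field_simp

theorem H_eq {r : ℝ} (hr : D.R ≤ r) : D.H r = D.hh r / √(D.p r) := by
  unfold H hh lp
  rw [D.yb_eq hr, D.yf_eq hr]

theorem hh_deriv {r : ℝ} (hr : D.R ≤ r) : HasDerivAt D.hh
    (8 * (-(1 / r ^ 2) + (deriv (deriv D.al) r / D.al r - (deriv D.al r / D.al r) ^ 2) / 2) +
     7 * (-(1 / r ^ 2) + (deriv (deriv D.c) r / D.c r - (deriv D.c r / D.c r) ^ 2) / 2)) r := by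
  have hr0 : 0 < r := lt_of_lt_of_le D.hR hr
  have hal := (D.al_pos _ hr).ne'
  have hc := (D.c_pos _ hr).ne'
  have hid := hasDerivAt_id' r
  have h0 := (hasDerivAt_const r (1 : ℝ)).fun_div hid hr0.ne'
  have h1 := (hasDeriv2 D.al_smooth r).fun_div ((hasDeriv_al D r).const_mul 2)
    (mul_ne_zero two_ne_zero hal)
  have h2 := (hasDeriv2 D.c_smooth r).fun_div ((hasDeriv_c D r).const_mul 2)
    (mul_ne_zero two_ne_zero hc)
  refine ((((h0.fun_add h1).const_mul 8).fun_add ((h0.fun_add h2).const_mul 7)).congr_deriv ?_)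
  field_simp
  ring

theorem H_deriv {r : ℝ} (hr : D.R < r) {h1 : ℝ} (hh1 : HasDerivAt D.hh h1 r) :
    HasDerivAt D.H (h1 / √(D.p r) - D.hh r * deriv D.p r / (2 * D.p r * √(D.p r))) r := by
  have hp := D.p_pos _ hr.le
  have hs : √(D.p r) ≠ 0 := (Real.sqrt_pos.2 hp).ne'
  have hs2 : √(D.p r) ^ 2 = D.p r := Real.sq_sqrt hp.le
  have h2 := (hasDeriv_p D r).sqrt hp.ne'
  have h3 := hh1.fun_div h2 hs
  have h4 : D.H =ᶠ[𝓝 r] fun t => D.hh t / √(D.p t) := by
    filter_upwards [isOpen_Ioi.mem_nhds hr] with t ht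
    exact D.H_eq (le_of_lt ht)
  refine (h3.congr_deriv ?_).congr_of_eventuallyEq h4
  rw [hs2]
  have e : D.p r = √(D.p r) ^ 2 := hs2.symm
  generalize √(D.p r) = s at *
  rw [e]
  field_simp

theorem Rg_eq {r : ℝ} (hr : D.R < r) {h1 : ℝ} (hh1 : HasDerivAt D.hh h1 r) :
    D.Rg r = D.Rh r - (8 * (1 / r + deriv D.al r / (2 * D.al r)) ^ 2 +
      7 * (1 / r + deriv D.c r / (2 * D.c r)) ^ 2) / D.p r - D.hh r ^ 2 / D.p r -
      2 * h1 / D.p r + D.hh r * deriv D.p r / D.p r ^ 2 := by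
  have hp := D.p_pos _ hr.le
  have hs : √(D.p r) ≠ 0 := (Real.sqrt_pos.2 hp).ne'
  have hs2 : √(D.p r) ^ 2 = D.p r := Real.sq_sqrt hp.le
  unfold Rg II2 lp
  rw [(D.H_deriv hr hh1).deriv, D.H_eq hr.le, D.yb_eq hr.le, D.yf_eq hr.le, div_pow, hs2]
  have e : D.p r = √(D.p r) ^ 2 := hs2.symm
  generalize √(D.p r) = s at *
  rw [e]
  field_simp
  ring

end Data

/-- **The scalar curvature.** -/
theorem scal_eq (h : Fits D g K) {x : E n} (hx : D.R < len x) : scal g x = D.Rg (len x) := by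
  have h0 := ne_zero_of_le hx.le
  have hr : 0 < len x := lt_trans D.hR hx
  have hal := D.al_pos _ hx.le
  have hp := D.p_pos _ hx.le
  have hc := D.c_pos _ hx.le
  have hU := isOpen_out (n := n) D.R
  have hn' : (n : ℝ) = 16 := by exact_mod_cast Oct.card_eq h0 D.O
  rw [scal_div hU (fun i j => (h.smooth i j).1)
    (fun y hy i j => by
      rw [g_tv h (le_of_lt hy), g_tv h (le_of_lt hy), D.O.tv_symm])
    (fun y hy => by
      have ha := (D.al_pos _ (le_of_lt hy)).ne'
      have hb := (D.p_pos _ (le_of_lt hy)).ne'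
      have hd := (D.c_pos _ (le_of_lt hy)).ne'
      rw [det_g h (le_of_lt hy)]
      exact mul_ne_zero (pow_ne_zero 7 hd) (mul_ne_zero (pow_ne_zero 8 ha) hb)) hx]
  have hell := ell_deriv D hx.le
  set e1 := (1 / 2 : ℝ) * (8 * (deriv (deriv D.al) (len x) / D.al (len x) -
      (deriv D.al (len x) / D.al (len x)) ^ 2) +
      (deriv (deriv D.p) (len x) / D.p (len x) - (deriv D.p (len x) / D.p (len x)) ^ 2) +
      7 * (deriv (deriv D.c) (len x) / D.c (len x) - (deriv D.c (len x) / D.c (len x)) ^ 2))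
    with he1
  have hvel := vel_deriv D hx.le hell
  set v1 := (-(e1 / D.p (len x) - D.ell (len x) * deriv D.p (len x) / D.p (len x) ^ 2) +
      (deriv (deriv D.p) (len x) / D.p (len x) ^ 2 -
        2 * deriv D.p (len x) ^ 2 / D.p (len x) ^ 3) +
      15 * (D.p (len x) + deriv D.p (len x) * len x) / (D.p (len x) * len x) ^ 2 +
      (-(7 * deriv D.c (len x) / D.c (len x) ^ 2) -
        8 * deriv D.al (len x) / D.al (len x) ^ 2) / len x -
      (7 / D.c (len x) + 8 / D.al (len x)) / len x ^ 2) with hv1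
  -- divergence of V
  have hpV : ∀ k, pd k (Vg g k) x = v1 * Nn x k * Nn x k +
      D.vel (len x) * ((1 - Nn x k * Nn x k) / len x) := by
    intro k
    have h1 := (HP_radial h0 hvel k).mul (HP_Nn h0 k k)
    refine ((HP_eq h1 ?_).congr ?_).pd
    · simp
    · filter_upwards [hU.mem_nhds hx] with y hy
      exact Vg_eq h hy k
  have hdiv : ∑ k, pd k (Vg g k) x = v1 + 15 * D.vel (len x) / len x := by
    have e : ∀ k, v1 * Nn x k * Nn x k + D.vel (len x) * ((1 - Nn x k * Nn x k) / len x) =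
        v1 * (Nn x k * Nn x k) + D.vel (len x) / len x * 1 -
          D.vel (len x) / len x * (Nn x k * Nn x k) := fun k => by ring
    simp only [hpV, e, Finset.sum_sub_distrib, Finset.sum_add_distrib, ← Finset.mul_sum, Nn_sq h0]
    simp [hn']
    ring
  -- derivative of L
  have hpL : ∀ i j, pd j (Lg g i) x = e1 * Nn x j * Nn x i +
      D.ell (len x) * (((if i = j then 1 else 0) - Nn x i * Nn x j) / len x) := by
    intro i j
    have h1 := (HP_radial h0 hell j).mul (HP_Nn h0 j i)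
    refine (h1.congr ?_).pd
    filter_upwards [hU.mem_nhds hx] with y hy
    exact Lg_eq h hy i
  have hgL : ∑ i, ∑ j, up g i j x * pd j (Lg g i) x =
      e1 * (D.p (len x))⁻¹ + D.ell (len x) / len x *
        (8 * (D.al (len x))⁻¹ + 7 * (D.c (len x))⁻¹) := by
    have e : ∀ i j, up g i j x * pd j (Lg g i) x =
        (e1 - D.ell (len x) / len x) * (Nn x i *
          (D.O.tv (D.al (len x))⁻¹ (D.p (len x))⁻¹ (D.c (len x))⁻¹ x i j * Nn x j)) +
        D.ell (len x) / len x * (D.O.tv (D.al (len x))⁻¹ (D.p (len x))⁻¹ (D.c (len x))⁻¹ x i j *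
          D.O.tv 1 1 1 x i j) := by
      intro i j
      rw [up_eq h hx.le, hpL, D.O.tv_one]
      ring
    simp only [e, Finset.sum_add_distrib, ← Finset.mul_sum, D.O.tv_N h0, D.O.C_tv h0]
    have e2 : ∑ i, Nn x i * ((D.p (len x))⁻¹ * Nn x i) = (D.p (len x))⁻¹ := by
      have : ∀ i, Nn x i * ((D.p (len x))⁻¹ * Nn x i) = (D.p (len x))⁻¹ * (Nn x i * Nn x i) :=
        fun i => by ring
      simp only [this, ← Finset.mul_sum, Nn_sq h0, mul_one]
    rw [e2]
    ring
  have hLV : ∑ l, Lg g l x * Vg g l x = D.ell (len x) * D.vel (len x) := by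
    have e : ∀ l, Lg g l x * Vg g l x = D.ell (len x) * D.vel (len x) * (Nn x l * Nn x l) := by
      intro l; rw [Lg_eq h hx, Vg_eq h hx]; ring
    simp only [e, ← Finset.mul_sum, Nn_sq h0, mul_one]
  rw [hdiv, hgL, hLV]
  simp only [up_eq h hx.le, pd_up h hx, pd_g h hx, D.O.quad1 h0, D.O.quad2 h0]
  have hhh := D.hh_deriv hx.le
  rw [D.Rg_eq hx hhh]
  simp only [hv1, he1]
  unfold Data.vel Data.ell Data.hh Data.Rh Data.Yb Data.Yf
  generalize deriv (deriv D.al) (len x) = a2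
  generalize deriv (deriv D.p) (len x) = p2
  generalize deriv (deriv D.c) (len x) = c2
  generalize deriv D.al (len x) = a1
  generalize deriv D.p (len x) = p1
  generalize deriv D.c (len x) = c1
  generalize D.al (len x) = a at *
  generalize D.p (len x) = p at *
  generalize D.c (len x) = c at *
  generalize len x = r at *
  field_simp
  ring

end Vale.Agent.S9
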