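import Vale.Agent.P366.T2.Mono2
import Vale.Agent.P366.T2.S9.Scal

/-! The monotone quantity for `Spin(9)`-invariant data. -/

open MeasureTheory Metric Filter Topology Set
open scoped ContDiff ENNReal

noncomputable section
namespace Vale.Agent.S9
open Vale.Agent.P366.T2 (mono_main2)

variable {n : ℕ}

namespace Data

variable (D : Data n)

theorem lp_pos {r : ℝ} (hr : D.R ≤ r) : 0 < D.lp r := Real.sqrt_pos.2 (D.p_pos r hr)

theorem lp_sq {r : ℝ} (hr : D.R ≤ r) : D.lp r ^ 2 = D.p r := Real.sq_sqrt (D.p_pos r hr).le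

theorem Yb_pos {r : ℝ} (hr : D.R ≤ r) : 0 < D.Yb r :=
  mul_pos (pow_pos (lt_of_lt_of_le D.hR hr) 2) (D.al_pos r hr)

theorem Yf_pos {r : ℝ} (hr : D.R ≤ r) : 0 < D.Yf r :=
  mul_pos (pow_pos (lt_of_lt_of_le D.hR hr) 2) (D.c_pos r hr)

theorem Yb_deriv {r : ℝ} (hr : D.R ≤ r) : HasDerivAt D.Yb (2 * D.Yb r * D.yb r) r := by
  have hsq : HasDerivAt (fun t : ℝ => t ^ 2) (2 * r) r := by
    simpa using hasDerivAt_pow 2 r
  have h1 := hsq.fun_mul (hasDeriv_al D r)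
  have h2 : HasDerivAt D.Yb (2 * r * D.al r + r ^ 2 * deriv D.al r) r := h1
  refine h2.congr_deriv ?_
  have := (D.Yb_pos hr).ne'
  unfold yb
  rw [h2.deriv]
  field_simp

theorem Yf_deriv {r : ℝ} (hr : D.R ≤ r) : HasDerivAt D.Yf (2 * D.Yf r * D.yf r) r := by
  have hsq : HasDerivAt (fun t : ℝ => t ^ 2) (2 * r) r := by
    simpa using hasDerivAt_pow 2 r
  have h1 := hsq.fun_mul (hasDeriv_c D r)
  have h2 : HasDerivAt D.Yf (2 * r * D.c r + r ^ 2 * deriv D.c r) r := h1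
  refine h2.congr_deriv ?_
  have := (D.Yf_pos hr).ne'
  unfold yf
  rw [h2.deriv]
  field_simp

theorem H_diff {r : ℝ} (hr : D.R ≤ r) : DifferentiableAt ℝ D.H r := by
  have h1 : ∀ {f : ℝ → ℝ}, ContDiff ℝ ∞ f → DifferentiableAt ℝ f r := fun hf =>
    hf.differentiable (by norm_num) r
  have hYb : ContDiff ℝ ∞ D.Yb := (contDiff_id.pow 2).mul D.al_smooth
  have hYf : ContDiff ℝ ∞ D.Yf := (contDiff_id.pow 2).mul D.c_smooth
  have h2 : DifferentiableAt ℝ D.yb r :=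
    (hasDeriv2 hYb r).differentiableAt.div ((h1 hYb).const_mul 2)
      (mul_ne_zero two_ne_zero (D.Yb_pos hr).ne')
  have h3 : DifferentiableAt ℝ D.yf r :=
    (hasDeriv2 hYf r).differentiableAt.div ((h1 hYf).const_mul 2)
      (mul_ne_zero two_ne_zero (D.Yf_pos hr).ne')
  exact ((h2.const_mul 8).add (h3.const_mul 7)).div ((h1 D.p_smooth).sqrt (D.p_pos r hr).ne')
    (D.lp_pos hr).ne'

theorem k_diff {r : ℝ} (hr : D.R ≤ r) : DifferentiableAt ℝ D.k r := by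
  have h1 : ∀ {f : ℝ → ℝ}, ContDiff ℝ ∞ f → DifferentiableAt ℝ f r := fun hf =>
    hf.differentiable (by norm_num) r
  exact (((h1 D.ka_smooth).div (h1 D.al_smooth) (D.al_pos r hr).ne').const_mul 8).add
    (((h1 D.kc_smooth).div (h1 D.c_smooth) (D.c_pos r hr).ne').const_mul 7)

/-! ### the area radius -/

theorem ar_pos {r : ℝ} (hr : D.R ≤ r) : 0 < D.ar r :=
  mul_pos (pow_pos (D.Yb_pos hr) 4) (Real.sqrt_pos.2 (pow_pos (D.Yf_pos hr) 7))

theorem rho_pos {r : ℝ} (hr : D.R ≤ r) : 0 < D.rho r := Real.rpow_pos_of_pos (D.ar_pos hr) _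

theorem ar_deriv {r : ℝ} (hr : D.R ≤ r) : HasDerivAt D.ar (D.ar r * (D.lp r * D.H r)) r := by
  have hb := D.Yb_pos hr
  have hf := D.Yf_pos hr
  have hs := Real.sqrt_pos.2 (pow_pos hf 7)
  have h1 : HasDerivAt (fun t => √(D.Yf t ^ 7)) (7 * D.yf r * √(D.Yf r ^ 7)) r := by
    refine (((D.Yf_deriv hr).fun_pow 7).sqrt (pow_pos hf 7).ne').congr_deriv ?_
    have h := Real.mul_self_sqrt (pow_pos hf 7).le
    rw [div_eq_iff (by positivity)]
    push_cast
    linear_combination (-14 * D.yf r) * h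
  have h2 : HasDerivAt (fun t => D.Yb t ^ 4) (8 * D.yb r * D.Yb r ^ 4) r := by
    refine ((D.Yb_deriv hr).fun_pow 4).congr_deriv ?_
    push_cast
    ring
  refine (h2.mul h1).congr_deriv ?_
  have hc := (D.lp_pos hr).ne'
  rw [ar, H]
  field_simp

theorem rho_deriv {r : ℝ} (hr : D.R ≤ r) :
    HasDerivAt D.rho (D.rho r * (D.lp r * D.H r / 15)) r := by
  have ha := D.ar_pos hr
  refine ((D.ar_deriv hr).rpow_const (p := 1 / 15) (Or.inl ha.ne')).congr_deriv ?_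
  rw [Real.rpow_sub ha, Real.rpow_one, rho]
  field_simp

/-! ### the weight -/

def Tf (r : ℝ) : ℝ := ((11 / 2) / √(D.Yf r) - 2 * √(D.Yf r) / D.Yb r) / 7

def Tb (r : ℝ) : ℝ := √(D.Yf r) / (2 * D.Yb r)

def L2 (r : ℝ) : ℝ := 7 * D.Tf r ^ 2 + 8 * D.Tb r ^ 2

def IT (r : ℝ) : ℝ := (7 * D.yf r * D.Tf r + 8 * D.yb r * D.Tb r) / D.lp r

theorem lam_pos {r : ℝ} (hr : D.R ≤ r) : 0 < D.lam r := by
  have hb := D.Yb_pos hr
  have hf := Real.sqrt_pos.2 (D.Yf_pos hr)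
  unfold lam
  positivity

theorem lam_deriv {r : ℝ} (hr : D.R ≤ r) : HasDerivAt D.lam (-(D.lp r * D.IT r)) r := by
  have hb := D.Yb_pos hr
  have hf := D.Yf_pos hr
  have hs := Real.sqrt_pos.2 hf
  have hc := (D.lp_pos hr).ne'
  have h1 : HasDerivAt (fun t => √(D.Yf t)) (D.yf r * √(D.Yf r)) r := by
    refine ((D.Yf_deriv hr).sqrt hf.ne').congr_deriv ?_
    have h := Real.mul_self_sqrt hf.le
    rw [div_eq_iff (by positivity)]
    linear_combination (-2 * D.yf r) * h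
  have h2 := ((hasDerivAt_const r (11 / 2 : ℝ)).fun_div h1 hs.ne').fun_add
    ((h1.const_mul 2).fun_div (D.Yb_deriv hr) hb.ne')
  refine (h2.congr_deriv ?_ : HasDerivAt D.lam _ r)
  unfold IT Tf Tb
  field_simp
  ring

theorem hU_le {r : ℝ} (hr : D.R ≤ r) (y : ℝ) :
    0 ≤ D.II2 r - 2 * y * D.IT r + y ^ 2 * D.L2 r := by
  have hc := D.lp_pos hr
  have e : D.II2 r - 2 * y * D.IT r + y ^ 2 * D.L2 r =
      8 * (D.yb r / D.lp r - y * D.Tb r) ^ 2 + 7 * (D.yf r / D.lp r - y * D.Tf r) ^ 2 := by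
    unfold II2 IT L2
    rw [← D.lp_sq hr]
    field_simp
    ring
  rw [e]
  positivity

theorem hL_le (r : ℝ) : D.lam r ^ 2 ≤ 15 * D.L2 r := by
  have e : D.lam r = 7 * D.Tf r + 8 * D.Tb r := by
    unfold lam Tf Tb
    ring
  rw [e]
  unfold L2
  nlinarith [sq_nonneg (D.Tf r - D.Tb r)]

theorem hJ_le {r : ℝ} (hr : D.R ≤ r) : D.Rh r / 4 + D.L2 r ≤ D.lam r ^ 2 := by
  have hb := D.Yb_pos hr
  have hf := D.Yf_pos hr
  have hs := Real.sqrt_pos.2 hf
  have hs2 : √(D.Yf r) ^ 2 = D.Yf r := Real.sq_sqrt hf.le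
  have e : D.lam r ^ 2 - D.L2 r - D.Rh r / 4 =
      (108 / 7) * (1 / √(D.Yf r) - √(D.Yf r) / D.Yb r) ^ 2 := by
    unfold lam L2 Rh Tf Tb
    generalize √(D.Yf r) = s at *
    rw [← hs2]
    field_simp
    ring
  have h2 : 0 ≤ (108 / 7) * (1 / √(D.Yf r) - √(D.Yf r) / D.Yb r) ^ 2 := by positivity
  linarith

theorem KII_le {r : ℝ} (hr : D.R ≤ r) (y : ℝ) :
    0 ≤ D.KS2 r - 2 * y * D.IIK r + y ^ 2 * D.II2 r := by
  have hc := D.lp_pos hr
  have e : D.KS2 r - 2 * y * D.IIK r + y ^ 2 * D.II2 r =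
      8 * (D.ka r / D.al r - y * (D.yb r / D.lp r)) ^ 2 +
        7 * (D.kc r / D.c r - y * (D.yf r / D.lp r)) ^ 2 := by
    unfold KS2 IIK II2
    rw [← D.lp_sq hr]
    field_simp
    ring
  rw [e]
  positivity

/-- the differential inequality for `H ^ 2 - k ^ 2` -/
theorem deriv_le {r : ℝ} (hr : D.R ≤ r) (hdec : |D.JN r| ≤ D.mu r)
    (hk : |D.k r| < D.H r) :
    2 * D.H r * deriv D.H r - 2 * D.k r * deriv D.k r ≤
      D.lp r * (D.H r * D.Rh r - D.H r * (D.H r ^ 2 - D.k r ^ 2) -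
        (D.H r ^ 2 - D.k r ^ 2) / D.H r * D.II2 r) := by
  have hc := D.lp_pos hr
  have hH : 0 < D.H r := (abs_nonneg _).trans_lt hk
  have h1 : 0 ≤ D.H r * D.mu r - D.k r * D.JN r := by
    have h2 : D.k r * D.JN r ≤ |D.k r| * |D.JN r| := by
      rw [← abs_mul]; exact le_abs_self _
    have h3 : |D.k r| * |D.JN r| ≤ D.H r * D.mu r :=
      mul_le_mul hk.le hdec (abs_nonneg _) hH.le
    linarith
  have hK := D.KII_le hr (D.k r / D.H r)
  have hK' : 0 ≤ D.H r * (D.KS2 r - 2 * (D.k r / D.H r) * D.IIK r +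
      (D.k r / D.H r) ^ 2 * D.II2 r) := mul_nonneg hH.le hK
  have e1 : D.H r * (D.KS2 r - 2 * (D.k r / D.H r) * D.IIK r +
      (D.k r / D.H r) ^ 2 * D.II2 r) = D.H r * D.KS2 r - 2 * D.k r * D.IIK r +
        D.k r ^ 2 / D.H r * D.II2 r := by field_simp
  rw [e1] at hK'
  have e2 : D.lp r * (2 * (D.H r * D.mu r - D.k r * D.JN r)) =
      D.lp r * (D.H r * (D.Rh r - D.II2 r - D.H r ^ 2 + D.k r ^ 2 - D.KS2 r) +
        2 * D.k r * D.IIK r) - (2 * D.H r * deriv D.H r - 2 * D.k r * deriv D.k r) := by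
    rw [mu, JN, Rg]; field_simp; ring
  have e3 : 0 ≤ D.lp r * (2 * (D.H r * D.mu r - D.k r * D.JN r)) := by positivity
  rw [e2] at e3
  have e4 : D.H r * (D.Rh r - D.II2 r - D.H r ^ 2 + D.k r ^ 2 - D.KS2 r) +
        2 * D.k r * D.IIK r ≤ D.H r * D.Rh r - D.H r * (D.H r ^ 2 - D.k r ^ 2) -
        (D.H r ^ 2 - D.k r ^ 2) / D.H r * D.II2 r := by
    have e5 : (D.H r ^ 2 - D.k r ^ 2) / D.H r * D.II2 r = D.H r * D.II2 r -
      D.k r ^ 2 / D.H r * D.II2 r := by field_simp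
    rw [e5]
    nlinarith
  have e6 := mul_le_mul_of_nonneg_left e4 hc.le
  linarith

/-- **The monotonicity argument.** -/
theorem key (hdec : ∀ r, D.R < r → |D.JN r| ≤ D.mu r)
    (h0 : D.H D.R + D.k D.R ≤ 0) (hinf : ∀ᶠ r in atTop, |D.k r| < D.H r) {m : ℝ}
    (hm : Tendsto D.mass atTop (𝓝 (2 * m))) :
    ∃ r, D.R ≤ r ∧ D.rho r ^ (14 : ℝ) ≤ 2 * m := by
  -- the last radius with `H ≤ |k|`
  obtain ⟨R1, hR1⟩ := (eventually_atTop.1 hinf)
  set S : Set ℝ := {r | D.R ≤ r ∧ D.H r ≤ |D.k r|} with hS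
  have hHc : ContinuousOn D.H (Ici D.R) := fun r hr => (D.H_diff hr).continuousAt.continuousWithinAt
  have hkc : ContinuousOn D.k (Ici D.R) := fun r hr => (D.k_diff hr).continuousAt.continuousWithinAt
  have hSc : IsClosed S := by
    have h1 : ContinuousOn (fun r => |D.k r| - D.H r) (Ici D.R) := hkc.abs.sub hHc
    have h2 := h1.preimage_isClosed_of_isClosed isClosed_Ici (isClosed_Ici (a := (0 : ℝ)))
    convert h2 using 1
    ext r
    simp only [hS, mem_ofPred_eq, mem_inter_iff, mem_Ici, mem_preimage, sub_nonneg]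
  have hSne : S.Nonempty := ⟨D.R, le_rfl, by
    have := neg_le_abs (D.k D.R)
    linarith⟩
  have hSb : BddAbove S := ⟨max D.R R1, fun r hr => by
    by_contra hlt
    push Not at hlt
    have h1 := hR1 r ((le_max_right _ _).trans hlt.le)
    exact absurd hr.2 (not_le.2 h1)⟩
  set r0 := sSup S with hr0
  have hr0S : r0 ∈ S := hSc.csSup_mem hSne hSb
  have hgt : ∀ r, r0 < r → |D.k r| < D.H r := by
    intro r hr
    by_contra hle
    push Not at hle
    exact absurd (le_csSup hSb ⟨hr0S.1.trans hr.le, hle⟩) (not_le.2 hr)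
  have hge : |D.k r0| ≤ D.H r0 := by
    have h1 : Tendsto (fun r => |D.k r|) (𝓝[>] r0) (𝓝 (|D.k r0|)) :=
      ((D.k_diff hr0S.1).continuousAt.abs).mono_left nhdsWithin_le_nhds
    have h2 : Tendsto D.H (𝓝[>] r0) (𝓝 (D.H r0)) :=
      ((D.H_diff hr0S.1).continuousAt).mono_left nhdsWithin_le_nhds
    refine le_of_tendsto_of_tendsto h1 h2 ?_
    filter_upwards [self_mem_nhdsWithin] with r hr using (hgt r hr).le
  have heq : D.H r0 = |D.k r0| := le_antisymm hr0S.2 hge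
  have hR : ∀ r, r0 ≤ r → D.R ≤ r := fun r hr => hr0S.1.trans hr
  obtain ⟨hmono, hbd⟩ := mono_main2 (N := 15) (r0 := r0) (by norm_num) (c := D.lp) (H := D.H)
    (Y := fun r => D.H r ^ 2 - D.k r ^ 2)
    (Y' := fun r => 2 * D.H r * deriv D.H r - 2 * D.k r * deriv D.k r) (ρ := D.rho) (R := D.Rh)
    (II2 := D.II2) (lam := D.lam) (L2 := D.L2) (I := D.IT)
    (fun r hr => D.lp_pos (hR r hr.le))
    (fun r hr => (abs_nonneg _).trans_lt (hgt r hr))
    (by rw [heq, sq_abs, sub_self])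
    (fun r hr => by
      have h1 := hgt r hr
      have h2 : D.k r ^ 2 ≤ D.H r ^ 2 := by
        rw [← sq_abs (D.k r)]
        exact pow_le_pow_left₀ (abs_nonneg _) h1.le 2
      linarith)
    (((hHc.mono fun r hr => hR r hr).pow 2).sub ((hkc.mono fun r hr => hR r hr).pow 2))
    (fun r hr => (D.rho_deriv (hR r hr)).continuousAt.continuousWithinAt)
    (fun r hr => (D.lam_deriv (hR r hr)).continuousAt.continuousWithinAt)
    (fun r hr => D.rho_pos (hR r hr))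
    (fun r hr => D.lam_pos (hR r hr))
    (fun r hr => D.rho_deriv (hR r hr.le))
    (fun r hr => by
      have h1 := (D.H_diff (hR r hr.le)).hasDerivAt
      have h2 := (D.k_diff (hR r hr.le)).hasDerivAt
      refine ((h1.pow 2).sub (h2.pow 2)).congr_deriv ?_
      simp)
    (fun r hr => D.deriv_le (hR r hr.le) (hdec r (hr0S.1.trans_lt hr)) (hgt r hr))
    (fun r hr => D.lam_deriv (hR r hr.le))
    (fun r hr => D.hU_le (hR r hr.le) _)
    (fun r _ => D.hL_le r)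
    (fun r hr => D.hJ_le (hR r hr.le))
  refine ⟨r0, hr0S.1, ?_⟩
  have e : (15 : ℝ) - 1 = 14 := by norm_num
  rw [e] at hbd
  refine ge_of_tendsto hm ?_
  filter_upwards [eventually_ge_atTop r0] with r hr
  exact hbd r hr

end Data

end Vale.Agent.S9
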