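import Vale.Agent.P366.T2.Area
import Vale.Agent.P366.T2.S9.Key

/-! The area of round cuts for `Spin(9)`-invariant metrics. -/

open MeasureTheory Metric Filter Topology Set
open scoped ContDiff ENNReal

noncomputable section
namespace Vale.Agent.S9
open Vale.Agent.P366.Stmt
open Vale.Agent.P366.T2 (Amin_le_general)

variable {n : ℕ}

theorem proj_nonneg (O : Oct n) {x : E n} (hx : x ≠ 0) {f u s : ℝ} (hf : f * f = f)
    (hu : u * u = u) (hs : s * s = s) (v : Fin n → ℝ) :
    0 ≤ ∑ i, ∑ j, O.tv f u s x i j * v i * v j := by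
  have e : ∑ i, ∑ j, O.tv f u s x i j * v i * v j = ∑ k, (∑ i, O.tv f u s x k i * v i) ^ 2 := by
    have e1 : ∀ i j, O.tv f u s x i j * v i * v j =
        ∑ k, (O.tv f u s x k i * v i) * (O.tv f u s x k j * v j) := by
      intro i j
      have h := O.tv_mul hx f u s f u s i j
      rw [hf, hu, hs] at h
      rw [← h, Finset.sum_mul, Finset.sum_mul]
      exact Finset.sum_congr rfl fun k _ => by rw [O.tv_symm f u s x i k]; ring
    simp only [e1]
    have e2 : ∀ k, (∑ i, O.tv f u s x k i * v i) ^ 2 =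
        ∑ i, ∑ j, (O.tv f u s x k i * v i) * (O.tv f u s x k j * v j) := by
      intro k; rw [sq, Finset.sum_mul_sum]
    simp only [e2]
    calc ∑ i, ∑ j, ∑ k, O.tv f u s x k i * v i * (O.tv f u s x k j * v j)
        = ∑ i, ∑ k, ∑ j, O.tv f u s x k i * v i * (O.tv f u s x k j * v j) :=
          Finset.sum_congr rfl fun i _ => Finset.sum_comm
      _ = ∑ k, ∑ i, ∑ j, O.tv f u s x k i * v i * (O.tv f u s x k j * v j) := Finset.sum_comm
  rw [e]
  exact Finset.sum_nonneg fun k _ => sq_nonneg _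

variable (D : Data n)

/-- `g(v, v) ≥ p (v·N)²` -/
theorem g_ge {g K : Field n} (h : Fits D g K) {x : E n} (hx : D.R ≤ len x)
    (v : Fin n → ℝ) :
    D.p (len x) * (∑ i, v i * Nn x i) ^ 2 ≤ ∑ i, ∑ j, g x i j * v i * v j := by
  have h0 := ne_zero_of_le hx
  have hal := (D.al_pos _ hx).le
  have hc := (D.c_pos _ hx).le
  have h1 := proj_nonneg D.O h0 (f := 1) (u := 0) (s := 0) (by norm_num) (by norm_num)
    (by norm_num) v
  have h2 := proj_nonneg D.O h0 (f := 0) (u := 0) (s := 1) (by norm_num) (by norm_num)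
    (by norm_num) v
  have e : ∑ i, ∑ j, g x i j * v i * v j =
      D.al (len x) * (∑ i, ∑ j, D.O.tv 1 0 0 x i j * v i * v j) +
      D.p (len x) * (∑ i, v i * Nn x i) ^ 2 +
      D.c (len x) * (∑ i, ∑ j, D.O.tv 0 0 1 x i j * v i * v j) := by
    have e0 : ∀ i j, g x i j * v i * v j =
        D.al (len x) * (D.O.tv 1 0 0 x i j * v i * v j) +
        D.p (len x) * ((v i * Nn x i) * (v j * Nn x j)) +
        D.c (len x) * (D.O.tv 0 0 1 x i j * v i * v j) := by
      intro i j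
      rw [g_tv h hx, D.O.tv_M h0, D.O.tv_M h0, D.O.tv_M h0]
      ring
    simp only [e0, Finset.sum_add_distrib, ← Finset.mul_sum]
    congr 2
    rw [sq, Finset.sum_mul]
  rw [e]
  have := mul_nonneg hal h1
  have := mul_nonneg hc h2
  linarith

theorem ar_eq {r : ℝ} (hr : D.R ≤ r) : D.ar r = r ^ 15 * (D.al r ^ 4 * √(D.c r ^ 7)) := by
  have hr0 : 0 < r := lt_of_lt_of_le D.hR hr
  have hc := D.c_pos r hr
  unfold Data.ar Data.Yb Data.Yf
  have e1 : (r ^ 2 * D.c r) ^ 7 = (r ^ 7) ^ 2 * D.c r ^ 7 := by ring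
  rw [e1, Real.sqrt_mul (by positivity), Real.sqrt_sq (by positivity)]
  ring

/-- the minimal enclosing area is at most the area of the spheres -/
theorem Amin_le {X : Exterior n} (h : Fits D X.g X.K)
    (hR : IsGreatest {r | ∃ x, X.F x = 0 ∧ len x = r} D.R) {r : ℝ} (hr : D.R ≤ r) :
    X.Amin ≤ ENNReal.ofReal (omega n * D.ar r) := by
  have hr0 : 0 < r := D.hR.trans_le hr
  have hal := D.al_pos r hr
  have hp := D.p_pos r hr
  have hc := D.c_pos r hr
  have hn : n = 16 := by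
    obtain ⟨x, -, hx⟩ := hR.1
    exact Oct.card_eq (ne_zero_of_le hx.ge) D.O
  have hA : ∀ x : E n, ‖x‖ = r → ∀ v : Fin n → ℝ, ∑ i, ∑ j, X.g x i j * v i * v j ≤ 1 →
      -(√((mat X.g x).det) * ∑ i, v i * (x i / ‖x‖)) ≤ D.al r ^ 4 * √(D.c r ^ 7) := by
    intro x hx v hv
    have hlen : len x = r := hx
    have hxR : D.R ≤ len x := by rw [hlen]; exact hr
    have h1 := (g_ge D h hxR v).trans hv
    rw [det_g h hxR]
    have hN : ∀ i, Nn x i = x i / r := fun i => by unfold Nn; rw [hlen]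
    simp only [hN] at h1
    rw [hlen] at h1 ⊢
    rw [show ‖x‖ = r from hx]
    set t := ∑ i, v i * (x i / r) with ht
    have h2 : √(D.c r ^ 7 * (D.al r ^ 8 * D.p r)) = D.al r ^ 4 * √(D.c r ^ 7) * √(D.p r) := by
      have e1 : D.c r ^ 7 * (D.al r ^ 8 * D.p r) = (D.al r ^ 4) ^ 2 * (D.c r ^ 7 * D.p r) := by
        ring
      rw [e1, Real.sqrt_mul (by positivity), Real.sqrt_sq (by positivity),
        Real.sqrt_mul (by positivity)]
      ring
    have h3 : √(D.p r) * |t| ≤ 1 := by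
      have : (√(D.p r) * |t|) ^ 2 ≤ 1 := by
        rw [mul_pow, Real.sq_sqrt hp.le, sq_abs]; exact h1
      have h0 : 0 ≤ √(D.p r) * |t| := by positivity
      nlinarith
    calc -(√(D.c r ^ 7 * (D.al r ^ 8 * D.p r)) * t)
        = D.al r ^ 4 * √(D.c r ^ 7) * (√(D.p r) * (-t)) := by rw [h2]; ring
      _ ≤ D.al r ^ 4 * √(D.c r ^ 7) * (√(D.p r) * |t|) := by
          gcongr
          exact neg_le_abs t
      _ ≤ D.al r ^ 4 * √(D.c r ^ 7) * 1 := by gcongr
      _ = _ := mul_one _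
  have h1 := Amin_le_general (by omega) X hR hr hA
  refine h1.trans (le_of_eq ?_)
  rw [Vale.Agent.P366.omega_eq, ar_eq D hr]
  have : n - 1 = 15 := by omega
  rw [this]

end Vale.Agent.S9
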