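import Vale.Agent.P366.T2.C92d
import Vale.Agent.P366.T2.S9.Scal

/-! The touching argument for `Spin(9)`-invariant data. -/

open MeasureTheory Metric Filter Topology Set
open scoped ContDiff ENNReal MatrixOrder

noncomputable section
namespace Vale.Agent.S9
open Vale.Agent.P366.Stmt
open Vale.Agent.C92 (Gauge Dr Dr_eq_of_scale len_smul)

variable {n : ℕ} {D : Data n} {g K : Field n}

/-- the gauge structure of fitting data -/
theorem gauge_of_fits (h : Fits D g K) (hpos : ∀ y, D.R ≤ len y → (mat g y).PosDef) :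
    Gauge g D.p D.R where
  hR := D.hR
  smooth := fun i j => (h.smooth i j).1
  symm := fun y hy i j => by
    rw [g_tv h hy, g_tv h hy, D.O.tv_symm]
  pos := hpos
  p_diff := fun r _ => D.p_smooth.differentiable (by norm_num) r
  gx := fun y hy i => by
    have h0 : y ≠ 0 := ne_zero_of_le hy
    simp only [g_tv h hy]
    rw [D.O.tv_x h0]

theorem posDef_of_fits {D : Data n} {X : Exterior n}
    (hR : IsGreatest {r | ∃ x, X.F x = 0 ∧ len x = r} D.R) :
    ∀ y, D.R ≤ len y → (mat X.g y).PosDef := by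
  have hn : 16 ≤ n := by
    rcases Nat.eq_zero_or_pos n with h0 | h0
    · exfalso
      obtain ⟨x, -, hx⟩ := hR.1
      subst h0
      have : x = 0 := Subsingleton.elim _ _
      have h1 := D.hR
      rw [← hx, this] at h1
      have h2 : len (0 : E 0) = 0 := norm_zero
      linarith
    · exact (D.O.n_eq h0).ge
  have hout := Vale.Agent.C92.outside_nonneg (by omega) X hR
  exact fun y hy => X.pos y (hout y hy)

/-- trace of an invariant tensor over the sphere -/
theorem trS_tv (h : Fits D g K) (hpos : ∀ y, D.R ≤ len y → (mat g y).PosDef)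
    {T : Field n} {f u s : ℝ} {x : E n}
    (hx : D.R ≤ len x) (hT : ∀ i j, T x i j = D.O.tv f u s x i j) :
    trS g T len x = 8 * (f / D.al (len x)) + 7 * (s / D.c (len x)) := by
  have G := gauge_of_fits h hpos
  have h0 : x ≠ 0 := ne_zero_of_le hx
  have hr : len x ≠ 0 := len_ne h0
  have hp := (D.p_pos _ hx).ne'
  rw [G.trS_len hx]
  have e : ∀ i j, (up g i j x - x i * x j / (D.p (len x) * len x ^ 2)) * T x i j =
      D.O.tv (D.al (len x))⁻¹ (D.p (len x))⁻¹ (D.c (len x))⁻¹ x i j * D.O.tv f u s x i j -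
      (D.p (len x))⁻¹ * (Nn x i * (D.O.tv f u s x i j * Nn x j)) := by
    intro i j
    rw [hT, up_eq h hx]
    unfold Nn
    field_simp
  simp only [e, Finset.sum_sub_distrib, ← Finset.mul_sum, D.O.C_tv h0, D.O.tv_N h0]
  have e2 : ∑ i, Nn x i * (u * Nn x i) = u := by
    have : ∀ i, Nn x i * (u * Nn x i) = u * (Nn x i * Nn x i) := fun i => by ring
    simp only [this, ← Finset.mul_sum, Nn_sq h0, mul_one]
  rw [e2]
  field_simp
  ring

theorem tv_smul_arg (O : Oct n) (f u s : ℝ) {t : ℝ} (ht : 0 < t) {x : E n} (hx : 0 < len x)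
    (i j : Fin n) : O.tv f u s (t • x) i j = O.tv f u s x i j := by
  unfold Oct.tv
  rw [len_smul ht.le]
  simp only [O.Z_smul, PiLp.smul_apply, smul_eq_mul]
  have e : ∑ a, t * O.Z a x i * (t * O.Z a x j) = t ^ 2 * ∑ a, O.Z a x i * O.Z a x j := by
    rw [Finset.mul_sum]; exact Finset.sum_congr rfl fun a _ => by ring
  rw [e]
  field_simp

/-- the radial derivative of the metric -/
theorem Dr_g (h : Fits D g K) {x : E n} (hx : D.R ≤ len x) (i j : Fin n) :
    Dr g x i j = D.O.tv (deriv D.al (len x)) (deriv D.p (len x)) (deriv D.c (len x)) x i j := by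
  have h0 : x ≠ 0 := ne_zero_of_le hx
  have hr : 0 < len x := lt_of_lt_of_le D.hR hx
  refine Dr_eq_of_scale hr ((h.smooth i j).1.differentiable (by norm_num) x)
    (φ := fun r => D.O.tv (D.al r) (D.p r) (D.c r) x i j) ?_ ?_
  · unfold Oct.tv
    exact (((hasDeriv_al D (len x)).mul_const _).fun_add
      ((hasDeriv_p D (len x)).mul_const _)).fun_add ((hasDeriv_c D (len x)).mul_const _)
  · intro t ht
    have ht0 : 0 < t := by linarith
    have hle : D.R ≤ len (t • x) := by
      rw [len_smul ht0.le]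
      nlinarith
    rw [g_tv h hle, tv_smul_arg _ _ _ _ ht0 hr, len_smul ht0.le]

theorem trS_K (h : Fits D g K) (hpos : ∀ y, D.R ≤ len y → (mat g y).PosDef) {x : E n}
    (hx : D.R ≤ len x) : trS g K len x = D.k (len x) := by
  rw [trS_tv h hpos hx (fun i j => K_tv h hx i j)]
  rfl

theorem theta_eq (h : Fits D g K) (hpos : ∀ y, D.R ≤ len y → (mat g y).PosDef) {x : E n}
    (hx : D.R ≤ len x) : thetaPlus g K len x = D.H (len x) + D.k (len x) := by
  have G := gauge_of_fits h hpos
  have hr : 0 < len x := lt_of_lt_of_le D.hR hx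
  have hal := (D.al_pos _ hx).ne'
  have hc := (D.c_pos _ hx).ne'
  have hn' : (n : ℝ) = 16 := by exact_mod_cast Oct.card_eq (ne_zero_of_le hx) D.O
  rw [G.theta_len hx, trS_K h hpos hx, D.H_eq hx,
    trS_tv h hpos hx (fun i j => Dr_g h hx i j), hn']
  congr 2
  unfold Data.hh
  field_simp
  ring

/-- at the outermost point of the weakly future trapped boundary the sphere has nonpositive null
expansion. -/
theorem touch (D : Data n) {X : Exterior n} (h : Fits D X.g X.K) (hT : X.Trapped)
    (hR : IsGreatest {r | ∃ x, X.F x = 0 ∧ len x = r} D.R) : D.H D.R + D.k D.R ≤ 0 := by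
  have hpos := posDef_of_fits hR
  have hn : 2 ≤ n := by
    obtain ⟨x, -, hx⟩ := hR.1
    have h0 : x ≠ 0 := ne_zero_of_le hx.ge
    have := Oct.card_eq h0 D.O
    omega
  have hout := Vale.Agent.C92.outside_nonneg hn X hR
  obtain ⟨x0, hF0, hx0⟩ := hR.1
  have h1 := Vale.Agent.C92.theta_compare (g := X.g) (K := X.K) X.dom.1 D.hR hx0
    (X.pos x0 hF0.ge) (X.dom.2.1 x0 hF0) (fun x hx => by rw [hF0]; exact hout x hx)
  have h2 := hT x0 hF0
  rw [theta_eq h hpos hx0.ge, hx0] at h1
  exact h1.trans h2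

end Vale.Agent.S9
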