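import Vale.Agent.P366.T2.C92d
import Vale.Agent.P366.T2.S9.Touch
import Vale.Agent.P366.T2.S9.Key

/-! Decay of the coefficient functions. -/

open MeasureTheory Metric Filter Topology Set
open scoped ContDiff ENNReal

noncomputable section
namespace Vale.Agent.S9
open Vale.Agent.P366.Stmt
open Vale.Agent.C92 (Dr)

variable {n : ℕ}

/-- entries of the invariant projections are bounded -/
theorem proj_entry (O : Oct n) {x : E n} (hx : x ≠ 0) {f u s : ℝ} (hf : f * f = f)
    (hu : u * u = u) (hs : s * s = s) (hb : 8 * f + u + 7 * s ≤ 9) (i j : Fin n) :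
    |O.tv f u s x i j| ≤ 3 := by
  have hsq : ∀ i, ∑ j, O.tv f u s x i j ^ 2 = O.tv f u s x i i := by
    intro i
    have h := O.tv_mul hx f u s f u s i i
    rw [hf, hu, hs] at h
    rw [← h]
    exact Finset.sum_congr rfl fun j _ => by rw [O.tv_symm f u s x j i]; ring
  have hnn : ∀ i, 0 ≤ O.tv f u s x i i := fun i => by
    rw [← hsq i]; exact Finset.sum_nonneg fun j _ => sq_nonneg _
  have h1 : O.tv f u s x i j ^ 2 ≤ O.tv f u s x i i := by
    rw [← hsq i]
    exact Finset.single_le_sum (f := fun j => O.tv f u s x i j ^ 2) (fun j _ => sq_nonneg _)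
      (Finset.mem_univ j)
  have h2 : O.tv f u s x i i ≤ 9 := by
    have := Finset.single_le_sum (f := fun i => O.tv f u s x i i) (fun j _ => hnn j)
      (Finset.mem_univ i)
    rw [O.trace_tv hx] at this
    exact this.trans hb
  have h3 : O.tv f u s x i j ^ 2 ≤ 3 ^ 2 := by linarith
  exact abs_le_of_sq_le_sq h3 (by norm_num)

/-- the coefficients of a decaying invariant tensor decay -/
theorem coef_decay {n : ℕ} (O : Oct n) (hn : 0 < n) {T : Field n} {f u s : ℝ → ℝ} {R q : ℝ}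
    (hR : 0 < R)
    (hT : ∀ x, R ≤ len x → ∀ i j, T x i j = O.tv (f (len x)) (u (len x)) (s (len x)) x i j)
    (hb : ∀ i j, BigO q (fun x => T x i j)) :
    ∃ C R' : ℝ, R ≤ R' ∧ 0 ≤ C ∧ ∀ r, R' < r → |f r| ≤ C * r ^ (-q) ∧ |u r| ≤ C * r ^ (-q) ∧
      |s r| ≤ C * r ^ (-q) := by
  obtain ⟨C, R0, hC, hR0, h⟩ := Vale.Agent.P366.Bridge.uniform_bigO (ι := Fin n × Fin n) (q := q)
    (f := fun p x => T x p.1 p.2) (fun p => hb p.1 p.2)
  refine ⟨3 * n * n * C, max R R0, le_max_left _ _, by positivity, ?_⟩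
  intro r hr
  have hr1 : R < r := (le_max_left _ _).trans_lt hr
  have hr2 : R0 < r := (le_max_right _ _).trans_lt hr
  have hr0 : 0 < r := hR.trans hr1
  set x : E n := r • EuclideanSpace.single ⟨0, hn⟩ 1 with hx
  have hlen : len x = r := by
    unfold len
    rw [hx, norm_smul, Real.norm_eq_abs, abs_of_pos hr0]
    simp
  have h0 : x ≠ 0 := by
    intro h; rw [h] at hlen; simp [len] at hlen; linarith
  have hTx : ∀ i j, T x i j = O.tv (f r) (u r) (s r) x i j := by
    intro i j; rw [hT x (by rw [hlen]; exact hr1.le), hlen]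
  have hle : ∀ i j, |T x i j| ≤ C * r ^ (-q) := by
    intro i j
    have := h (i, j) x (by rw [show ‖x‖ = r from hlen]; exact hr2)
    rw [show ‖x‖ = r from hlen] at this
    exact this
  have hpos : 0 ≤ C * r ^ (-q) := by positivity
  have key : ∀ a b c : ℝ, a * a = a → b * b = b → c * c = c → 8 * a + b + 7 * c ≤ 9 →
      |8 * (a * f r) + b * u r + 7 * (c * s r)| ≤ 3 * n * n * C * r ^ (-q) := by
    intro a b c ha hb hc hbd
    rw [← O.C_tv h0 a b c (f r) (u r) (s r)]
    have e1 : |∑ k, ∑ l, O.tv a b c x k l * O.tv (f r) (u r) (s r) x k l| ≤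
        ∑ k : Fin n, ∑ l : Fin n, 3 * (C * r ^ (-q)) := by
      refine (Finset.abs_sum_le_sum_abs _ _).trans (Finset.sum_le_sum fun k _ => ?_)
      refine (Finset.abs_sum_le_sum_abs _ _).trans (Finset.sum_le_sum fun l _ => ?_)
      rw [abs_mul, ← hTx]
      exact mul_le_mul (proj_entry O h0 ha hb hc hbd k l) (hle k l) (abs_nonneg _) (by norm_num)
    refine e1.trans (le_of_eq ?_)
    simp
    ring
  refine ⟨?_, ?_, ?_⟩
  · have := key 1 0 0 (by norm_num) (by norm_num) (by norm_num) (by norm_num)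
    rw [show 8 * (1 * f r) + 0 * u r + 7 * (0 * s r) = 8 * f r by ring, abs_mul] at this
    rw [abs_of_pos (show (0:ℝ) < 8 by norm_num)] at this
    have h2 := abs_nonneg (f r)
    linarith
  · have := key 0 1 0 (by norm_num) (by norm_num) (by norm_num) (by norm_num)
    rw [show 8 * (0 * f r) + 1 * u r + 7 * (0 * s r) = u r by ring] at this
    exact this
  · have := key 0 0 1 (by norm_num) (by norm_num) (by norm_num) (by norm_num)
    rw [show 8 * (0 * f r) + 0 * u r + 7 * (1 * s r) = 7 * s r by ring, abs_mul] at this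
    rw [abs_of_pos (show (0:ℝ) < 7 by norm_num)] at this
    have h2 := abs_nonneg (s r)
    linarith

/-- decay of the radial derivative -/
theorem Dr_bigO {g : Field n} {q : ℝ} (h : ∀ i j k, BigO q (pd k fun x => g x i j))
    (i j : Fin n) : BigO q (fun x => Dr g x i j) := by
  obtain ⟨C, R0, hC, hR0, h1⟩ := Vale.Agent.P366.Bridge.uniform_bigO (ι := Fin n) (q := q)
    (f := fun k => pd k fun x => g x i j) (fun k => h i j k)
  refine ⟨n * C, R0, fun x hx => ?_⟩
  have hr : 0 < len x := hR0.trans hx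
  have h0 : x ≠ 0 := by
    intro h; rw [h] at hr; simp [len] at hr
  unfold Dr
  refine (Finset.abs_sum_le_sum_abs _ _).trans ?_
  have e : ∀ k ∈ Finset.univ, |x k / len x * pd k (fun z => g z i j) x| ≤ C * len x ^ (-q) := by
    intro k _
    rw [abs_mul]
    have h2 : |x k / len x| ≤ 1 := by
      rw [abs_div, abs_of_pos hr, div_le_one hr]
      have := EuclideanSpace.norm_eq x
      have h3 : |x k| ^ 2 ≤ len x ^ 2 := by
        rw [← sum_sq, sq_abs]
        have := Finset.single_le_sum (f := fun i => x i * x i)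
          (fun j _ => mul_self_nonneg (x j)) (Finset.mem_univ k)
        nlinarith
      exact (abs_le_of_sq_le_sq' h3 hr.le).2
    calc |x k / len x| * |pd k (fun z => g z i j) x| ≤ 1 * (C * len x ^ (-q)) :=
          mul_le_mul h2 (h1 k x hx) (abs_nonneg _) (by norm_num)
      _ = _ := one_mul _
  refine (Finset.sum_le_sum e).trans (le_of_eq ?_)
  simp
  ring

/-- all decay information -/
theorem decay (D : Data n) {X : Exterior n} (hn : n = 16) (h : Fits D X.g X.K) (hAF : X.IsAF) :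
    ∃ q C R' : ℝ, 7 < q ∧ D.R ≤ R' ∧ 0 ≤ C ∧ ∀ r, R' < r →
      |D.al r - 1| ≤ C * r ^ (-q) ∧ |D.p r - 1| ≤ C * r ^ (-q) ∧ |D.c r - 1| ≤ C * r ^ (-q) ∧
      |deriv D.al r| ≤ C * r ^ (-(q + 1)) ∧ |deriv D.p r| ≤ C * r ^ (-(q + 1)) ∧
      |deriv D.c r| ≤ C * r ^ (-(q + 1)) ∧
      |D.ka r| ≤ C * r ^ (-(q + 1)) ∧ |D.kn r| ≤ C * r ^ (-(q + 1)) ∧
      |D.kc r| ≤ C * r ^ (-(q + 1)) := by
  obtain ⟨q, hq, hb⟩ := hAF
  have hn0 : 0 < n := by omega
  have i0 : Fin n := ⟨0, hn0⟩
  have hq7 : 7 < q := by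
    have : (n : ℝ) = 16 := by exact_mod_cast hn
    rw [this] at hq
    linarith
  obtain ⟨C1, R1, hR1, hC1, h1⟩ := coef_decay D.O hn0 (T := fun x i j => X.g x i j -
    if i = j then 1 else 0) (f := fun r => D.al r - 1) (u := fun r => D.p r - 1)
    (s := fun r => D.c r - 1) (q := q) D.hR (by
      intro x hx i j
      rw [g_tv h hx, ← D.O.tv_one (x := x) i j]
      unfold Oct.tv
      ring) (fun i j => (hb i j i0 i0).1)
  obtain ⟨C2, R2, hR2, hC2, h2⟩ := coef_decay D.O hn0 (T := Dr X.g) (f := deriv D.al)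
    (u := deriv D.p) (s := deriv D.c) (q := q + 1) D.hR (fun x hx i j => Dr_g h hx i j)
    (fun i j => Dr_bigO (fun i j k => (hb i j k i0).2.1) i j)
  obtain ⟨C3, R3, hR3, hC3, h3⟩ := coef_decay D.O hn0 (T := X.K) (f := D.ka)
    (u := D.kn) (s := D.kc) (q := q + 1) D.hR (fun x hx i j => K_tv h hx i j)
    (fun i j => (hb i j i0 i0).2.2.2.1)
  refine ⟨q, C1 + C2 + C3, max R1 (max R2 R3), hq7, hR1.trans (le_max_left _ _),
    by positivity, ?_⟩
  intro r hr
  have hr1 : R1 < r := (le_max_left _ _).trans_lt hr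
  have hr2 : R2 < r := ((le_max_left _ _).trans (le_max_right _ _)).trans_lt hr
  have hr3 : R3 < r := ((le_max_right _ _).trans (le_max_right _ _)).trans_lt hr
  have hr0 : 0 < r := D.hR.trans_le (hR1.trans hr1.le)
  have hp1 : 0 ≤ r ^ (-q) := Real.rpow_nonneg hr0.le _
  have hp2 : 0 ≤ r ^ (-(q + 1)) := Real.rpow_nonneg hr0.le _
  obtain ⟨a1, a2, a3⟩ := h1 r hr1
  obtain ⟨b1, b2, b3⟩ := h2 r hr2
  obtain ⟨c1, c2, c3⟩ := h3 r hr3
  have e1 : C1 * r ^ (-q) ≤ (C1 + C2 + C3) * r ^ (-q) :=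
    mul_le_mul_of_nonneg_right (by linarith) hp1
  have e2 : C2 * r ^ (-(q + 1)) ≤ (C1 + C2 + C3) * r ^ (-(q + 1)) :=
    mul_le_mul_of_nonneg_right (by linarith) hp2
  have e3 : C3 * r ^ (-(q + 1)) ≤ (C1 + C2 + C3) * r ^ (-(q + 1)) :=
    mul_le_mul_of_nonneg_right (by linarith) hp2
  exact ⟨a1.trans e1, a2.trans e1, a3.trans e1, b1.trans e2, b2.trans e2, b3.trans e2,
    c1.trans e3, c2.trans e3, c3.trans e3⟩

end Vale.Agent.S9
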