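import Vale.Agent.P366.T2.S9.Asym

/-! The limit of the mass. -/

open MeasureTheory Metric Filter Topology Set
open scoped ContDiff ENNReal

noncomputable section
namespace Vale.Agent.S9
open Vale.Agent.P366.Stmt

variable {n : ℕ}

/-- from decay to limits of weighted quantities -/
theorem tendsto_weight {u : ℝ → ℝ} {q C R' : ℝ} (k : ℕ) (hq : (k : ℝ) < q)
    (h : ∀ r, R' < r → |u r| ≤ C * r ^ (-q)) :
    Tendsto (fun r => r ^ k * u r) atTop (𝓝 0) := by
  have h1 : Tendsto (fun r : ℝ => C * r ^ (-(q - k))) atTop (𝓝 0) := by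
    have := (tendsto_rpow_neg_atTop (show 0 < q - k by linarith)).const_mul C
    simpa using this
  refine squeeze_zero_norm' ?_ h1
  filter_upwards [eventually_gt_atTop R', eventually_gt_atTop 0] with r hr hr0
  rw [Real.norm_eq_abs, abs_mul, abs_of_pos (pow_pos hr0 k)]
  calc r ^ k * |u r| ≤ r ^ k * (C * r ^ (-q)) :=
        mul_le_mul_of_nonneg_left (h r hr) (pow_pos hr0 k).le
    _ = C * (r ^ (k : ℝ) * r ^ (-q)) := by rw [Real.rpow_natCast]; ring
    _ = C * r ^ (-(q - k)) := by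
      rw [← Real.rpow_add hr0]; ring_nf

theorem tendsto_zero_of_weight {u : ℝ → ℝ} {k : ℕ} (h : Tendsto (fun r => r ^ k * u r) atTop (𝓝 0)) :
    Tendsto u atTop (𝓝 0) := by
  refine squeeze_zero_norm' (a := fun r => |r ^ k * u r|) ?_ (by simpa using h.abs)
  filter_upwards [eventually_ge_atTop 1] with r hr
  rw [Real.norm_eq_abs, abs_mul]
  have : 1 ≤ |r ^ k| := by
    rw [abs_of_nonneg (pow_nonneg (by linarith) k)]
    exact one_le_pow₀ hr
  nlinarith [abs_nonneg (u r)]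

/-- The one-dimensional expansion. All functions are small with the weights indicated. -/
theorem mass_limit_aux {a P c a' c' k : ℝ → ℝ} {M : ℝ}
    (ha : Tendsto (fun r => r ^ 7 * a r) atTop (𝓝 0))
    (hP : Tendsto (fun r => r ^ 7 * P r) atTop (𝓝 0))
    (hc : Tendsto (fun r => r ^ 7 * c r) atTop (𝓝 0))
    (ha' : Tendsto (fun r => r ^ 8 * a' r) atTop (𝓝 0))
    (hc' : Tendsto (fun r => r ^ 8 * c' r) atTop (𝓝 0))
    (hk : Tendsto (fun r => r ^ 8 * k r) atTop (𝓝 0))
    (hM : Tendsto (fun r : ℝ => r ^ 15 * ((15 * (1 + P r) - (8 * (1 + a r) + 7 * (1 + c r))) / r -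
      (8 * a' r + 7 * c' r))) atTop (𝓝 (30 * M))) :
    Tendsto (fun r : ℝ => r ^ 14 * (1 -
      ((1 + r * (4 * (a' r / (1 + a r)) + 7 / 2 * (c' r / (1 + c r))) / 15) ^ 2 / (1 + P r) -
        (r * k r) ^ 2 / 225) *
        (225 * (1 + c r) * (1 + a r) ^ 2 / (11 * (1 + a r) + 4 * (1 + c r)) ^ 2)))
      atTop (𝓝 (2 * M)) := by
  have a0 := tendsto_zero_of_weight ha
  have P0 := tendsto_zero_of_weight hP
  have c0 := tendsto_zero_of_weight hc
  have a0' := tendsto_zero_of_weight ha'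
  have c0' := tendsto_zero_of_weight hc'
  have k0 := tendsto_zero_of_weight hk
  -- weighted `e`
  set e : ℝ → ℝ := fun r => r * (4 * (a' r / (1 + a r)) + 7 / 2 * (c' r / (1 + c r))) / 15 with he
  have hone : ∀ {u : ℝ → ℝ}, Tendsto u atTop (𝓝 0) → Tendsto (fun r => 1 + u r) atTop (𝓝 1) :=
    fun hu => by simpa using hu.const_add 1
  have hA1 := hone a0
  have hC1 := hone c0
  have hP1 := hone P0
  have he7 : Tendsto (fun r => r ^ 7 * e r) atTop (𝓝 0) := by
    have h1 : Tendsto (fun r => (4 * ((r ^ 8 * a' r) / (1 + a r)) +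
        7 / 2 * ((r ^ 8 * c' r) / (1 + c r))) / 15) atTop
        (𝓝 ((4 * (0 / 1) + 7 / 2 * (0 / 1)) / 15)) :=
      (((ha'.div hA1 one_ne_zero).const_mul 4).add
        ((hc'.div hC1 one_ne_zero).const_mul (7 / 2))).div_const 15
    rw [show ((4 : ℝ) * (0 / 1) + 7 / 2 * (0 / 1)) / 15 = 0 by norm_num] at h1
    refine h1.congr fun r => ?_
    simp only [he]
    ring
  have e0 := tendsto_zero_of_weight he7
  -- the linear part
  have hlin : Tendsto (fun r : ℝ => r ^ 14 * (15 * P r - 8 * a r - 7 * c r - 30 * e r)) atTop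
      (𝓝 (30 * M)) := by
    have h1 : Tendsto (fun r => 8 * ((r ^ 8 * a' r) * (r ^ 7 * a r) / (1 + a r)) +
        7 * ((r ^ 8 * c' r) * (r ^ 7 * c r) / (1 + c r))) atTop
        (𝓝 (8 * (0 * 0 / 1) + 7 * (0 * 0 / 1))) :=
      ((((ha'.mul ha).div hA1 one_ne_zero).const_mul 8).add
        (((hc'.mul hc).div hC1 one_ne_zero).const_mul 7))
    rw [show (8 : ℝ) * (0 * 0 / 1) + 7 * (0 * 0 / 1) = 0 by norm_num] at h1
    have h2 := hM.add h1
    rw [add_zero] at h2
    refine h2.congr' ?_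
    have hA2 : ∀ᶠ r in atTop, 1 + a r ≠ 0 := hA1.eventually_ne one_ne_zero
    have hC2 : ∀ᶠ r in atTop, 1 + c r ≠ 0 := hC1.eventually_ne one_ne_zero
    filter_upwards [hA2, hC2, eventually_gt_atTop 0] with r h3 h4 h5
    simp only [he]
    field_simp
    ring
  -- the quadratic part
  have hY7 : Tendsto (fun r => 11 * (r ^ 7 * a r) + 4 * (r ^ 7 * c r)) atTop (𝓝 0) := by
    have := (ha.const_mul 11).add (hc.const_mul 4)
    simpa using this
  have y0 : Tendsto (fun r => 11 * a r + 4 * c r) atTop (𝓝 0) := by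
    have := (a0.const_mul 11).add (c0.const_mul 4)
    simpa using this
  have h2a : Tendsto (fun r => 2 + a r) atTop (𝓝 2) := by simpa using a0.const_add 2
  have h2e : Tendsto (fun r => 2 + e r) atTop (𝓝 2) := by simpa using e0.const_add 2
  have h30 : Tendsto (fun r => 30 + (11 * a r + 4 * c r)) atTop (𝓝 30) := by
    simpa using y0.const_add 30
  have hQ : Tendsto (fun r : ℝ => r ^ 14 * ((11 * a r + 4 * c r) ^ 2 +
      P r * (11 * a r + 4 * c r) * (30 + (11 * a r + 4 * c r)) -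
      225 * (a r ^ 2 + e r ^ 2 + c r * (a r * (2 + a r)) + c r * (e r * (2 + e r)) +
        (a r * (2 + a r)) * (e r * (2 + e r)) + c r * (a r * (2 + a r)) * (e r * (2 + e r)))))
      atTop (𝓝 0) := by
    have h1 := ((hY7.pow 2).add ((hP.mul hY7).mul h30)).sub
      ((((((ha.pow 2).add (he7.pow 2)).add ((hc.mul ha).mul h2a)).add
        ((hc.mul he7).mul h2e)).add (((ha.mul he7).mul h2a).mul h2e)).add
        ((((c0.mul ha).mul he7).mul h2a).mul h2e) |>.const_mul 225)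
    have h2 : (0 : ℝ) ^ 2 + 0 * 0 * 30 - 225 * (0 ^ 2 + 0 ^ 2 + 0 * 0 * 2 + 0 * 0 * 2 +
        0 * 0 * 2 * 2 + 0 * 0 * 0 * 2 * 2) = 0 := by norm_num
    rw [h2] at h1
    refine h1.congr fun r => ?_
    ring
  have hS : Tendsto (fun r => 11 * (1 + a r) + 4 * (1 + c r)) atTop (𝓝 15) := by
    have := (hA1.const_mul 11).add (hC1.const_mul 4)
    rw [show (11 : ℝ) * 1 + 4 * 1 = 15 by norm_num] at this
    exact this
  have hden : Tendsto (fun r => (1 + P r) * (11 * (1 + a r) + 4 * (1 + c r)) ^ 2) atTop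
      (𝓝 225) := by
    have := hP1.mul (hS.pow 2)
    rw [show (1 : ℝ) * 15 ^ 2 = 225 by norm_num] at this
    exact this
  have hk2 : Tendsto (fun r => (r ^ 8 * k r) ^ 2 * ((1 + c r) * (1 + a r) ^ 2 /
      (11 * (1 + a r) + 4 * (1 + c r)) ^ 2)) atTop (𝓝 0) := by
    have := (hk.pow 2).mul ((hC1.mul (hA1.pow 2)).div (hS.pow 2) (by norm_num))
    rw [show (0 : ℝ) ^ 2 * (1 * 1 ^ 2 / 15 ^ 2) = 0 by norm_num] at this
    exact this
  have hfin := (((hlin.const_mul 15).add hQ).div hden (by norm_num)).add hk2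
  rw [show (15 * (30 * M) + 0) / 225 + 0 = 2 * M by ring] at hfin
  refine hfin.congr' ?_
  have hA2 : ∀ᶠ r in atTop, 1 + a r ≠ 0 := hA1.eventually_ne one_ne_zero
  have hC2 : ∀ᶠ r in atTop, 1 + c r ≠ 0 := hC1.eventually_ne one_ne_zero
  have hP2 : ∀ᶠ r in atTop, 1 + P r ≠ 0 := hP1.eventually_ne one_ne_zero
  have hS2 : ∀ᶠ r in atTop, 11 * (1 + a r) + 4 * (1 + c r) ≠ 0 :=
    hS.eventually_ne (by norm_num)
  filter_upwards [hA2, hC2, hP2, hS2, eventually_gt_atTop 0] with r h3 h4 h5 h6 h7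
  have e1 : r * (4 * (a' r / (1 + a r)) + 7 / 2 * (c' r / (1 + c r))) / 15 = e r := rfl
  rw [e1]
  simp only [Pi.div_apply]
  generalize e r = E
  generalize a r = A at *
  generalize c r = B at *
  generalize P r = Q at *
  generalize k r = K
  field_simp
  ring

end Vale.Agent.S9
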