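import Vale.Agent.P366.T2.S9.Energy
import Vale.Agent.P366.T2.S9.Limit
import Vale.Agent.P366.T2.S9.Amin

/-! Asymptotics of `Spin(9)`-invariant asymptotically flat data. -/

open MeasureTheory Metric Filter Topology Set
open scoped ContDiff ENNReal

noncomputable section
namespace Vale.Agent.S9
open Vale.Agent.P366.Stmt

variable {n : ℕ}

/-- rescaled area -/
def Bq (D : Data n) (r : ℝ) : ℝ := D.al r ^ 4 * √(D.c r ^ 7)

theorem mass_eq (D : Data n) {r : ℝ} (hr : D.R ≤ r) :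
    D.mass r = (Bq D r ^ (1 / 15 : ℝ)) ^ (14 : ℝ) * (r ^ 14 * (1 -
      ((1 + r * (4 * (deriv D.al r / D.al r) + 7 / 2 * (deriv D.c r / D.c r)) / 15) ^ 2 /
        D.p r - (r * D.k r) ^ 2 / 225) *
        (225 * D.c r * D.al r ^ 2 / (11 * D.al r + 4 * D.c r) ^ 2))) := by
  have hr0 : 0 < r := D.hR.trans_le hr
  have hal := D.al_pos r hr
  have hp := D.p_pos r hr
  have hc := D.c_pos r hr
  have hB : 0 < Bq D r := by unfold Bq; positivity
  have h1 : D.rho r ^ (14 : ℝ) = (Bq D r ^ (1 / 15 : ℝ)) ^ (14 : ℝ) * r ^ 14 := by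
    unfold Data.rho
    rw [ar_eq D hr, show D.al r ^ 4 * √(D.c r ^ 7) = Bq D r from rfl,
      Real.mul_rpow (by positivity) hB.le]
    have e1 : (r ^ 15) ^ (1 / 15 : ℝ) = r := by
      rw [← Real.rpow_natCast, ← Real.rpow_mul hr0.le]
      norm_num
    rw [e1, Real.mul_rpow hr0.le (by positivity), mul_comm]
    congr 1
    rw [← Real.rpow_natCast]
    norm_num
  have h2 : D.H r ^ 2 = (15 / r * (1 + r * (4 * (deriv D.al r / D.al r) +
      7 / 2 * (deriv D.c r / D.c r)) / 15)) ^ 2 / D.p r := by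
    rw [D.H_eq hr, div_pow, Real.sq_sqrt hp.le]
    congr 2
    unfold Data.hh
    field_simp
    ring
  have h3 : 4 * D.lam r ^ 2 = (11 * D.al r + 4 * D.c r) ^ 2 / (r ^ 2 * D.c r * D.al r ^ 2) := by
    have hsc : 0 < √(D.c r) := Real.sqrt_pos.2 hc
    have hsc2 : √(D.c r) ^ 2 = D.c r := Real.sq_sqrt hc.le
    have e1 : √(D.Yf r) = r * √(D.c r) := by
      unfold Data.Yf
      rw [Real.sqrt_mul (by positivity), Real.sqrt_sq hr0.le]
    unfold Data.lam Data.Yb
    rw [e1]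
    generalize √(D.c r) = s at *
    rw [← hsc2]
    field_simp
    ring
  unfold Data.mass
  rw [h1, mul_assoc]
  congr 2
  have hS : 0 < 11 * D.al r + 4 * D.c r := by positivity
  rw [h3, h2]
  field_simp
  ring

/-- **Asymptotics**: the modified Hawking mass tends to twice the energy, spheres far out are not
trapped, and the momentum vanishes. -/
theorem asympt (D : Data n) {X : Exterior n} (h : Fits D X.g X.K) (hAF : X.IsAF)
    {m : ℝ} {P : Fin n → ℝ} (hm : X.IsEnergy m) (hP : X.IsMomentum P) :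
    Tendsto D.mass atTop (𝓝 (2 * m)) ∧ (∀ᶠ r in atTop, |D.k r| < D.H r) ∧ P = 0 := by
  obtain ⟨x0, hx0⟩ := X.bdry
  obtain ⟨i0, -⟩ := X.dom.2.1 x0 hx0
  have hn : n = 16 := D.O.n_eq i0.pos
  obtain ⟨q, C, R', hq, hRR', hC, hdec⟩ := decay D hn h hAF
  have hq7 : ((7 : ℕ) : ℝ) < q := by push_cast; exact hq
  have hq8 : ((8 : ℕ) : ℝ) < q + 1 := by push_cast; linarith
  have ha : Tendsto (fun r => r ^ 7 * (D.al r - 1)) atTop (𝓝 0) :=
    tendsto_weight 7 hq7 fun r hr => (hdec r hr).1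
  have hp : Tendsto (fun r => r ^ 7 * (D.p r - 1)) atTop (𝓝 0) :=
    tendsto_weight 7 hq7 fun r hr => (hdec r hr).2.1
  have hc : Tendsto (fun r => r ^ 7 * (D.c r - 1)) atTop (𝓝 0) :=
    tendsto_weight 7 hq7 fun r hr => (hdec r hr).2.2.1
  have ha' : Tendsto (fun r => r ^ 8 * deriv D.al r) atTop (𝓝 0) :=
    tendsto_weight 8 hq8 fun r hr => (hdec r hr).2.2.2.1
  have hc' : Tendsto (fun r => r ^ 8 * deriv D.c r) atTop (𝓝 0) :=
    tendsto_weight 8 hq8 fun r hr => (hdec r hr).2.2.2.2.2.1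
  have hka : Tendsto (fun r => r ^ 8 * D.ka r) atTop (𝓝 0) :=
    tendsto_weight 8 hq8 fun r hr => (hdec r hr).2.2.2.2.2.2.1
  have hkc : Tendsto (fun r => r ^ 8 * D.kc r) atTop (𝓝 0) :=
    tendsto_weight 8 hq8 fun r hr => (hdec r hr).2.2.2.2.2.2.2.2
  have one_of : ∀ {u : ℝ → ℝ}, Tendsto (fun r => r ^ 7 * (u r - 1)) atTop (𝓝 0) →
      Tendsto u atTop (𝓝 1) := by
    intro u hu
    have := (tendsto_zero_of_weight (u := fun r => u r - 1) hu).add_const 1
    simpa using this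
  have hal1 := one_of ha
  have hp1 := one_of hp
  have hc1 := one_of hc
  have hk : Tendsto (fun r => r ^ 8 * D.k r) atTop (𝓝 0) := by
    have h1 : Tendsto (fun r => 8 * ((r ^ 8 * D.ka r) / D.al r) +
        7 * ((r ^ 8 * D.kc r) / D.c r)) atTop (𝓝 (8 * (0 / 1) + 7 * (0 / 1))) :=
      ((hka.div hal1 one_ne_zero).const_mul 8).add ((hkc.div hc1 one_ne_zero).const_mul 7)
    rw [show ((8 : ℝ) * (0 / 1) + 7 * (0 / 1)) = 0 by norm_num] at h1
    refine h1.congr fun r => ?_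
    unfold Data.k
    ring
  -- the energy
  have hE := Vale.Agent.P366.T2.S9E.energy_lim (by omega) h hm
  have hM : Tendsto (fun r : ℝ => r ^ 15 * ((15 * (1 + (D.p r - 1)) -
      (8 * (1 + (D.al r - 1)) + 7 * (1 + (D.c r - 1)))) / r -
      (8 * deriv D.al r + 7 * deriv D.c r))) atTop (𝓝 (30 * m)) := by
    have h1 : (n : ℝ) = 16 := by exact_mod_cast hn
    have h2 : n - 1 = 15 := by omega
    rw [h1, h2] at hE
    rw [show 2 * ((16 : ℝ) - 1) * m = 30 * m by ring] at hE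
    refine hE.congr fun r => ?_
    have h3 : deriv (Vale.Agent.P366.T2.S9E.tau D) r = 8 * deriv D.al r + 7 * deriv D.c r :=
      (((hasDeriv_al D r).const_mul 8).add ((hasDeriv_c D r).const_mul 7)).deriv
    rw [h3]
    unfold Vale.Agent.P366.T2.S9E.tau
    ring
  have hL := mass_limit_aux (M := m) ha hp hc ha' hc' hk hM
  have hB : Tendsto (Bq D) atTop (𝓝 1) := by
    have h1 : Tendsto (fun r => D.al r ^ 4 * √(D.c r ^ 7)) atTop (𝓝 (1 ^ 4 * √(1 ^ 7))) :=
      (hal1.pow 4).mul (hc1.pow 7).sqrt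
    rw [show (1 : ℝ) ^ 4 * √(1 ^ 7) = 1 by simp] at h1
    exact h1
  have hB' : Tendsto (fun r => (Bq D r ^ (1 / 15 : ℝ)) ^ (14 : ℝ)) atTop (𝓝 1) := by
    have h1 := (hB.rpow_const (p := 1 / 15) (Or.inl one_ne_zero)).rpow_const
      (p := 14) (Or.inl (by simp))
    simpa using h1
  refine ⟨?_, ?_, Vale.Agent.P366.T2.S9E.P_zero h hP⟩
  · have h1 := hB'.mul hL
    rw [one_mul] at h1
    refine h1.congr' ?_
    filter_upwards [eventually_ge_atTop D.R] with r hr
    rw [mass_eq D hr]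
    simp only [add_sub_cancel]
  · have e1 : Tendsto (fun r => (15 + (r ^ 8 * deriv D.al r / r ^ 7 * 4 / D.al r +
        r ^ 8 * deriv D.c r / r ^ 7 * (7 / 2) / D.c r)) / √(D.p r)) atTop
        (𝓝 ((15 + (0 * 0 * 4 / 1 + 0 * 0 * (7 / 2) / 1)) / √1)) := by
      have h7 : Tendsto (fun r : ℝ => (r ^ 7)⁻¹) atTop (𝓝 0) :=
        (tendsto_pow_atTop (by norm_num)).inv_tendsto_atTop
      exact (((((ha'.mul h7).mul_const 4).div hal1 one_ne_zero).add
        (((hc'.mul h7).mul_const (7 / 2)).div hc1 one_ne_zero)).const_add 15).div hp1.sqrt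
        (by simp)
    have e2 : ((15 : ℝ) + (0 * 0 * 4 / 1 + 0 * 0 * (7 / 2) / 1)) / √1 = 15 := by simp
    rw [e2] at e1
    have hk1 : Tendsto (fun r => |r * D.k r|) atTop (𝓝 0) := by
      have h1 : Tendsto (fun r : ℝ => r ^ 7 * (r * D.k r)) atTop (𝓝 0) :=
        hk.congr fun r => by ring
      simpa using (tendsto_zero_of_weight h1).abs
    have hlt := hk1.eventually_lt e1 (by norm_num)
    filter_upwards [hlt, eventually_ge_atTop D.R] with r hr hrR
    have hr0 : 0 < r := D.hR.trans_le hrR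
    have hal := D.al_pos r hrR
    have hcc := D.c_pos r hrR
    have e3 : D.H r = ((15 + (r ^ 8 * deriv D.al r / r ^ 7 * 4 / D.al r +
        r ^ 8 * deriv D.c r / r ^ 7 * (7 / 2) / D.c r)) / √(D.p r)) / r := by
      rw [D.H_eq hrR, div_right_comm]
      congr 1
      unfold Data.hh
      field_simp
      ring
    rw [e3, lt_div_iff₀ hr0]
    rw [abs_mul, abs_of_pos hr0] at hr
    linarith

end Vale.Agent.S9
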