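import Vale.Agent.P366.T2.S9.Scal
import Vale.Agent.P366.T2.S9.Key
import Vale.Agent.P366.T2.B68n

/-! Trace, norm of `K`, momentum density and dominant energy condition of `Spin(9)`-invariant
data. -/

open MeasureTheory Metric Filter Topology Set
open scoped ContDiff ENNReal

noncomputable section
namespace Vale.Agent.S9
open Vale.Agent.P366.Stmt
open Vale.Agent.P366.T2 (HP)
open Vale.Agent.P366.T2.B68 (T2_abs T3_abs sum_mom con con_add con_sub con_mul)

variable {n : ℕ} {D : Data n} {g K : Field n}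

theorem tr_eq (h : Fits D g K) {x : E n} (hx : D.R ≤ len x) :
    tr g K x = D.k (len x) + D.KN (len x) := by
  unfold tr
  simp only [up_eq h hx, K_tv h hx, D.O.C_tv (ne_zero_of_le hx)]
  unfold Data.k Data.KN
  ring

theorem up_symm (h : Fits D g K) {x : E n} (hx : D.R ≤ len x) (i j : Fin n) :
    up g i j x = up g j i x := by
  rw [up_eq h hx, up_eq h hx, D.O.tv_symm]

theorem K_symm (h : Fits D g K) {x : E n} (hx : D.R ≤ len x) (i j : Fin n) :
    K x i j = K x j i := by
  rw [K_tv h hx, K_tv h hx, D.O.tv_symm]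

theorem g_symm (h : Fits D g K) {x : E n} (hx : D.R ≤ len x) (i j : Fin n) :
    g x i j = g x j i := by
  rw [g_tv h hx, g_tv h hx, D.O.tv_symm]

theorem normSq_eq (h : Fits D g K) {x : E n} (hx : D.R ≤ len x) :
    normSq g K x = D.KS2 (len x) + D.KN (len x) ^ 2 := by
  have hx0 := ne_zero_of_le hx
  have h1 : normSq g K x = ∑ i, ∑ l, (∑ k, up g i k x * K x k l) * (∑ j, up g l j x * K x j i) := by
    unfold normSq
    refine Finset.sum_congr rfl fun i _ => ?_
    have e1 : ∀ l, (∑ k, up g i k x * K x k l) * (∑ j, up g l j x * K x j i) =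
        ∑ k, ∑ j, up g i k x * up g j l x * K x i j * K x k l := by
      intro l
      rw [Finset.sum_mul_sum]
      refine Finset.sum_congr rfl fun k _ => Finset.sum_congr rfl fun j _ => ?_
      rw [up_symm h hx l j, K_symm h hx j i]
      ring
    simp only [e1]
    calc ∑ j, ∑ k, ∑ l, up g i k x * up g j l x * K x i j * K x k l
        = ∑ k, ∑ j, ∑ l, up g i k x * up g j l x * K x i j * K x k l := Finset.sum_comm
      _ = ∑ k, ∑ l, ∑ j, up g i k x * up g j l x * K x i j * K x k l :=
          Finset.sum_congr rfl fun k _ => Finset.sum_comm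
      _ = ∑ l, ∑ k, ∑ j, up g i k x * up g j l x * K x i j * K x k l := Finset.sum_comm
  rw [h1]
  simp only [up_eq h hx, K_tv h hx, D.O.tv_mul hx0, D.O.trace_tv hx0]
  unfold Data.KS2 Data.KN
  ring

/-! ### the momentum density -/

/-- coefficients of `π` -/
def pa (D : Data n) (r : ℝ) : ℝ := D.ka r - (D.k r + D.KN r) * D.al r
def pp (D : Data n) (r : ℝ) : ℝ := -(D.p r * D.k r)
def pc (D : Data n) (r : ℝ) : ℝ := D.kc r - (D.k r + D.KN r) * D.c r

theorem pi_tv (h : Fits D g K) {x : E n} (hx : D.R ≤ len x) (i j : Fin n) :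
    momT g K x i j = D.O.tv (pa D (len x)) (pp D (len x)) (pc D (len x)) x i j := by
  have hp := (D.p_pos _ hx).ne'
  have e : pp D (len x) = D.kn (len x) - (D.k (len x) + D.KN (len x)) * D.p (len x) := by
    unfold pp Data.KN; field_simp; ring
  unfold momT
  rw [tr_eq h hx, K_tv h hx, g_tv h hx, e]
  unfold Oct.tv pa pc
  ring

theorem KN_diff {r : ℝ} (hr : D.R ≤ r) : DifferentiableAt ℝ D.KN r :=
  (D.kn_smooth.differentiable (by norm_num) r).div (D.p_smooth.differentiable (by norm_num) r)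
    (D.p_pos r hr).ne'

theorem pa_der {r : ℝ} (hr : D.R ≤ r) : HasDerivAt (pa D) (deriv (pa D) r) r := by
  have h1 : DifferentiableAt ℝ D.ka r := D.ka_smooth.differentiable (by norm_num) r
  have h2 : DifferentiableAt ℝ D.al r := D.al_smooth.differentiable (by norm_num) r
  exact (h1.sub (((D.k_diff hr).add (KN_diff hr)).mul h2)).hasDerivAt

theorem pc_der {r : ℝ} (hr : D.R ≤ r) : HasDerivAt (pc D) (deriv (pc D) r) r := by
  have h1 : DifferentiableAt ℝ D.kc r := D.kc_smooth.differentiable (by norm_num) r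
  have h2 : DifferentiableAt ℝ D.c r := D.c_smooth.differentiable (by norm_num) r
  exact (h1.sub (((D.k_diff hr).add (KN_diff hr)).mul h2)).hasDerivAt

theorem pp_der {r : ℝ} (hr : D.R ≤ r) :
    HasDerivAt (pp D) (-(deriv D.p r * D.k r + D.p r * deriv D.k r)) r :=
  ((hasDeriv_p D r).mul (D.k_diff hr).hasDerivAt).neg

theorem pd_pi (h : Fits D g K) {x : E n} (hx : D.R < len x) (k i j : Fin n) :
    pd k (fun y => momT g K y i j) x =
      Nn x k * D.O.tv (deriv (pa D) (len x))
        (-(deriv D.p (len x) * D.k (len x) + D.p (len x) * deriv D.k (len x)))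
        (deriv (pc D) (len x)) x i j +
        (pp D (len x) - pc D (len x)) / len x * Oct.Ww x k i j +
        (pc D (len x) - pa D (len x)) / len x * D.O.Bb x k i j := by
  have h0 := ne_zero_of_le hx.le
  have h1 := D.O.HP_tv h0 (pa_der hx.le) (pp_der hx.le) (pc_der hx.le) k i j
  refine (h1.congr ?_).pd
  filter_upwards [(isOpen_out D.R).mem_nhds hx] with y hy
  exact pi_tv h (le_of_lt hy) i j

/-- contraction of the derivative of an invariant tensor -/
theorem con_x (h : Fits D g K) {x : E n} (hx : D.R ≤ len x) (f u s f' u' s' : ℝ) :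
    ∑ i, ∑ k, up g i k x * ∑ j, Nn x j * (Nn x k * D.O.tv f' u' s' x i j +
      (u - s) / len x * Oct.Ww x k i j + (s - f) / len x * D.O.Bb x k i j) =
      u' / D.p (len x) + (u * (8 / D.al (len x) + 7 / D.c (len x)) - 7 * s / D.c (len x) -
        8 * f / D.al (len x)) / len x := by
  have hx0 := ne_zero_of_le hx
  have hr : 0 < len x := D.hR.trans_le hx
  have e1 : ∀ i k, ∑ j, Nn x j * (Nn x k * D.O.tv f' u' s' x i j +
      (u - s) / len x * Oct.Ww x k i j + (s - f) / len x * D.O.Bb x k i j) =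
      u' * (Nn x k * Nn x i) + (u - s) / len x * ((if i = k then 1 else 0) - Nn x i * Nn x k) +
        (s - f) / len x * D.O.tv 1 0 0 x k i := by
    intro i k
    have e2 : ∀ j, Nn x j * (Nn x k * D.O.tv f' u' s' x i j +
      (u - s) / len x * Oct.Ww x k i j + (s - f) / len x * D.O.Bb x k i j) =
      Nn x k * (D.O.tv f' u' s' x i j * Nn x j) + (u - s) / len x * (Nn x j * Oct.Ww x k j i) +
      (s - f) / len x * (D.O.Bb x k i j * Nn x j) := by
      intro j
      rw [Oct.W_symm k i j]; ring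
    simp only [e2, Finset.sum_add_distrib, ← Finset.mul_sum, D.O.tv_N hx0, Oct.N_W hx0,
      D.O.N_B hx0]
    ring
  simp only [e1]
  have e3 : ∀ i, ∑ k, up g i k x * (u' * (Nn x k * Nn x i) +
      (u - s) / len x * ((if i = k then 1 else 0) - Nn x i * Nn x k) +
        (s - f) / len x * D.O.tv 1 0 0 x k i) =
      (u' - (u - s) / len x) * ((D.p (len x))⁻¹ * Nn x i) * Nn x i +
      (u - s) / len x * up g i i x + (s - f) / len x *
        ∑ k, D.O.tv (D.al (len x))⁻¹ (D.p (len x))⁻¹ (D.c (len x))⁻¹ x i k *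
          D.O.tv 1 0 0 x i k := by
    intro i
    rw [← D.O.tv_N hx0 (D.al (len x))⁻¹ (D.p (len x))⁻¹ (D.c (len x))⁻¹ i]
    simp only [Finset.mul_sum, Finset.sum_mul]
    have e4 : (u - s) / len x * up g i i x =
        ∑ k, (u - s) / len x * (up g i k x * (if i = k then 1 else 0)) := by
      simp
    rw [e4, ← Finset.sum_add_distrib, ← Finset.sum_add_distrib]
    refine Finset.sum_congr rfl fun k _ => ?_
    rw [up_eq h hx, D.O.tv_symm 1 0 0 x k i]
    ring
  simp only [e3, Finset.sum_add_distrib]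
  rw [← Finset.mul_sum, ← Finset.mul_sum, D.O.C_tv hx0]
  have e5 : ∑ i, up g i i x = 8 * (D.al (len x))⁻¹ + (D.p (len x))⁻¹ + 7 * (D.c (len x))⁻¹ := by
    simp only [up_eq h hx, D.O.trace_tv hx0]
  have e6 : ∑ i, (u' - (u - s) / len x) * ((D.p (len x))⁻¹ * Nn x i) * Nn x i =
      (u' - (u - s) / len x) * (D.p (len x))⁻¹ := by
    have : ∀ i, (u' - (u - s) / len x) * ((D.p (len x))⁻¹ * Nn x i) * Nn x i =
        (u' - (u - s) / len x) * (D.p (len x))⁻¹ * (Nn x i * Nn x i) := fun i => by ring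
    simp only [this, ← Finset.mul_sum, Nn_sq hx0, mul_one]
  rw [e5, e6]
  have hal := (D.al_pos _ hx).ne'
  have hp := (D.p_pos _ hx).ne'
  have hc := (D.c_pos _ hx).ne'
  field_simp
  ring

theorem pi_N (h : Fits D g K) {x : E n} (hx : D.R ≤ len x) (i : Fin n) :
    ∑ j, momT g K x i j * Nn x j = pp D (len x) * Nn x i := by
  simp only [pi_tv h hx, D.O.tv_N (ne_zero_of_le hx)]

theorem up_N (h : Fits D g K) {x : E n} (hx : D.R ≤ len x) (i : Fin n) :
    ∑ j, up g i j x * Nn x j = (D.p (len x))⁻¹ * Nn x i := by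
  simp only [up_eq h hx, D.O.tv_N (ne_zero_of_le hx)]

theorem pd_symm (h : Fits D g K) {x : E n} (hx : D.R < len x) (m i k : Fin n) :
    pd m (fun y => g y i k) x = pd m (fun y => g y k i) x := by
  have hgd : HP m (fun y => g y i k) (pd m (fun y => g y i k) x) x :=
    HP.of_diff ((h.smooth i k).1.differentiable (by norm_num) x)
  have h3 : (fun y => g y k i) =ᶠ[𝓝 x] (fun y => g y i k) := by
    filter_upwards [(isOpen_out D.R).mem_nhds hx] with y hy
    exact g_symm h (le_of_lt hy) k i
  exact (hgd.congr h3).pd.symm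

/-- `Λ` -/
def Lm (D : Data n) (r : ℝ) : ℝ :=
  8 * (deriv D.al r / D.al r) + deriv D.p r / D.p r + 7 * (deriv D.c r / D.c r)

theorem up_pd (h : Fits D g K) {x : E n} (hx : D.R < len x) (m : Fin n) :
    ∑ i, ∑ k, up g i k x * pd m (fun y => g y i k) x = Lm D (len x) * Nn x m := by
  have h1 := Lg_eq h hx m
  unfold Vale.Agent.P366.T2.Lg Data.ell at h1
  unfold Lm
  linarith

theorem T2_eq (h : Fits D g K) {x : E n} (hx : D.R < len x) :
    ∑ i, ∑ k, up g i k x * ∑ l, chr g l k i x * (∑ j, momT g K x l j * Nn x j) =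
      -D.k (len x) * (deriv D.p (len x) / D.p (len x) + (D.p (len x) * (8 / D.al (len x) +
        7 / D.c (len x)) - 15) / len x) + 1 / 2 * D.k (len x) * Lm D (len x) := by
  have hx0 := ne_zero_of_le hx.le
  have hal := (D.al_pos _ hx.le).ne'
  have hp := (D.p_pos _ hx.le).ne'
  have hc := (D.c_pos _ hx.le).ne'
  have h1 := T2_abs (fun i k => up g i k x) (fun i k => up_symm h hx.le i k)
    (fun m i k => pd m (fun y => g y i k) x) (fun m i k => pd_symm h hx m i k)
    (fun l => ∑ j, momT g K x l j * Nn x j)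
  have h2 : ∑ i, ∑ k, up g i k x * ∑ l, chr g l k i x * (∑ j, momT g K x l j * Nn x j) = _ := h1
  rw [h2]
  have e1 : ∀ m, ∑ l, up g m l x * ∑ j, momT g K x l j * Nn x j = -D.k (len x) * Nn x m := by
    intro m
    simp only [pi_N h hx.le]
    have : ∀ l, up g m l x * (pp D (len x) * Nn x l) = pp D (len x) * (up g m l x * Nn x l) :=
      fun l => by ring
    simp only [this, ← Finset.mul_sum, up_N h hx.le]
    unfold pp
    field_simp
  simp only [e1, up_pd h hx]
  have e2 : ∑ m, -D.k (len x) * Nn x m * (2 * (∑ i, ∑ k, up g i k x *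
      pd k (fun y => g y i m) x) - Lm D (len x) * Nn x m) =
      -D.k (len x) * (2 * (∑ i, ∑ k, up g i k x * ∑ m, Nn x m * pd k (fun y => g y i m) x) -
        Lm D (len x) * ∑ m, Nn x m * Nn x m) := by
    have e3 : ∑ i, ∑ k, up g i k x * ∑ m, Nn x m * pd k (fun y => g y i m) x =
        ∑ m, Nn x m * ∑ i, ∑ k, up g i k x * pd k (fun y => g y i m) x := by
      simp only [Finset.mul_sum]
      calc ∑ i, ∑ k, ∑ m, up g i k x * (Nn x m * pd k (fun y => g y i m) x)
          = ∑ i, ∑ m, ∑ k, up g i k x * (Nn x m * pd k (fun y => g y i m) x) :=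
            Finset.sum_congr rfl fun i _ => Finset.sum_comm
        _ = ∑ m, ∑ i, ∑ k, up g i k x * (Nn x m * pd k (fun y => g y i m) x) :=
            Finset.sum_comm
        _ = _ := Finset.sum_congr rfl fun m _ => Finset.sum_congr rfl fun i _ =>
            Finset.sum_congr rfl fun k _ => by ring
    rw [e3, mul_sub, Finset.mul_sum, Finset.mul_sum, Finset.mul_sum, Finset.mul_sum,
      ← Finset.sum_sub_distrib]
    exact Finset.sum_congr rfl fun m _ => by ring
  rw [e2, Nn_sq hx0]
  simp only [pd_g h hx, con_x h hx.le]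
  field_simp
  ring

theorem T3_eq (h : Fits D g K) {x : E n} (hx : D.R < len x) :
    ∑ j, Nn x j * ∑ i, ∑ k, up g i k x * ∑ l, chr g l k j x * momT g K x i l =
      1 / 2 * (8 * (pa D (len x) * deriv D.al (len x) / D.al (len x) ^ 2) -
        D.k (len x) * deriv D.p (len x) / D.p (len x) +
        7 * (pc D (len x) * deriv D.c (len x) / D.c (len x) ^ 2)) := by
  have hx0 := ne_zero_of_le hx.le
  have hal := (D.al_pos _ hx.le).ne'
  have hp := (D.p_pos _ hx.le).ne'
  have hc := (D.c_pos _ hx.le).ne'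
  have h1 := T3_abs (fun i k => up g i k x) (fun i k => up_symm h hx.le i k)
    (fun i k => momT g K x i k) (fun i k => by
      rw [pi_tv h hx.le, pi_tv h hx.le, D.O.tv_symm])
    (fun m i k => pd m (fun y => g y i k) x) (fun m i k => pd_symm h hx m i k) (fun l => Nn x l)
  have h2 : ∑ j, Nn x j * ∑ i, ∑ k, up g i k x * ∑ l, chr g l k j x * momT g K x i l = _ := h1
  rw [h2]
  have e1 : ∀ k m, ∑ j, Nn x j * pd j (fun y => g y k m) x =
      D.O.tv (deriv D.al (len x)) (deriv D.p (len x)) (deriv D.c (len x)) x k m := by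
    intro k m
    simp only [pd_g h hx]
    have e2 : ∀ j, Nn x j * (Nn x j * D.O.tv (deriv D.al (len x)) (deriv D.p (len x))
        (deriv D.c (len x)) x k m + (D.p (len x) - D.c (len x)) / len x * Oct.Ww x j k m +
        (D.c (len x) - D.al (len x)) / len x * D.O.Bb x j k m) =
        D.O.tv (deriv D.al (len x)) (deriv D.p (len x)) (deriv D.c (len x)) x k m *
          (Nn x j * Nn x j) + (D.p (len x) - D.c (len x)) / len x * (Nn x j * Oct.Ww x j k m) +
        (D.c (len x) - D.al (len x)) / len x * (Nn x j * D.O.Bb x j k m) := fun j => by ring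
    simp only [e2, Finset.sum_add_distrib, ← Finset.mul_sum, Nn_sq hx0, D.O.sum_N_B hx0]
    have e3 : ∑ j, Nn x j * Oct.Ww x j k m = 0 := by
      have e4 : ∀ j, Nn x j * Oct.Ww x j k m = (if k = j then Nn x j * Nn x m else 0) +
          (if m = j then Nn x j * Nn x k else 0) - 2 * Nn x k * Nn x m * (Nn x j * Nn x j) := by
        intro j; unfold Oct.Ww; split_ifs <;> ring
      simp only [e4, Finset.sum_sub_distrib, Finset.sum_add_distrib, ← Finset.mul_sum, Nn_sq hx0]
      simp
      ring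
    rw [e3]
    ring
  simp only [e1]
  have e5 : ∀ k m, ∑ i, up g k i x * ∑ l, momT g K x i l * up g l m x =
      D.O.tv ((D.al (len x))⁻¹ * (pa D (len x) * (D.al (len x))⁻¹))
        ((D.p (len x))⁻¹ * (pp D (len x) * (D.p (len x))⁻¹))
        ((D.c (len x))⁻¹ * (pc D (len x) * (D.c (len x))⁻¹)) x k m := by
    intro k m
    simp only [up_eq h hx.le, pi_tv h hx.le, D.O.tv_mul hx0]
  simp only [e5, D.O.C_tv hx0]
  unfold pp
  field_simp
  ring

theorem mom_eq (h : Fits D g K) {x : E n} (hx : D.R < len x) :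
    ∑ j, x j / len x * mom g K j x = D.lp (len x) * D.JN (len x) := by
  have hx0 := ne_zero_of_le hx.le
  have hr : 0 < len x := D.hR.trans hx
  have hal := (D.al_pos _ hx.le).ne'
  have hp := (D.p_pos _ hx.le).ne'
  have hc := (D.c_pos _ hx.le).ne'
  have hl := (D.lp_pos hx.le).ne'
  have h1 : ∑ j, x j / len x * mom g K j x = (1 / len x) * ∑ j, x j * mom g K j x := by
    rw [Finset.mul_sum]
    exact Finset.sum_congr rfl fun j _ => by ring
  have hN : ∀ j, x j = len x * Nn x j := fun j => by unfold Nn; field_simp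
  have e1 : con g x (fun i k => ∑ j, x j * pd k (fun y => momT g K y i j) x) = len x *
      ∑ i, ∑ k, up g i k x * ∑ j, Nn x j * pd k (fun y => momT g K y i j) x := by
    unfold con
    simp only [Finset.mul_sum]
    refine Finset.sum_congr rfl fun i _ => Finset.sum_congr rfl fun k _ =>
      Finset.sum_congr rfl fun j _ => ?_
    conv_lhs => rw [hN j]
    ring
  have e2 : ∑ i, ∑ k, up g i k x * ∑ l, chr g l k i x * (∑ j, momT g K x l j * x j) = len x *
      ∑ i, ∑ k, up g i k x * ∑ l, chr g l k i x * (∑ j, momT g K x l j * Nn x j) := by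
    simp only [Finset.mul_sum]
    refine Finset.sum_congr rfl fun i _ => Finset.sum_congr rfl fun k _ =>
      Finset.sum_congr rfl fun l _ => Finset.sum_congr rfl fun j _ => ?_
    conv_lhs => rw [hN j]
    ring
  have e3 : ∑ j, x j * ∑ i, ∑ k, up g i k x * ∑ l, chr g l k j x * momT g K x i l = len x *
      ∑ j, Nn x j * ∑ i, ∑ k, up g i k x * ∑ l, chr g l k j x * momT g K x i l := by
    rw [Finset.mul_sum]
    refine Finset.sum_congr rfl fun j _ => ?_
    rw [← mul_assoc, ← hN j]
  have e4 : ∑ i, ∑ k, up g i k x * ∑ j, Nn x j * pd k (fun y => momT g K y i j) x =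
      -(deriv D.p (len x) * D.k (len x) + D.p (len x) * deriv D.k (len x)) / D.p (len x) +
      (pp D (len x) * (8 / D.al (len x) + 7 / D.c (len x)) - 7 * pc D (len x) / D.c (len x) -
        8 * pa D (len x) / D.al (len x)) / len x := by
    simp only [pd_pi h hx]
    exact con_x h hx.le (pa D (len x)) (pp D (len x)) (pc D (len x)) (deriv (pa D) (len x))
      (-(deriv D.p (len x) * D.k (len x) + D.p (len x) * deriv D.k (len x)))
      (deriv (pc D) (len x))
  rw [h1, sum_mom, e1, e2, e3, e4, T2_eq h hx, T3_eq h hx]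
  have h2 : D.lp (len x) * D.JN (len x) = (8 * D.yb (len x) + 7 * D.yf (len x)) * D.KN (len x) -
      (8 * D.yb (len x) * (D.ka (len x) / D.al (len x)) +
        7 * D.yf (len x) * (D.kc (len x) / D.c (len x))) - deriv D.k (len x) := by
    unfold Data.JN Data.H Data.IIK
    field_simp
  rw [h2, D.yb_eq hx.le, D.yf_eq hx.le]
  unfold pa pp pc Lm
  generalize deriv D.k (len x) = kd
  unfold Data.k Data.KN
  field_simp
  ring

theorem mu_eq (h : Fits D g K) {x : E n} (hx : D.R < len x) :
    mu g K x = D.mu (len x) := by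
  unfold mu Data.mu
  rw [scal_eq h hx, tr_eq h hx.le, normSq_eq h hx.le]
  ring

theorem up_ww (h : Fits D g K) {x : E n} (hx : D.R ≤ len x) (w : Fin n → ℝ) :
    (∑ i, Nn x i * w i) ^ 2 / D.p (len x) ≤ ∑ i, ∑ j, up g i j x * w i * w j := by
  have hx0 := ne_zero_of_le hx
  have hal := D.al_pos _ hx
  have hp := D.p_pos _ hx
  have hc := D.c_pos _ hx
  have hid : ∀ f s : ℝ, f * f = f → s * s = s →
      0 ≤ ∑ i, ∑ j, D.O.tv f 0 s x i j * (w i * w j) := by
    intro f s hf hs
    have h1 : ∑ i, ∑ j, D.O.tv f 0 s x i j * (w i * w j) =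
        ∑ k, (∑ i, D.O.tv f 0 s x k i * w i) ^ 2 := by
      have e1 : ∀ k, (∑ i, D.O.tv f 0 s x k i * w i) ^ 2 =
          ∑ i, ∑ j, (D.O.tv f 0 s x i k * D.O.tv f 0 s x k j) * (w i * w j) := by
        intro k
        rw [sq, Finset.sum_mul_sum]
        refine Finset.sum_congr rfl fun i _ => Finset.sum_congr rfl fun j _ => ?_
        rw [D.O.tv_symm f 0 s x i k]
        ring
      simp only [e1]
      symm
      rw [Finset.sum_comm]
      refine Finset.sum_congr rfl fun i _ => ?_
      rw [Finset.sum_comm]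
      refine Finset.sum_congr rfl fun j _ => ?_
      rw [← Finset.sum_mul, D.O.tv_mul hx0, hf, hs, mul_zero]
    rw [h1]
    exact Finset.sum_nonneg fun k _ => sq_nonneg _
  have h1 := hid 1 0 (by norm_num) (by norm_num)
  have h2 := hid 0 1 (by norm_num) (by norm_num)
  have h3 : ∑ i, ∑ j, up g i j x * w i * w j =
      (D.al (len x))⁻¹ * (∑ i, ∑ j, D.O.tv 1 0 0 x i j * (w i * w j)) +
      (D.p (len x))⁻¹ * (∑ i, Nn x i * w i) ^ 2 +
      (D.c (len x))⁻¹ * ∑ i, ∑ j, D.O.tv 0 0 1 x i j * (w i * w j) := by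
    rw [sq (∑ i, Nn x i * w i), Finset.sum_mul_sum]
    simp only [Finset.mul_sum]
    rw [← Finset.sum_add_distrib, ← Finset.sum_add_distrib]
    refine Finset.sum_congr rfl fun i _ => ?_
    rw [← Finset.sum_add_distrib, ← Finset.sum_add_distrib]
    refine Finset.sum_congr rfl fun j _ => ?_
    have hr := len_ne hx0
    rw [up_eq h hx]
    unfold Oct.tv Nn
    field_simp
    ring
  rw [h3, div_eq_inv_mul]
  have h4 : 0 ≤ (D.al (len x))⁻¹ * (∑ i, ∑ j, D.O.tv 1 0 0 x i j * (w i * w j)) :=
    mul_nonneg (inv_nonneg.2 hal.le) h1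
  have h5 : 0 ≤ (D.c (len x))⁻¹ * ∑ i, ∑ j, D.O.tv 0 0 1 x i j * (w i * w j) :=
    mul_nonneg (inv_nonneg.2 hc.le) h2
  linarith

theorem dec_eq (h : Fits D g K) {x : E n} (hx : D.R < len x)
    (hD : covNorm g (mom g K) x ≤ mu g K x) : |D.JN (len x)| ≤ D.mu (len x) := by
  have hr : 0 < len x := D.hR.trans hx
  have hp := D.p_pos _ hx.le
  have hl := D.lp_pos hx.le
  rw [← mu_eq h hx]
  refine le_trans ?_ hD
  unfold covNorm
  refine Real.abs_le_sqrt ?_
  refine le_trans (le_of_eq ?_) (up_ww h hx.le (fun j => mom g K j x))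
  have h1 : ∑ j, Nn x j * mom g K j x = D.lp (len x) * D.JN (len x) := mom_eq h hx
  rw [h1, ← D.lp_sq hx.le]
  field_simp

end Vale.Agent.S9
end
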