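import Vale.Agent.P366.T2.S9.OctDef

/-! `Spin(9)`-invariant data on `ℝ¹⁶`. -/

open MeasureTheory Metric Filter Topology Set
open scoped ContDiff ENNReal

noncomputable section
namespace Vale.Agent.S9
open Vale.Agent.P366.Stmt

variable {n : ℕ}

/-- The vector `P_a x`. -/
def Oct.Z (O : Oct n) (a : Fin 9) (x : E n) (i : Fin n) : ℝ := ∑ j, O.P a i j * x j

/-- The `Spin(9)`-invariant symmetric 2-tensor with coefficient `f` on the eight horizontal
directions, `u` on the radial direction and `s` on the seven fibre directions. -/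
def Oct.ten (O : Oct n) (f u s : ℝ → ℝ) (x : E n) (i j : Fin n) : ℝ :=
  f (len x) * ((∑ a, O.Z a x i * O.Z a x j - x i * x j) / len x ^ 2) +
    u (len x) * (x i * x j / len x ^ 2) +
    s (len x) * ((if i = j then 1 else 0) - (∑ a, O.Z a x i * O.Z a x j) / len x ^ 2)

/-- Coefficient functions of `Spin(9)`-invariant data: `al`, `p`, `c` are the horizontal, radial
and fibre coefficients of the metric, `ka`, `kn`, `kc` those of `K`. -/
structure Data (n : ℕ) where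
  O : Oct n
  R : ℝ
  hR : 0 < R
  al : ℝ → ℝ
  p : ℝ → ℝ
  c : ℝ → ℝ
  ka : ℝ → ℝ
  kn : ℝ → ℝ
  kc : ℝ → ℝ
  al_smooth : ContDiff ℝ ∞ al
  p_smooth : ContDiff ℝ ∞ p
  c_smooth : ContDiff ℝ ∞ c
  ka_smooth : ContDiff ℝ ∞ ka
  kn_smooth : ContDiff ℝ ∞ kn
  kc_smooth : ContDiff ℝ ∞ kc
  al_pos : ∀ r, R ≤ r → 0 < al r
  p_pos : ∀ r, R ≤ r → 0 < p r
  c_pos : ∀ r, R ≤ r → 0 < c r

/-- The fields `g`, `K` are smooth and given by the coefficient functions on `R ≤ |x|`. -/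
structure Fits (D : Data n) (g K : Field n) : Prop where
  smooth : ∀ i j, Smooth (fun x => g x i j) ∧ Smooth (fun x => K x i j)
  hg : ∀ x, D.R ≤ len x → ∀ i j, g x i j = D.O.ten D.al D.p D.c x i j
  hK : ∀ x, D.R ≤ len x → ∀ i j, K x i j = D.O.ten D.ka D.kn D.kc x i j

namespace Data

variable (D : Data n)

/-- lapse -/
def lp (r : ℝ) : ℝ := √(D.p r)

/-- squared scale of the base of the sphere of coordinate radius `r` -/
def Yb (r : ℝ) : ℝ := r ^ 2 * D.al r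

/-- squared scale of the fibre of the sphere of coordinate radius `r` -/
def Yf (r : ℝ) : ℝ := r ^ 2 * D.c r

def yb (r : ℝ) : ℝ := deriv D.Yb r / (2 * D.Yb r)

def yf (r : ℝ) : ℝ := deriv D.Yf r / (2 * D.Yf r)

/-- mean curvature of the sphere of coordinate radius `r` -/
def H (r : ℝ) : ℝ := (8 * D.yb r + 7 * D.yf r) / D.lp r

/-- squared norm of the second fundamental form -/
def II2 (r : ℝ) : ℝ := (8 * D.yb r ^ 2 + 7 * D.yf r ^ 2) / D.p r

/-- scalar curvature of the sphere of coordinate radius `r` -/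
def Rh (r : ℝ) : ℝ := 42 / D.Yf r + 224 / D.Yb r - 56 * D.Yf r / D.Yb r ^ 2

/-- trace of `K` over the sphere -/
def k (r : ℝ) : ℝ := 8 * (D.ka r / D.al r) + 7 * (D.kc r / D.c r)

/-- `K(ν, ν)` -/
def KN (r : ℝ) : ℝ := D.kn r / D.p r

def KS2 (r : ℝ) : ℝ := 8 * (D.ka r / D.al r) ^ 2 + 7 * (D.kc r / D.c r) ^ 2

def IIK (r : ℝ) : ℝ :=
  (8 * D.yb r * (D.ka r / D.al r) + 7 * D.yf r * (D.kc r / D.c r)) / D.lp r

/-- scalar curvature of `g` -/
def Rg (r : ℝ) : ℝ := D.Rh r - D.II2 r - D.H r ^ 2 - 2 * deriv D.H r / D.lp r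

/-- energy density -/
def mu (r : ℝ) : ℝ := (D.Rg r + D.k r ^ 2 + 2 * D.k r * D.KN r - D.KS2 r) / 2

/-- radial momentum density -/
def JN (r : ℝ) : ℝ := D.H r * D.KN r - D.IIK r - deriv D.k r / D.lp r

/-- `ρ ^ 15`, the area of the sphere divided by `ω` -/
def ar (r : ℝ) : ℝ := D.Yb r ^ 4 * √(D.Yf r ^ 7)

/-- area radius -/
def rho (r : ℝ) : ℝ := (D.ar r) ^ (1 / 15 : ℝ)

/-- Dirac eigenvalue (super-potential) of the sphere -/
def lam (r : ℝ) : ℝ := (11 / 2) / √(D.Yf r) + 2 * √(D.Yf r) / D.Yb r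

/-- twice the modified Hawking mass -/
def mass (r : ℝ) : ℝ := D.rho r ^ (14 : ℝ) * (1 - (D.H r ^ 2 - D.k r ^ 2) / (4 * D.lam r ^ 2))

end Data

end Vale.Agent.S9
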