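import Vale.Agent.P366.T2.S9.Loc

/-! First derivatives of the invariant tensors. -/

open MeasureTheory Metric Filter Topology Set
open scoped ContDiff ENNReal

noncomputable section
namespace Vale.Agent.S9
open Vale.Agent.P366.Stmt
open Vale.Agent.P366.T2 (HP)

variable {n : ℕ}

theorem HP_radial {φ : ℝ → ℝ} {φ' : ℝ} {x : E n} (hx : x ≠ 0) (hφ : HasDerivAt φ φ' (len x))
    (k : Fin n) : HP k (fun y => φ (len y)) (φ' * Nn x k) x := by
  have h := HP.radial hx hφ k
  have e : φ' / len x * x k = φ' * Nn x k := by unfold Nn; ring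
  rw [e] at h
  exact h

theorem HP_eq {k : Fin n} {f : E n → ℝ} {d e : ℝ} {x : E n} (h : HP k f d x) (hde : d = e) :
    HP k f e x := hde ▸ h

theorem HP_Nn {x : E n} (hx : x ≠ 0) (k i : Fin n) :
    HP k (fun y => Nn y i) (((if i = k then 1 else 0) - Nn x i * Nn x k) / len x) x := by
  have hr : len x ≠ 0 := len_ne hx
  have h1 : HasDerivAt (fun t : ℝ => t⁻¹) (-(len x ^ 2)⁻¹) (len x) := hasDerivAt_inv hr
  have h := (HP.coord k i x).mul (HP_radial hx h1 k)
  refine (HP_eq h ?_).congr ?_
  · unfold Nn; field_simp; ring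
  · exact Eventually.of_forall fun y => by unfold Nn; ring

theorem HP_NN {x : E n} (hx : x ≠ 0) (k i j : Fin n) :
    HP k (fun y => Nn y i * Nn y j) (Oct.Ww x k i j / len x) x := by
  refine HP_eq ((HP_Nn hx k i).mul (HP_Nn hx k j)) ?_
  unfold Oct.Ww
  ring

namespace Oct

variable (O : Oct n)

theorem HP_Z (a : Fin 9) (k i : Fin n) (x : E n) : HP k (fun y => O.Z a y i) (O.P a i k) x := by
  have h := HP.sum (k := k) (x := x) Finset.univ (f := fun j y => O.P a i j * y j)
    (d := fun j => O.P a i j * (if j = k then 1 else 0))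
    (fun j _ => (HP.coord k j x).const_mul _)
  exact HP_eq h (by simp)

theorem HP_w (a : Fin 9) (k : Fin n) (x : E n) : HP k (O.w a) (2 * O.Z a x k) x := by
  have h := HP.sum (k := k) (x := x) Finset.univ (f := fun j y => y j * O.Z a y j)
    (d := fun j => (if j = k then 1 else 0) * O.Z a x j + x j * O.P a j k)
    (fun j _ => (HP.coord k j x).mul (O.HP_Z a k j x))
  refine HP_eq h ?_
  rw [Finset.sum_add_distrib]
  have e1 : ∑ j, x j * O.P a j k = O.Z a x k := by
    unfold Oct.Z
    exact Finset.sum_congr rfl fun j _ => by rw [O.symm_apply a k j]; ring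
  rw [e1]
  simp
  ring

theorem HP_om {x : E n} (hx : x ≠ 0) (a : Fin 9) (k : Fin n) :
    HP k (fun y => O.om y a) (2 / len x * O.bb x a k) x := by
  have hr : len x ≠ 0 := len_ne hx
  have h1 : HasDerivAt (fun t : ℝ => (t ^ 2)⁻¹) (-(2 * len x) / (len x ^ 2) ^ 2) (len x) := by
    have h2 : HasDerivAt (fun t : ℝ => t ^ 2) (2 * len x) (len x) := by
      simpa using hasDerivAt_pow 2 (len x)
    exact h2.fun_inv (pow_ne_zero 2 hr)
  have h := (O.HP_w a k x).mul (HP_radial hx h1 k)
  refine (HP_eq h ?_).congr ?_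
  · unfold bb om Nn; field_simp; ring
  · exact Eventually.of_forall fun y => by unfold om; ring

theorem HP_Mm {x : E n} (hx : x ≠ 0) (k i j : Fin n) :
    HP k (fun y => O.Mm y i j) (2 / len x * O.Bb x k i j) x := by
  have h := HP.sum (k := k) (x := x) Finset.univ (f := fun a y => O.om y a * O.P a i j)
    (d := fun a => (2 / len x * O.bb x a k) * O.P a i j + O.om x a * 0)
    (fun a _ => (O.HP_om hx a k).mul (HP.const k (O.P a i j) x))
  refine HP_eq h ?_
  unfold Bb
  rw [Finset.mul_sum]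
  exact Finset.sum_congr rfl fun a _ => by ring

theorem HP_tv {x : E n} (hx : x ≠ 0) {f u s : ℝ → ℝ} {f' u' s' : ℝ}
    (hf : HasDerivAt f f' (len x)) (hu : HasDerivAt u u' (len x)) (hs : HasDerivAt s s' (len x))
    (k i j : Fin n) :
    HP k (fun y => O.tv (f (len y)) (u (len y)) (s (len y)) y i j)
      (Nn x k * O.tv f' u' s' x i j + (u (len x) - s (len x)) / len x * Ww x k i j +
        (s (len x) - f (len x)) / len x * O.Bb x k i j) x := by
  have hr : len x ≠ 0 := len_ne hx
  have h1 := HP_radial hx ((hf.add hs).div_const 2) k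
  have h2 := HP_radial hx (hu.sub hs) k
  have h3 := HP_radial hx ((hs.sub hf).div_const 2) k
  have h := ((h1.mul (HP.const k (if i = j then (1 : ℝ) else 0) x)).add
    (h2.mul (HP_NN hx k i j))).add (h3.mul (O.HP_Mm hx k i j))
  refine (HP_eq h ?_).congr ?_
  · simp only [Pi.add_apply, Pi.sub_apply]
    rw [O.tv_M hx]
    field_simp
    ring
  · filter_upwards [isOpen_ne.mem_nhds hx] with y hy
    simp only [Pi.add_apply, Pi.sub_apply]
    rw [O.tv_M hy]

end Oct

/-! ### contraction sums -/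

namespace Oct

variable (O : Oct n) {x : E n} (hx : x ≠ 0)

include hx in
theorem C_W (cf cu cs : ℝ) (i : Fin n) :
    ∑ k, ∑ l, O.tv cf cu cs x k l * Ww x i k l = 0 := by
  have h1 : ∀ k, ∑ l, O.tv cf cu cs x k l * Ww x i k l =
      (if k = i then 1 else 0) * (cu * Nn x k) + Nn x k * O.tv cf cu cs x k i -
        2 * Nn x i * cu * (Nn x k * Nn x k) := by
    intro k
    have e : ∀ l, O.tv cf cu cs x k l * Ww x i k l =
        (if k = i then 1 else 0) * (O.tv cf cu cs x k l * Nn x l) +
        (if l = i then Nn x k * O.tv cf cu cs x k l else 0) -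
        2 * (Nn x k * Nn x i) * (O.tv cf cu cs x k l * Nn x l) := by
      intro l; unfold Ww; split_ifs <;> ring
    simp only [e, Finset.sum_sub_distrib, Finset.sum_add_distrib, ← Finset.mul_sum, O.tv_N hx]
    simp
    ring
  simp only [h1, Finset.sum_sub_distrib, Finset.sum_add_distrib, ← Finset.mul_sum, Nn_sq hx]
  have e2 : ∑ k, Nn x k * O.tv cf cu cs x k i = cu * Nn x i := by
    rw [← O.tv_N hx cf cu cs i]
    exact Finset.sum_congr rfl fun k _ => by rw [O.tv_symm _ _ _ x k i]; ring
  rw [e2]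
  simp
  ring

include hx in
/-- `tr (C P_a)` is a multiple of `u_a` -/
theorem C_P (cf cu cs : ℝ) (a : Fin 9) :
    ∑ k, ∑ l, O.tv cf cu cs x k l * O.P a k l = (cu - cs + 8 * (cs - cf)) * O.om x a := by
  have hn' : (n : ℝ) = 16 := by exact_mod_cast card_eq hx O
  have e : ∀ k l, O.tv cf cu cs x k l * O.P a k l =
      (cf + cs) / 2 * (if k = l then O.P a k l else 0) +
      (cu - cs) * (Nn x k * (O.P a k l * Nn x l)) +
      (cs - cf) / 2 * ∑ b, O.om x b * (O.P b k l * O.P a k l) := by
    intro k l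
    rw [O.tv_M hx]
    have : ∑ b, O.om x b * (O.P b k l * O.P a k l) = O.Mm x k l * O.P a k l := by
      unfold Mm; rw [Finset.sum_mul]; exact Finset.sum_congr rfl fun b _ => by ring
    rw [this]
    split_ifs <;> ring
  simp only [e, Finset.sum_add_distrib, ← Finset.mul_sum, O.P_N hx]
  have e1 : ∑ k, ∑ l, (if k = l then O.P a k l else 0) = 0 := by
    refine Eq.trans (Finset.sum_congr rfl fun k _ => ?_) (O.trace_P a)
    rw [Finset.sum_ite_eq, if_pos (Finset.mem_univ k)]
  have e2 : ∑ k, Nn x k * (O.bb x a k + O.om x a * Nn x k) = O.om x a := by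
    have : ∀ k, Nn x k * (O.bb x a k + O.om x a * Nn x k) = Nn x k * O.bb x a k +
      O.om x a * (Nn x k * Nn x k) := fun k => by ring
    simp only [this, Finset.sum_add_distrib, ← Finset.mul_sum, Nn_sq hx, O.N_bb hx]
    ring
  have e3 : ∑ k, ∑ l, ∑ b, O.om x b * (O.P b k l * O.P a k l) = 16 * O.om x a := by
    have : ∀ k, ∑ l, ∑ b, O.om x b * (O.P b k l * O.P a k l) =
        ∑ b, ∑ l, O.om x b * (O.P b k l * O.P a k l) := fun k => Finset.sum_comm
    simp only [this]
    rw [Finset.sum_comm]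
    simp only [← Finset.mul_sum, O.trace_PP, hn']
    simp
    ring
  rw [e1, e2, e3]
  ring

include hx in
theorem C_B (cf cu cs : ℝ) (i : Fin n) :
    ∑ k, ∑ l, O.tv cf cu cs x k l * O.Bb x i k l = 0 := by
  have h1 : ∀ k, ∑ l, O.tv cf cu cs x k l * O.Bb x i k l =
      ∑ a, ∑ l, O.bb x a i * (O.tv cf cu cs x k l * O.P a k l) := by
    intro k
    rw [Finset.sum_comm]
    refine Finset.sum_congr rfl fun l _ => ?_
    unfold Bb
    rw [Finset.mul_sum]
    exact Finset.sum_congr rfl fun a _ => by ring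
  simp only [h1]
  rw [Finset.sum_comm]
  simp only [← Finset.mul_sum, O.C_P hx]
  have : ∀ a, O.bb x a i * ((cu - cs + 8 * (cs - cf)) * O.om x a) =
    (cu - cs + 8 * (cs - cf)) * (O.om x a * O.bb x a i) := fun a => by ring
  simp only [this, ← Finset.mul_sum, O.bb_sum_om hx, mul_zero]

include hx in
theorem C_tv (cf cu cs f u s : ℝ) :
    ∑ k, ∑ l, O.tv cf cu cs x k l * O.tv f u s x k l = 8 * (cf * f) + cu * u + 7 * (cs * s) := by
  rw [← O.trace_tv hx]
  refine Finset.sum_congr rfl fun k _ => ?_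
  rw [← O.tv_mul hx]
  exact Finset.sum_congr rfl fun l _ => by rw [O.tv_symm f u s x k l]

/-- divergence of `W` -/
theorem div_W (hx : x ≠ 0) (k : Fin n) (O : Oct n) : ∑ j, Ww x j k j = 15 * Nn x k := by
  have hn := card_eq hx O
  have e : ∀ j, Ww x j k j = (if k = j then Nn x j else 0) + Nn x k -
      2 * Nn x k * (Nn x j * Nn x j) := by
    intro j
    unfold Ww
    rw [if_pos (rfl : j = j)]
    by_cases h : k = j
    · subst h; simp only [if_true]; ring
    · simp only [if_neg h]; ring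
  simp only [e, Finset.sum_sub_distrib, Finset.sum_add_distrib, ← Finset.mul_sum, Nn_sq hx]
  have hn' : (n : ℝ) = 16 := by exact_mod_cast hn
  simp [hn']
  ring

include hx in
theorem div_B (k : Fin n) : ∑ j, O.Bb x j k j = 8 * Nn x k := by
  rw [← O.P_bb hx k]
  unfold Bb
  rw [Finset.sum_comm]
  exact Finset.sum_congr rfl fun a _ => Finset.sum_congr rfl fun j _ => by ring

end Oct

end Vale.Agent.S9
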