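import Vale.Agent.P366.Bdl.B1
import Vale.Agent.P366.T2.P765
import Vale.Agent.P366.T2.S9.Scal

/-! The ADM energy and momentum of `Spin(9)`-invariant data. -/

open MeasureTheory Metric Filter Topology Set
open scoped ContDiff ENNReal

noncomputable section
namespace Vale.Agent.P366.T2.S9E

variable {n : ℕ}

/-- horizontal plus fibre trace of the metric -/
def tau (D : Vale.Agent.S9.Data n) (r : ℝ) : ℝ := 8 * D.al r + 7 * D.c r

lemma tau_smooth (D : Vale.Agent.S9.Data n) : ContDiff ℝ ∞ (tau D) := by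
  unfold tau
  exact (contDiff_const.mul D.al_smooth).add (contDiff_const.mul D.c_smooth)

lemma gx {D : Vale.Agent.S9.Data n} {g K : Stmt.Field n} (h : Vale.Agent.S9.Fits D g K) {x : E n}
    (hx : D.R ≤ ‖x‖) (i : Fin n) : ∑ j, g x i j * x j = D.p ‖x‖ * x i := by
  have hx0 : x ≠ 0 := Vale.Agent.S9.ne_zero_of_le hx
  have h1 := D.O.tv_x hx0 (D.al ‖x‖) (D.p ‖x‖) (D.c ‖x‖) i
  rw [← h1]
  exact Finset.sum_congr rfl fun j _ => by
    rw [Vale.Agent.S9.g_tv h hx i j]; rfl

lemma trg {D : Vale.Agent.S9.Data n} {g K : Stmt.Field n} (h : Vale.Agent.S9.Fits D g K) {x : E n}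
    (hx : D.R ≤ ‖x‖) : ∑ j, g x j j = tau D ‖x‖ + D.p ‖x‖ := by
  have hx0 : x ≠ 0 := Vale.Agent.S9.ne_zero_of_le hx
  have h1 := D.O.trace_tv hx0 (D.al ‖x‖) (D.p ‖x‖) (D.c ‖x‖)
  have h2 : ∑ j, g x j j = ∑ j, D.O.tv (D.al ‖x‖) (D.p ‖x‖) (D.c ‖x‖) x j j :=
    Finset.sum_congr rfl fun j _ => Vale.Agent.S9.g_tv h hx j j
  rw [h2, h1]
  unfold tau
  ring

lemma g_symm {D : Vale.Agent.S9.Data n} {g K : Stmt.Field n} (h : Vale.Agent.S9.Fits D g K)
    {x : E n} (hx : D.R ≤ ‖x‖) (i j : Fin n) : g x i j = g x j i := by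
  rw [Vale.Agent.S9.g_tv h hx i j, Vale.Agent.S9.g_tv h hx j i]
  exact D.O.tv_symm _ _ _ x i j

/-- The ADM energy integrand on the spheres. -/
lemma energy_pointwise {D : Vale.Agent.S9.Data n} {g K : Stmt.Field n}
    (h : Vale.Agent.S9.Fits D g K) {x : E n} (hx : D.R < ‖x‖) :
    ∑ i, ∑ j, (pd j (fun y => Stmt.mat g y i j) x - pd i (fun y => Stmt.mat g y j j) x) *
      (x i / ‖x‖) = (((n : ℝ) - 1) * D.p ‖x‖ - tau D ‖x‖) / ‖x‖ - deriv (tau D) ‖x‖ := by
  have hr : 0 < ‖x‖ := D.hR.trans hx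
  have hx0 : x ≠ 0 := norm_pos_iff.mp hr
  have hgd : ∀ i j, DifferentiableAt ℝ (fun y => Stmt.mat g y i j) x := fun i j =>
    ((h.smooth i j).1.differentiable (by norm_num)) x
  have hcd : ∀ i, DifferentiableAt ℝ (fun y : E n => y i) x := fun i =>
    (EuclideanSpace.proj (𝕜 := ℝ) i).differentiableAt
  have hnear : ∀ᶠ y in 𝓝 x, D.R ≤ ‖y‖ := by
    filter_upwards [(isOpen_outside (n := n) D.R).mem_nhds hx] with y hy
    exact le_of_lt hy
  have hpd : DifferentiableAt ℝ D.p ‖x‖ := (D.p_smooth.differentiable (by norm_num)) _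
  have htd : DifferentiableAt ℝ (tau D) ‖x‖ := ((tau_smooth D).differentiable (by norm_num)) _
  -- (A)
  have hA : ∀ j, ∑ i, (pd j (fun y => Stmt.mat g y i j) x * x i) + g x j j =
      deriv D.p ‖x‖ * Nc j x * x j + D.p ‖x‖ := by
    intro j
    have h1 : (fun y : E n => ∑ i, Stmt.mat g y i j * y i) =ᶠ[𝓝 x] fun y => D.p ‖y‖ * y j := by
      filter_upwards [hnear] with y hy
      rw [← gx h hy j]
      exact Finset.sum_congr rfl fun i _ => by
        rw [show Stmt.mat g y i j = g y i j from rfl, g_symm h hy i j]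
    have h2 := pd_congr h1 j
    rw [pd_sum (f := fun i y => Stmt.mat g y i j * y i) Finset.univ
      (fun i _ => (hgd i j).mul (hcd i)), pd_mul (differentiableAt_radial hx0 hpd) (hcd j), Vale.Agent.P366.pd_radial hx0 hpd, pd_coord] at h2
    simp only [if_true, mul_one] at h2
    have h3 : ∀ i, pd j (fun y => Stmt.mat g y i j * y i) x =
        Stmt.mat g x i j * (if j = i then 1 else 0) + pd j (fun y => Stmt.mat g y i j) x * x i := by
      intro i
      rw [pd_mul (hgd i j) (hcd i), pd_coord]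
    simp only [h3, Finset.sum_add_distrib, mul_ite, mul_one, mul_zero, Finset.sum_ite_eq,
      Finset.mem_univ, if_true] at h2
    rw [show g x j j = Stmt.mat g x j j from rfl]
    linarith
  -- (B)
  have hB : ∀ i, ∑ j, pd i (fun y => Stmt.mat g y j j) x =
      (deriv (tau D) ‖x‖ + deriv D.p ‖x‖) * Nc i x := by
    intro i
    have h1 : (fun y : E n => ∑ j, Stmt.mat g y j j) =ᶠ[𝓝 x]
        fun y => tau D ‖y‖ + D.p ‖y‖ := by
      filter_upwards [hnear] with y hy
      exact trg h hy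
    have h2 := pd_congr h1 i
    rw [pd_sum _ (fun j _ => hgd j j), pd_add (differentiableAt_radial hx0 htd)
      (differentiableAt_radial hx0 hpd), Vale.Agent.P366.pd_radial hx0 hpd, Vale.Agent.P366.pd_radial hx0 htd] at h2
    rw [h2]; ring
  have hS : ∑ j, (deriv D.p ‖x‖ * Nc j x * x j + D.p ‖x‖) =
      deriv D.p ‖x‖ * ‖x‖ + n * D.p ‖x‖ := by
    have h1 : ∀ j, deriv D.p ‖x‖ * Nc j x * x j + D.p ‖x‖ =
        deriv D.p ‖x‖ * ‖x‖ * Nc j x ^ 2 + D.p ‖x‖ := by
      intro j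
      unfold Nc
      field_simp
    simp only [h1, Finset.sum_add_distrib]
    rw [← Finset.mul_sum, sum_Nc_sq hx0]
    simp
  have hT : ∑ i, ∑ j, pd j (fun y => Stmt.mat g y i j) x * x i =
      deriv D.p ‖x‖ * ‖x‖ + n * D.p ‖x‖ - (tau D ‖x‖ + D.p ‖x‖) := by
    rw [Finset.sum_comm, ← hS, ← trg h hx.le, ← Finset.sum_sub_distrib]
    refine Finset.sum_congr rfl fun j _ => ?_
    have := hA j
    linarith
  have hU : ∑ i, ∑ j, pd i (fun y => Stmt.mat g y j j) x * x i =
      (deriv (tau D) ‖x‖ + deriv D.p ‖x‖) * ‖x‖ := by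
    have h1 : ∀ i, ∑ j, pd i (fun y => Stmt.mat g y j j) x * x i =
        (deriv (tau D) ‖x‖ + deriv D.p ‖x‖) * ‖x‖ * Nc i x ^ 2 := by
      intro i
      rw [← Finset.sum_mul, hB i]
      unfold Nc
      field_simp
    simp only [h1]
    rw [← Finset.mul_sum, sum_Nc_sq hx0, mul_one]
  have hV : ∑ i, ∑ j, (pd j (fun y => Stmt.mat g y i j) x - pd i (fun y => Stmt.mat g y j j) x) *
      (x i / ‖x‖) = (∑ i, ∑ j, pd j (fun y => Stmt.mat g y i j) x * x i -
        ∑ i, ∑ j, pd i (fun y => Stmt.mat g y j j) x * x i) / ‖x‖ := by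
    rw [← Finset.sum_sub_distrib, Finset.sum_div]
    refine Finset.sum_congr rfl fun i _ => ?_
    rw [← Finset.sum_sub_distrib, Finset.sum_div]
    refine Finset.sum_congr rfl fun j _ => ?_
    ring
  rw [hV, hT, hU]
  field_simp
  ring

/-- The ADM energy as a limit of a radial expression. -/
theorem energy_lim (hn : 3 ≤ n) {D : Vale.Agent.S9.Data n} {X : Stmt.Exterior n}
    (h : Vale.Agent.S9.Fits D X.g X.K) {m : ℝ} (hm : X.IsEnergy m) :
    Tendsto (fun r : ℝ => r ^ (n - 1) *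
      ((((n : ℝ) - 1) * D.p r - tau D r) / r - deriv (tau D) r)) atTop
      (𝓝 (2 * ((n : ℝ) - 1) * m)) := by
  have : Nonempty (Fin n) := ⟨⟨0, by omega⟩⟩
  have : Nontrivial (E n) := inferInstance
  have hn1 : (n : ℝ) - 1 ≠ 0 := by
    have : (3 : ℝ) ≤ n := by exact_mod_cast hn
    intro h; linarith
  have hω : omega n ≠ 0 := omega_pos'.ne'
  have h1 := energy_bridge X hm
  have h2 : Tendsto (fun R : ℝ => R ^ (n - 1) *
      ((((n : ℝ) - 1) * D.p R - tau D R) / R - deriv (tau D) R) / (2 * ((n : ℝ) - 1))) atTop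
      (𝓝 m) := by
    refine h1.congr' ?_
    filter_upwards [eventually_gt_atTop D.R] with R hR
    have hR0 : 0 < R := D.hR.trans hR
    have h3 : sphInt R (fun x =>
        ∑ i, ∑ j, (pd j (fun y => Stmt.mat X.g y i j) x - pd i (fun y => Stmt.mat X.g y j j) x) *
          (x i / ‖x‖)) = R ^ (n - 1) * sphI (fun _ : E n =>
          ((((n : ℝ) - 1) * D.p R - tau D R) / R - deriv (tau D) R)) R := by
      unfold sphInt
      congr 1
      refine sphI_congr (u := fun x : E n => ∑ i, ∑ j, (pd j (fun y => Stmt.mat X.g y i j) x -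
        pd i (fun y => Stmt.mat X.g y j j) x) * (x i / ‖x‖)) hR0.le fun x hx => ?_
      rw [energy_pointwise h (by rw [hx]; exact hR), hx]
    rw [h3, sphI_const]
    field_simp
  have h4 := h2.const_mul (2 * ((n : ℝ) - 1))
  refine h4.congr fun R => ?_
  field_simp

lemma len_neg (x : E n) : Stmt.len (-x) = Stmt.len x := norm_neg x

lemma Z_neg (O : Vale.Agent.S9.Oct n) (a : Fin 9) (x : E n) (i : Fin n) :
    O.Z a (-x) i = -O.Z a x i := by
  unfold Vale.Agent.S9.Oct.Z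
  simp [Finset.sum_neg_distrib]

lemma ten_neg (O : Vale.Agent.S9.Oct n) (f u s : ℝ → ℝ) (x : E n) (i j : Fin n) :
    O.ten f u s (-x) i j = O.ten f u s x i j := by
  unfold Vale.Agent.S9.Oct.ten
  simp only [len_neg, Z_neg, PiLp.neg_apply, mul_neg, neg_mul, neg_neg]

lemma momT_even {D : Vale.Agent.S9.Data n} {g K : Stmt.Field n} (h : Vale.Agent.S9.Fits D g K)
    {x : E n} (hx : D.R ≤ Stmt.len x) (i j : Fin n) :
    Stmt.momT g K (-x) i j = Stmt.momT g K x i j := by
  have hx' : D.R ≤ Stmt.len (-x) := by rwa [len_neg]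
  have hg : ∀ i j, g (-x) i j = g x i j := fun i j => by
    rw [h.hg _ hx', h.hg _ hx, ten_neg]
  have hK : ∀ i j, K (-x) i j = K x i j := fun i j => by
    rw [h.hK _ hx', h.hK _ hx, ten_neg]
  have hm : Stmt.mat g (-x) = Stmt.mat g x := by
    funext i j; exact hg i j
  have hu : ∀ i j, Stmt.up g i j (-x) = Stmt.up g i j x := fun i j => by
    unfold Stmt.up; rw [hm]
  unfold Stmt.momT Stmt.tr
  simp only [hg, hK, hu]

/-- the ADM momentum vanishes -/
theorem P_zero {D : Vale.Agent.S9.Data n} {X : Stmt.Exterior n} (h : Vale.Agent.S9.Fits D X.g X.K)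
    {P : Fin n → ℝ} (hP : X.IsMomentum P) : P = 0 := by
  funext i
  refine tendsto_nhds_unique (hP i) ?_
  refine Tendsto.congr' ?_ tendsto_const_nhds
  filter_upwards [eventually_ge_atTop D.R] with R hR
  have hR0 : 0 < R := D.hR.trans_le hR
  rw [flx_even (fun x hx j => ?_) hR0.le]
  · simp
  · exact momT_even h (by rw [hx]; exact hR) i j

end Vale.Agent.P366.T2.S9E
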