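import Vale.Agent.P366.T2.S9.Alg
import Vale.Agent.P366.T2.Inv591

/-!
`Spin(9)`-invariance determines the form of `g` and `K`.
-/

open Matrix
open scoped ContDiff

noncomputable section
namespace Vale.Agent.S9
open Vale.Agent.P366.Stmt Vale.Agent.P366.T2

variable {n : ℕ}

/-- unit vectors in the kernel -/
lemma exists_unit_ker {k : ℕ} (hk : k < 9) (Φ : (Fin 9 → ℝ) →ₗ[ℝ] (Fin k → ℝ)) :
    ∃ z : Fin 9 → ℝ, z ⬝ᵥ z = 1 ∧ Φ z = 0 := by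
  have h := LinearMap.ker_ne_bot_of_finrank_lt (f := Φ) (by simpa using hk)
  obtain ⟨z, hz, hz0⟩ := (Submodule.ne_bot_iff _).1 h
  have hp := Quat.dot_self_pos hz0
  refine ⟨(√(z ⬝ᵥ z))⁻¹ • z, ?_, ?_⟩
  · rw [smul_dotProduct, dotProduct_smul, smul_eq_mul, smul_eq_mul]
    have : √(z ⬝ᵥ z) ≠ 0 := (Real.sqrt_pos.2 hp).ne'
    field_simp
    rw [Real.sq_sqrt hp.le]
  · rw [map_smul, LinearMap.mem_ker.1 hz, smul_zero]

/-- the linear map with given components -/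
def lin {k : ℕ} (φ : Fin k → (Fin 9 → ℝ)) : (Fin 9 → ℝ) →ₗ[ℝ] (Fin k → ℝ) where
  toFun z i := z ⬝ᵥ φ i
  map_add' x y := by funext i; simp [add_dotProduct]
  map_smul' c x := by funext i; simp [smul_dotProduct]

lemma exists_perp3 (p q r : Fin 9 → ℝ) : ∃ z : Fin 9 → ℝ, z ⬝ᵥ z = 1 ∧ z 8 = 0 ∧ z ⬝ᵥ p = 0 ∧
    z ⬝ᵥ q = 0 ∧ z ⬝ᵥ r = 0 := by
  obtain ⟨z, hz, h⟩ := exists_unit_ker (k := 4) (by norm_num)
    (lin ![_root_.Pi.single 8 1, p, q, r])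
  have h0 := congrFun h 0
  have h1 := congrFun h 1
  have h2 := congrFun h 2
  have h3 := congrFun h 3
  refine ⟨z, hz, ?_, h1, h2, h3⟩
  simpa [lin] using h0

/-- a quadratic form which takes equal values on orthonormal pairs -/
lemma const_form {T : Matrix (Fin 9) (Fin 9) ℝ} (hT : Tᵀ = T) (W : Submodule ℝ (Fin 9 → ℝ))
    (hW : ∀ p ∈ W, ∀ q ∈ W, p ⬝ᵥ p = 1 → q ⬝ᵥ q = 1 → p ⬝ᵥ q = 0 →
      p ⬝ᵥ (T *ᵥ p) = q ⬝ᵥ (T *ᵥ q))
    (hperp : ∀ p q : Fin 9 → ℝ, ∃ r ∈ W, r ⬝ᵥ r = 1 ∧ r ⬝ᵥ p = 0 ∧ r ⬝ᵥ q = 0) :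
    ∃ β : ℝ, ∀ p ∈ W, ∀ q ∈ W, p ⬝ᵥ (T *ᵥ q) = β * (p ⬝ᵥ q) := by
  obtain ⟨r0, hr0, hr1, -, -⟩ := hperp 0 0
  refine ⟨r0 ⬝ᵥ (T *ᵥ r0), ?_⟩
  set β := r0 ⬝ᵥ (T *ᵥ r0) with hβ
  have unit : ∀ p ∈ W, p ⬝ᵥ p = 1 → p ⬝ᵥ (T *ᵥ p) = β := by
    intro p hp hp1
    obtain ⟨r, hr, hr2, hr3, hr4⟩ := hperp p r0
    rw [← hW r hr p hp hr2 hp1 hr3, hW r hr r0 hr0 hr2 hr1 hr4]
  have quad : ∀ p ∈ W, p ⬝ᵥ (T *ᵥ p) = β * (p ⬝ᵥ p) := by
    intro p hp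
    by_cases h0 : p = 0
    · simp [h0]
    · have hpos := Quat.dot_self_pos h0
      have hs : √(p ⬝ᵥ p) ≠ 0 := (Real.sqrt_pos.2 hpos).ne'
      have h1 := unit ((√(p ⬝ᵥ p))⁻¹ • p) (W.smul_mem _ hp) (by
        rw [smul_dotProduct, dotProduct_smul, smul_eq_mul, smul_eq_mul]
        field_simp
        rw [Real.sq_sqrt hpos.le])
      rw [mulVec_smul, smul_dotProduct, dotProduct_smul, smul_eq_mul, smul_eq_mul] at h1
      have h2 : (√(p ⬝ᵥ p))⁻¹ * ((√(p ⬝ᵥ p))⁻¹ * (p ⬝ᵥ (T *ᵥ p))) =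
          (p ⬝ᵥ (T *ᵥ p)) / (p ⬝ᵥ p) := by
        have := Real.mul_self_sqrt hpos.le
        conv_rhs => rw [← this]
        field_simp
      rw [h2, div_eq_iff hpos.ne'] at h1
      exact h1
  intro p hp q hq
  have h1 := quad _ (W.add_mem hp hq)
  have h2 := quad _ (W.sub_mem hp hq)
  have h3 : q ⬝ᵥ (T *ᵥ p) = p ⬝ᵥ (T *ᵥ q) := by
    rw [← Quat.mulVec_dot_symm hT, dotProduct_comm]
  simp only [mulVec_add, mulVec_sub, add_dotProduct, dotProduct_add, sub_dotProduct,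
    dotProduct_sub, h3, dotProduct_comm q p] at h1 h2
  linarith

namespace Oct

variable (O : Oct n)

/-- Clifford multiplication by a vector of `ℝ⁹` -/
def c (u : Fin 9 → ℝ) : Matrix (Fin n) (Fin n) ℝ := ∑ a, u a • O.P a

lemma c_add (u v : Fin 9 → ℝ) : O.c (u + v) = O.c u + O.c v := by
  simp only [c, Pi.add_apply, add_smul, Finset.sum_add_distrib]

lemma c_smul (t : ℝ) (u : Fin 9 → ℝ) : O.c (t • u) = t • O.c u := by
  simp only [c, Pi.smul_apply, smul_eq_mul, mul_smul, Finset.smul_sum]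

lemma c_single (a : Fin 9) : O.c (_root_.Pi.single a 1) = O.P a := by
  rw [c, Finset.sum_eq_single a]
  · simp
  · intro b _ hb; simp [hb]
  · simp

lemma c_symm (u : Fin 9 → ℝ) : (O.c u)ᵀ = O.c u := by
  simp only [c, transpose_sum, transpose_smul, O.symm]

lemma c_mul_add (u v : Fin 9 → ℝ) : O.c u * O.c v + O.c v * O.c u = (2 * (u ⬝ᵥ v)) • 1 := by
  have h1 : O.c u * O.c v = ∑ a, ∑ b, (u a * v b) • (O.P a * O.P b) := by
    simp only [c, Finset.sum_mul_sum, Matrix.smul_mul, Matrix.mul_smul, smul_smul]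
    exact Finset.sum_congr rfl fun a _ => Finset.sum_congr rfl fun b _ => by rw [mul_comm]
  have h2 : O.c v * O.c u = ∑ a, ∑ b, (u a * v b) • (O.P b * O.P a) := by
    simp only [c, Finset.sum_mul_sum, Matrix.smul_mul, Matrix.mul_smul, smul_smul]
    rw [Finset.sum_comm]
  rw [h1, h2, ← Finset.sum_add_distrib]
  simp only [← Finset.sum_add_distrib, ← smul_add, O.cliff]
  have h3 : ∀ a b : Fin 9, (u a * v b) • (if a = b then (2 : Matrix (Fin n) (Fin n) ℝ) else 0) =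
      if a = b then (2 * (u a * v b)) • 1 else 0 := by
    intro a b
    split_ifs
    · rw [show (2 : Matrix (Fin n) (Fin n) ℝ) = (2 : ℝ) • 1 by rw [two_smul]; norm_num,
        smul_smul, mul_comm]
    · simp
  simp only [h3, Finset.sum_ite_eq, Finset.mem_univ, if_true, dotProduct]
  rw [Finset.mul_sum, Finset.sum_smul]

lemma c_sq {u : Fin 9 → ℝ} (hu : u ⬝ᵥ u = 1) : O.c u * O.c u = 1 := by
  have h := O.c_mul_add u u
  rw [hu, mul_one, ← two_smul ℝ (O.c u * O.c u)] at h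
  exact smul_right_injective _ (two_ne_zero (α := ℝ)) h

lemma c_anti {u v : Fin 9 → ℝ} (h : u ⬝ᵥ v = 0) : O.c u * O.c v = -(O.c v * O.c u) := by
  have h1 := O.c_mul_add u v
  rw [h, mul_zero, zero_smul] at h1
  exact eq_neg_of_add_eq_zero_left h1

lemma c_P8 {u : Fin 9 → ℝ} (h : u 8 = 0) : O.P 8 * O.c u = -(O.c u * O.P 8) := by
  rw [← O.c_single 8]
  exact O.c_anti (by simp [h])

lemma dot_cc (u v : Fin 9 → ℝ) (x : Fin n → ℝ) :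
    (O.c u *ᵥ x) ⬝ᵥ (O.c v *ᵥ x) = (u ⬝ᵥ v) * (x ⬝ᵥ x) := by
  have h1 : (O.c u *ᵥ x) ⬝ᵥ (O.c v *ᵥ x) = x ⬝ᵥ ((O.c u * O.c v) *ᵥ x) := by
    rw [Quat.mulVec_dot_symm (O.c_symm u), mulVec_mulVec]
  have h2 : (O.c u *ᵥ x) ⬝ᵥ (O.c v *ᵥ x) = x ⬝ᵥ ((O.c v * O.c u) *ᵥ x) := by
    rw [dotProduct_comm, Quat.mulVec_dot_symm (O.c_symm v), mulVec_mulVec]
  have h3 : x ⬝ᵥ ((O.c u * O.c v) *ᵥ x) + x ⬝ᵥ ((O.c v * O.c u) *ᵥ x) =
      2 * (u ⬝ᵥ v) * (x ⬝ᵥ x) := by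
    rw [← dotProduct_add, ← add_mulVec, O.c_mul_add, smul_mulVec, one_mulVec, dotProduct_smul,
      smul_eq_mul]
  linarith

lemma conj_P {u : Fin 9 → ℝ} (hu : u ⬝ᵥ u = 1) (a : Fin 9) :
    O.c u * O.P a * O.c u = -O.P a + (2 * u a) • O.c u := by
  have h1 := O.c_mul_add u (_root_.Pi.single a 1)
  rw [O.c_single, dotProduct_single, mul_one] at h1
  have h2 : O.c u * O.P a = -(O.P a * O.c u) + (2 * u a) • 1 := by
    rw [← h1]; abel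
  rw [h2, add_mul, Matrix.neg_mul, Matrix.mul_assoc, O.c_sq hu, Matrix.mul_one, Matrix.smul_mul,
    Matrix.one_mul]

/-! ### the group -/

/-- `A` is an element of `Spin(9)`: it is orthogonal and normalises the span of the `P_a`. -/
def G (A : Matrix (Fin n) (Fin n) ℝ) : Prop :=
  Aᵀ * A = 1 ∧ ∀ a, ∃ v : Fin 9 → ℝ, A * O.P a * Aᵀ = ∑ b, v b • O.P b

lemma G_c {u : Fin 9 → ℝ} (hu : u ⬝ᵥ u = 1) : O.G (O.c u) := by
  refine ⟨by rw [O.c_symm, O.c_sq hu], fun a => ?_⟩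
  refine ⟨-_root_.Pi.single a 1 + (2 * u a) • u, ?_⟩
  rw [O.c_symm, O.conj_P hu]
  have : ∑ b, (-_root_.Pi.single a 1 + (2 * u a) • u : Fin 9 → ℝ) b • O.P b =
      O.c (-_root_.Pi.single a 1 + (2 * u a) • u) := rfl
  rw [this, O.c_add, O.c_smul, show (-_root_.Pi.single a 1 : Fin 9 → ℝ) =
    (-1 : ℝ) • _root_.Pi.single a 1 by simp, O.c_smul, O.c_single]
  simp

variable {O}

lemma G.mul {A B : Matrix (Fin n) (Fin n) ℝ} (hA : O.G A) (hB : O.G B) : O.G (A * B) := by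
  refine ⟨?_, fun a => ?_⟩
  · rw [transpose_mul, Matrix.mul_assoc, ← Matrix.mul_assoc Aᵀ, hA.1, Matrix.one_mul, hB.1]
  · obtain ⟨v, hv⟩ := hB.2 a
    choose w hw using hA.2
    refine ⟨fun d => ∑ b, v b * w b d, ?_⟩
    have h1 : A * B * O.P a * (A * B)ᵀ = A * (B * O.P a * Bᵀ) * Aᵀ := by
      rw [transpose_mul]; simp only [Matrix.mul_assoc]
    rw [h1, hv, Matrix.mul_sum, Matrix.sum_mul]
    simp only [Matrix.mul_smul, Matrix.smul_mul, hw, Finset.smul_sum, Finset.sum_smul, smul_smul]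
    rw [Finset.sum_comm]

lemma G.ortho' {A : Matrix (Fin n) (Fin n) ℝ} (hA : O.G A) : A * Aᵀ = 1 :=
  mul_eq_one_comm.1 hA.1

variable (O)

/-- `∑ P_a x (P_a x)ᵀ` -/
def S (x : Fin n → ℝ) : Matrix (Fin n) (Fin n) ℝ :=
  ∑ a, vecMulVec (O.P a *ᵥ x) (O.P a *ᵥ x)

/-- equivariance of `S` -/
def Eqv (A : Matrix (Fin n) (Fin n) ℝ) : Prop := ∀ x, O.S (A *ᵥ x) = A * O.S x * Aᵀ

lemma S_smul (t : ℝ) (x : Fin n → ℝ) : O.S (t • x) = (t ^ 2) • O.S x := by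
  simp only [S, mulVec_smul, vecMulVec_smul, smul_vecMulVec, smul_smul, Finset.smul_sum, sq]

variable {O}

lemma Eqv.mul {A B : Matrix (Fin n) (Fin n) ℝ} (hA : O.Eqv A) (hB : O.Eqv B) :
    O.Eqv (A * B) := by
  intro x
  rw [← mulVec_mulVec, hA, hB, transpose_mul]
  simp only [Matrix.mul_assoc]

variable (O)

lemma Eqv_c {u : Fin 9 → ℝ} (hu : u ⬝ᵥ u = 1) : O.Eqv (O.c u) := by
  intro x
  have h1 : ∀ a, O.P a *ᵥ (O.c u *ᵥ x) = O.c u *ᵥ (-(O.P a *ᵥ x) + (2 * u a) • (O.c u *ᵥ x)) := by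
    intro a
    have h2 : O.P a * O.c u = O.c u * (-O.P a + (2 * u a) • O.c u) := by
      rw [← O.conj_P hu, Matrix.mul_assoc, ← Matrix.mul_assoc (O.c u) (O.c u), O.c_sq hu,
        Matrix.one_mul]
    rw [mulVec_mulVec, h2, ← mulVec_mulVec, add_mulVec, neg_mulVec, smul_mulVec]
  have h3 : ∀ y : Fin n → ℝ, vecMulVec (O.c u *ᵥ y) (O.c u *ᵥ y) =
      O.c u * vecMulVec y y * (O.c u)ᵀ := by
    intro y
    rw [mul_vecMulVec, vecMulVec_mul, vecMul_transpose]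
  simp only [S, h1, h3]
  rw [← Matrix.sum_mul, ← Matrix.mul_sum]
  congr 2
  set y := O.c u *ᵥ x with hy
  have hy' : y = ∑ a, u a • (O.P a *ᵥ x) := by
    rw [hy, c, sum_mulVec]
    simp only [smul_mulVec]
  have h4 : ∀ a, vecMulVec (-(O.P a *ᵥ x) + (2 * u a) • y) (-(O.P a *ᵥ x) + (2 * u a) • y) =
      vecMulVec (O.P a *ᵥ x) (O.P a *ᵥ x) - (2 : ℝ) • vecMulVec (u a • (O.P a *ᵥ x)) y -
        (2 : ℝ) • vecMulVec y (u a • (O.P a *ᵥ x)) + (4 * (u a * u a)) • vecMulVec y y := by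
    intro a
    ext i j
    simp only [vecMulVec_apply, Matrix.add_apply, Matrix.sub_apply, Matrix.smul_apply,
      Pi.add_apply, Pi.neg_apply, Pi.smul_apply, smul_eq_mul]
    ring
  simp only [h4, Finset.sum_add_distrib, Finset.sum_sub_distrib]
  have h5 : ∑ a, (2 : ℝ) • vecMulVec (u a • (O.P a *ᵥ x)) y = (2 : ℝ) • vecMulVec y y := by
    rw [← Finset.smul_sum]
    congr 1
    ext i j
    rw [Matrix.sum_apply]
    simp only [vecMulVec_apply]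
    rw [← Finset.sum_mul, ← Finset.sum_apply, ← hy']
  have h6 : ∑ a, (2 : ℝ) • vecMulVec y (u a • (O.P a *ᵥ x)) = (2 : ℝ) • vecMulVec y y := by
    rw [← Finset.smul_sum]
    congr 1
    ext i j
    rw [Matrix.sum_apply]
    simp only [vecMulVec_apply]
    rw [← Finset.mul_sum, ← Finset.sum_apply, ← hy']
  have h7 : ∑ a, (4 * (u a * u a)) • vecMulVec y y = (4 : ℝ) • vecMulVec y y := by
    rw [← Finset.sum_smul, ← Finset.mul_sum]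
    have : ∑ a, u a * u a = 1 := hu
    rw [this, mul_one]
  rw [h5, h6, h7, show (4 : ℝ) = 2 + 2 by norm_num, add_smul]
  abel

/-! ### the eigenspaces of `P_8` -/

/-- the Fierz identity in matrix form -/
lemma fierzM (x : Fin n → ℝ) :
    ∑ a, (x ⬝ᵥ (O.P a *ᵥ x)) • O.P a + (2 : ℝ) • O.S x =
      (x ⬝ᵥ x) • 1 + (2 : ℝ) • vecMulVec x x := by
  ext i k
  have h := O.fierz (WithLp.toLp 2 x) i k
  have h1 : len (WithLp.toLp 2 x : E n) ^ 2 = x ⬝ᵥ x := by rw [len_sq_eq]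
  rw [h1] at h
  simp only [Matrix.add_apply, Matrix.sum_apply, Matrix.smul_apply, S, vecMulVec_apply,
    smul_eq_mul, Matrix.one_apply]
  have h2 : ∀ a, O.w a (WithLp.toLp 2 x : E n) = x ⬝ᵥ (O.P a *ᵥ x) := fun a => rfl
  have h3 : ∀ a i, O.Z a (WithLp.toLp 2 x : E n) i = (O.P a *ᵥ x) i := fun a i => rfl
  simp only [h2, h3] at h
  rw [h]
  split_ifs <;> simp

lemma dot_P (a : Fin 9) (x y : Fin n → ℝ) : (O.P a *ᵥ x) ⬝ᵥ y = x ⬝ᵥ (O.P a *ᵥ y) :=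
  Quat.mulVec_dot_symm (O.symm a) x y

lemma perp_PM {ε : ℝ} (hε : ε ≠ 0) {e h : Fin n → ℝ} (he : O.P 8 *ᵥ e = ε • e)
    (hh : O.P 8 *ᵥ h = -(ε • h)) : e ⬝ᵥ h = 0 := by
  have h1 := O.dot_P 8 e h
  rw [he, hh, smul_dotProduct, dotProduct_neg, dotProduct_smul, smul_eq_mul] at h1
  have : ε * (e ⬝ᵥ h) = 0 := by linarith
  exact (mul_eq_zero.1 this).resolve_left hε

lemma N_base {ε : ℝ} (hε : ε * ε = 1) {e : Fin n → ℝ} (he1 : e ⬝ᵥ e = 1)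
    (he : O.P 8 *ᵥ e = ε • e) : ∑ a, (e ⬝ᵥ (O.P a *ᵥ e)) • O.P a = ε • O.P 8 := by
  have hε0 : ε ≠ 0 := by rintro rfl; simp at hε
  rw [Finset.sum_eq_single 8]
  · rw [he, dotProduct_smul, he1, smul_eq_mul, mul_one]
  · intro a _ ha
    have h1 : O.P 8 *ᵥ (O.P a *ᵥ e) = -(ε • (O.P a *ᵥ e)) := by
      have h2 : O.P 8 * O.P a = -(O.P a * O.P 8) := by
        have := O.cliff 8 a
        rw [if_neg (Ne.symm ha)] at this
        exact eq_neg_of_add_eq_zero_left this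
      rw [mulVec_mulVec, h2, neg_mulVec, ← mulVec_mulVec, he, mulVec_smul]
    rw [O.perp_PM hε0 he h1, zero_smul]
  · simp

lemma c_flip {ε : ℝ} {e : Fin n → ℝ} (he : O.P 8 *ᵥ e = ε • e) {u : Fin 9 → ℝ} (hu : u 8 = 0) :
    O.P 8 *ᵥ (O.c u *ᵥ e) = -(ε • (O.c u *ᵥ e)) := by
  rw [mulVec_mulVec, O.c_P8 hu, neg_mulVec, ← mulVec_mulVec, he, mulVec_smul]

lemma c_flip' {ε : ℝ} {e : Fin n → ℝ} (he : O.P 8 *ᵥ e = -(ε • e)) {u : Fin 9 → ℝ}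
    (hu : u 8 = 0) : O.P 8 *ᵥ (O.c u *ᵥ e) = ε • (O.c u *ᵥ e) := by
  have := O.c_flip (ε := -ε) (by rw [he, neg_smul]) hu
  rw [this, neg_smul, neg_neg]

lemma S_base {ε : ℝ} (hε : ε * ε = 1) {e : Fin n → ℝ} (he1 : e ⬝ᵥ e = 1)
    (he : O.P 8 *ᵥ e = ε • e) :
    (2 : ℝ) • O.S e = 1 + (2 : ℝ) • vecMulVec e e - ε • O.P 8 := by
  have h := O.fierzM e
  rw [O.N_base hε he1 he, he1, one_smul] at h
  rw [← h]; abel

/-- every vector in the other eigenspace is `c u e` -/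
lemma exists_c {ε : ℝ} (hε : ε * ε = 1) {e h : Fin n → ℝ} (he1 : e ⬝ᵥ e = 1)
    (he : O.P 8 *ᵥ e = ε • e) (hh : O.P 8 *ᵥ h = -(ε • h)) :
    ∃ u : Fin 9 → ℝ, u 8 = 0 ∧ O.c u *ᵥ e = h ∧ u ⬝ᵥ u = h ⬝ᵥ h := by
  have hε0 : ε ≠ 0 := by rintro rfl; simp at hε
  have hS := congrArg (fun M => M *ᵥ h) (O.S_base hε he1 he)
  simp only [smul_mulVec, sub_mulVec, add_mulVec, one_mulVec, vecMulVec_mulVec, hh,
    op_smul_eq_smul, O.perp_PM hε0 he hh, zero_smul, smul_zero, add_zero, smul_neg, smul_smul,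
    hε, one_smul, sub_neg_eq_add, ← two_smul ℝ h] at hS
  have hS' : O.S e *ᵥ h = h := smul_right_injective _ (two_ne_zero (α := ℝ)) hS
  have hc : O.c (fun a => (O.P a *ᵥ e) ⬝ᵥ h) *ᵥ e = h := by
    conv_rhs => rw [← hS']
    simp only [c, S, sum_mulVec, smul_mulVec, vecMulVec_mulVec, op_smul_eq_smul]
  refine ⟨fun a => (O.P a *ᵥ e) ⬝ᵥ h, ?_, hc, ?_⟩
  · simp only [he, smul_dotProduct, O.perp_PM hε0 he hh, smul_zero]
  · have := O.dot_cc (fun a => (O.P a *ᵥ e) ⬝ᵥ h) (fun a => (O.P a *ᵥ e) ⬝ᵥ h) e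
    rw [hc, he1, mul_one] at this
    exact this.symm

/-- two unit vectors of the same eigenspace are related by a product `c s * c t` with `s`, `t`
orthogonal to two given vectors. -/
lemma fix {e e1 : Fin n → ℝ} (he1 : e ⬝ᵥ e = 1) (he : O.P 8 *ᵥ e = e)
    (hf1 : e1 ⬝ᵥ e1 = 1) (hf : O.P 8 *ᵥ e1 = e1) (p q : Fin 9 → ℝ) :
    ∃ s t : Fin 9 → ℝ, s ⬝ᵥ s = 1 ∧ t ⬝ᵥ t = 1 ∧ s 8 = 0 ∧ t 8 = 0 ∧ s ⬝ᵥ p = 0 ∧ s ⬝ᵥ q = 0 ∧
      t ⬝ᵥ p = 0 ∧ t ⬝ᵥ q = 0 ∧ O.c s *ᵥ (O.c t *ᵥ e1) = e := by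
  obtain ⟨s, hs, h⟩ := exists_unit_ker (k := 5) (by norm_num)
    (lin ![_root_.Pi.single 8 1, p, q, fun a => (O.P a *ᵥ e) ⬝ᵥ (O.c p *ᵥ e1),
      fun a => (O.P a *ᵥ e) ⬝ᵥ (O.c q *ᵥ e1)])
  have h0 : s 8 = 0 := by
    have := congrFun h 0
    simpa [lin] using this
  have h1 : s ⬝ᵥ p = 0 := congrFun h 1
  have h2 : s ⬝ᵥ q = 0 := congrFun h 2
  have h3 : s ⬝ᵥ (fun a => (O.P a *ᵥ e) ⬝ᵥ (O.c p *ᵥ e1)) = 0 := congrFun h 3
  have h4 : s ⬝ᵥ (fun a => (O.P a *ᵥ e) ⬝ᵥ (O.c q *ᵥ e1)) = 0 := congrFun h 4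
  have hcs : ∀ y : Fin n → ℝ, s ⬝ᵥ (fun a => (O.P a *ᵥ e) ⬝ᵥ y) = (O.c s *ᵥ e) ⬝ᵥ y := by
    intro y
    simp only [c, sum_mulVec, smul_mulVec, sum_dotProduct, smul_dotProduct, smul_eq_mul]
    rfl
  rw [hcs] at h3 h4
  have he' : O.P 8 *ᵥ e = (1 : ℝ) • e := by rw [he, one_smul]
  have hf' : O.P 8 *ᵥ e1 = (1 : ℝ) • e1 := by rw [hf, one_smul]
  have hcse := O.c_flip he' h0
  obtain ⟨t, ht8, hte, htt⟩ := O.exists_c (by norm_num) hf1 hf' hcse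
  have hone : (O.c s *ᵥ e) ⬝ᵥ (O.c s *ᵥ e) = 1 := by rw [O.dot_cc, hs, he1, mul_one]
  have htp : ∀ p : Fin 9 → ℝ, (O.c s *ᵥ e) ⬝ᵥ (O.c p *ᵥ e1) = 0 → t ⬝ᵥ p = 0 := by
    intro p hp
    rw [← hte, O.dot_cc, hf1, mul_one] at hp
    exact hp
  refine ⟨s, t, hs, by rw [htt, hone], h0, ht8, h1, h2, htp p h3, htp q h4, ?_⟩
  rw [hte, mulVec_mulVec, O.c_sq hs, one_mulVec]

/-! ### the stabiliser -/

/-- `M` is invariant under the stabiliser of `e`. -/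
def Stab (e : Fin n → ℝ) (M : Matrix (Fin n) (Fin n) ℝ) : Prop :=
  Mᵀ = M ∧ ∀ A, O.G A → A *ᵥ e = e → Aᵀ * M * A = M

variable {O}

lemma Stab.comm {e : Fin n → ℝ} {M : Matrix (Fin n) (Fin n) ℝ} (h : O.Stab e M)
    {A : Matrix (Fin n) (Fin n) ℝ} (hA : O.G A) (hAe : A *ᵥ e = e) : A * M = M * A := by
  conv_lhs => rw [← h.2 A hA hAe]
  rw [← Matrix.mul_assoc, ← Matrix.mul_assoc, hA.ortho', Matrix.one_mul]

lemma Stab.form {e : Fin n → ℝ} {M : Matrix (Fin n) (Fin n) ℝ} (h : O.Stab e M)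
    {A : Matrix (Fin n) (Fin n) ℝ} (hA : O.G A) (hAe : A *ᵥ e = e) (x y : Fin n → ℝ) :
    x ⬝ᵥ (M *ᵥ y) = (A *ᵥ x) ⬝ᵥ (M *ᵥ (A *ᵥ y)) := by
  conv_lhs => rw [← h.2 A hA hAe]
  rw [Quat.transport]

variable (O)

lemma swap {p q : Fin 9 → ℝ} (hp : p ⬝ᵥ p = 1) (hq : q ⬝ᵥ q = 1) (hpq : p ⬝ᵥ q = 0) :
    ∃ z : Fin 9 → ℝ, z ⬝ᵥ z = 1 ∧ (p 8 = 0 → q 8 = 0 → z 8 = 0) ∧
      O.c z * O.c p = O.c q * O.c z ∧ O.c z * O.c q = O.c p * O.c z ∧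
      ∀ r : Fin 9 → ℝ, r ⬝ᵥ p = 0 → r ⬝ᵥ q = 0 → O.c z * O.c r = -(O.c r * O.c z) := by
  have h2 : (√2 : ℝ) ≠ 0 := by positivity
  refine ⟨(√2)⁻¹ • (p + q), ?_, ?_, ?_, ?_, ?_⟩
  · simp only [smul_dotProduct, dotProduct_smul, add_dotProduct, dotProduct_add, hp, hq, hpq,
      dotProduct_comm q p, smul_eq_mul]
    field_simp
    rw [Real.sq_sqrt (by norm_num)]
    norm_num
  · intro h1 h2; simp [h1, h2]
  · rw [O.c_smul, O.c_add, Matrix.smul_mul, Matrix.mul_smul, add_mul, mul_add, O.c_sq hp,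
      O.c_sq hq, add_comm]
  · rw [O.c_smul, O.c_add, Matrix.smul_mul, Matrix.mul_smul, add_mul, mul_add, O.c_sq hp,
      O.c_sq hq, add_comm]
  · intro r hr1 hr2
    rw [O.c_smul, O.c_add, Matrix.smul_mul, Matrix.mul_smul, add_mul, mul_add,
      O.c_anti (u := p) (v := r) (by rw [dotProduct_comm]; exact hr1),
      O.c_anti (u := q) (v := r) (by rw [dotProduct_comm]; exact hr2), ← neg_add, smul_neg]

lemma move {e : Fin n → ℝ} (he1 : e ⬝ᵥ e = 1) (he : O.P 8 *ᵥ e = e) {z z' : Fin 9 → ℝ}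
    (hz : z ⬝ᵥ z = 1) (hz8 : z 8 = 0) (hz' : z' ⬝ᵥ z' = 1) (hz8' : z' 8 = 0)
    (p q : Fin 9 → ℝ) : ∃ B, O.G (B * (O.c z' * O.c z)) ∧ (B * (O.c z' * O.c z)) *ᵥ e = e ∧
      B * O.c p = O.c p * B ∧ B * O.c q = O.c q * B := by
  have he' : O.P 8 *ᵥ e = (1 : ℝ) • e := by rw [he, one_smul]
  set e1 := O.c z' *ᵥ (O.c z *ᵥ e) with he1'
  have hf1 : e1 ⬝ᵥ e1 = 1 := by rw [he1', O.dot_cc, hz', O.dot_cc, hz, he1]; norm_num
  have hf : O.P 8 *ᵥ e1 = e1 := by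
    have := O.c_flip' (ε := 1) (O.c_flip he' hz8) hz8'
    rw [one_smul] at this
    exact this
  obtain ⟨s, t, hs, ht, -, -, hsp, hsq, htp, htq, hst⟩ := O.fix he1 he hf1 hf p q
  refine ⟨O.c s * O.c t, ?_, ?_, ?_, ?_⟩
  · exact ((O.G_c hs).mul (O.G_c ht)).mul ((O.G_c hz').mul (O.G_c hz))
  · rw [← mulVec_mulVec, ← mulVec_mulVec, ← mulVec_mulVec]; exact hst
  · rw [Matrix.mul_assoc, O.c_anti htp, Matrix.mul_neg, ← Matrix.mul_assoc, O.c_anti hsp,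
      Matrix.neg_mul, neg_neg, Matrix.mul_assoc]
  · rw [Matrix.mul_assoc, O.c_anti htq, Matrix.mul_neg, ← Matrix.mul_assoc, O.c_anti hsq,
      Matrix.neg_mul, neg_neg, Matrix.mul_assoc]

variable {O}

lemma Stab.step2 {e : Fin n → ℝ} (he1 : e ⬝ᵥ e = 1) (he : O.P 8 *ᵥ e = e)
    {M : Matrix (Fin n) (Fin n) ℝ} (hM : O.Stab e M) {p q : Fin 9 → ℝ} (hp : p ⬝ᵥ p = 1)
    (hq : q ⬝ᵥ q = 1) (hpq : p ⬝ᵥ q = 0) (hp8 : p 8 = 0) (hq8 : q 8 = 0) :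
    (O.c p *ᵥ e) ⬝ᵥ (M *ᵥ (O.c p *ᵥ e)) = (O.c q *ᵥ e) ⬝ᵥ (M *ᵥ (O.c q *ᵥ e)) := by
  obtain ⟨z, hz, hz8, h1, h2, h3⟩ := O.swap hp hq hpq
  obtain ⟨B, hG, hB, hBq, -⟩ := O.move he1 he hz (hz8 hp8 hq8) hq hq8 q q
  rw [hM.form hG hB]
  have : (B * (O.c q * O.c z)) *ᵥ (O.c p *ᵥ e) = O.c q *ᵥ e := by
    rw [mulVec_mulVec, Matrix.mul_assoc, Matrix.mul_assoc, h1, ← Matrix.mul_assoc B, hBq,
      Matrix.mul_assoc, ← mulVec_mulVec, hB]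
  rw [this]

lemma Stab.step3 {e : Fin n → ℝ} (he1 : e ⬝ᵥ e = 1) (he : O.P 8 *ᵥ e = e)
    {M : Matrix (Fin n) (Fin n) ℝ} (hM : O.Stab e M) {p q : Fin 9 → ℝ} (hp : p ⬝ᵥ p = 1)
    (hq : q ⬝ᵥ q = 1) (hpq : p ⬝ᵥ q = 0) (hp8 : p 8 = 0) (hq8 : q 8 = 0) :
    e ⬝ᵥ (M *ᵥ (O.c p *ᵥ (O.c q *ᵥ e))) = 0 := by
  obtain ⟨z, hz, hz8, h1, h2, h3⟩ := O.swap hp hq hpq
  obtain ⟨z', hz', hz8', hz1, hz2, -⟩ := exists_perp3 p q q
  obtain ⟨B, hG, hB, hBp, hBq⟩ := O.move he1 he hz (hz8 hp8 hq8) hz' hz8' p q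
  have key := hM.form hG hB e (O.c p *ᵥ (O.c q *ᵥ e))
  have : (B * (O.c z' * O.c z)) *ᵥ (O.c p *ᵥ (O.c q *ᵥ e)) = -(O.c p *ᵥ (O.c q *ᵥ e)) := by
    have e1 : B * (O.c z' * O.c z) * (O.c p * O.c q) =
        -(O.c p * O.c q * (B * (O.c z' * O.c z))) := by
      calc B * (O.c z' * O.c z) * (O.c p * O.c q)
          = B * (O.c z' * ((O.c z * O.c p) * O.c q)) := by simp only [Matrix.mul_assoc]
        _ = B * (O.c z' * (O.c q * (O.c z * O.c q))) := by rw [h1]; simp only [Matrix.mul_assoc]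
        _ = B * ((O.c z' * O.c q) * (O.c p * O.c z)) := by rw [h2]; simp only [Matrix.mul_assoc]
        _ = -(B * (O.c q * ((O.c z' * O.c p) * O.c z))) := by
            rw [O.c_anti hz2]; simp only [Matrix.mul_assoc, Matrix.neg_mul, Matrix.mul_neg]
        _ = B * (O.c q * (O.c p * (O.c z' * O.c z))) := by
            rw [O.c_anti hz1]
            simp only [Matrix.mul_assoc, Matrix.neg_mul, Matrix.mul_neg, neg_neg]
        _ = -(B * (O.c p * (O.c q * (O.c z' * O.c z)))) := by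
            rw [← Matrix.mul_assoc (O.c q), O.c_anti (u := q) (v := p)
              (by rw [dotProduct_comm]; exact hpq)]
            simp only [Matrix.mul_assoc, Matrix.neg_mul, Matrix.mul_neg]
        _ = -(O.c p * O.c q * (B * (O.c z' * O.c z))) := by
            rw [← Matrix.mul_assoc B, hBp, Matrix.mul_assoc, ← Matrix.mul_assoc B, hBq]
            simp only [Matrix.mul_assoc]
    rw [mulVec_mulVec, mulVec_mulVec, Matrix.mul_assoc (B * (O.c z' * O.c z)), e1, neg_mulVec,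
      ← mulVec_mulVec, hB, ← mulVec_mulVec]
  rw [this, hB, mulVec_neg, dotProduct_neg] at key
  linarith

lemma Stab.step4 {e : Fin n → ℝ} (he1 : e ⬝ᵥ e = 1) (he : O.P 8 *ᵥ e = e)
    {M : Matrix (Fin n) (Fin n) ℝ} (hM : O.Stab e M) {p p' q : Fin 9 → ℝ} (hp : p ⬝ᵥ p = 1)
    (hp' : p' ⬝ᵥ p' = 1) (hpp : p ⬝ᵥ p' = 0) (hqp : q ⬝ᵥ p = 0)
    (hqp' : q ⬝ᵥ p' = 0) (hp8 : p 8 = 0) (hp8' : p' 8 = 0) :
    (O.c p *ᵥ (O.c q *ᵥ e)) ⬝ᵥ (M *ᵥ (O.c p *ᵥ (O.c q *ᵥ e))) =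
      (O.c p' *ᵥ (O.c q *ᵥ e)) ⬝ᵥ (M *ᵥ (O.c p' *ᵥ (O.c q *ᵥ e))) := by
  obtain ⟨z, hz, hz8, h1, h2, h3⟩ := O.swap hp hp' hpp
  obtain ⟨z', hz', hz8', hz1, hz2, -⟩ := exists_perp3 p' q q
  obtain ⟨B, hG, hB, hBp, hBq⟩ := O.move he1 he hz (hz8 hp8 hp8') hz' hz8' p' q
  have key := hM.form hG hB (O.c p *ᵥ (O.c q *ᵥ e)) (O.c p *ᵥ (O.c q *ᵥ e))
  have : (B * (O.c z' * O.c z)) *ᵥ (O.c p *ᵥ (O.c q *ᵥ e)) = -(O.c p' *ᵥ (O.c q *ᵥ e)) := by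
    have e1 : B * (O.c z' * O.c z) * (O.c p * O.c q) =
        -(O.c p' * O.c q * (B * (O.c z' * O.c z))) := by
      calc B * (O.c z' * O.c z) * (O.c p * O.c q)
          = B * (O.c z' * ((O.c z * O.c p) * O.c q)) := by simp only [Matrix.mul_assoc]
        _ = B * (O.c z' * (O.c p' * (O.c z * O.c q))) := by rw [h1]; simp only [Matrix.mul_assoc]
        _ = -(B * ((O.c z' * O.c p') * (O.c q * O.c z))) := by
            rw [h3 q hqp hqp']; simp only [Matrix.mul_assoc, Matrix.mul_neg]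
        _ = B * (O.c p' * ((O.c z' * O.c q) * O.c z)) := by
            rw [O.c_anti hz1]
            simp only [Matrix.mul_assoc, Matrix.neg_mul, Matrix.mul_neg, neg_neg]
        _ = -(B * (O.c p' * (O.c q * (O.c z' * O.c z)))) := by
            rw [O.c_anti hz2]
            simp only [Matrix.mul_assoc, Matrix.neg_mul, Matrix.mul_neg]
        _ = -(O.c p' * O.c q * (B * (O.c z' * O.c z))) := by
            rw [← Matrix.mul_assoc B, hBp, Matrix.mul_assoc, ← Matrix.mul_assoc B, hBq]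
            simp only [Matrix.mul_assoc]
    rw [mulVec_mulVec, mulVec_mulVec, Matrix.mul_assoc (B * (O.c z' * O.c z)), e1, neg_mulVec,
      ← mulVec_mulVec, hB, ← mulVec_mulVec]
  rw [this, mulVec_neg, dotProduct_neg, neg_dotProduct, neg_neg] at key
  exact key

lemma G_P8 : O.G (O.P 8) := by
  rw [← O.c_single 8]
  exact O.G_c (by simp)

/-- the explicit form of a matrix invariant under the stabiliser -/
theorem Stab.eq {e : Fin n → ℝ} (he1 : e ⬝ᵥ e = 1) (he : O.P 8 *ᵥ e = e)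
    {M : Matrix (Fin n) (Fin n) ℝ} (hM : O.Stab e M) {q0 : Fin 9 → ℝ} (hq0 : q0 ⬝ᵥ q0 = 1)
    (hq8 : q0 8 = 0) :
    ∃ al u s : ℝ, M = al • (O.S e - vecMulVec e e) + u • vecMulVec e e + s • (1 - O.S e) ∧
      (∀ h : Fin n → ℝ, O.P 8 *ᵥ h = -h → M *ᵥ h = al • h) ∧ M *ᵥ e = u • e ∧
      ∀ f : Fin n → ℝ, O.P 8 *ᵥ f = f → e ⬝ᵥ f = 0 → M *ᵥ f = s • f := by
  have he' : O.P 8 *ᵥ e = (1 : ℝ) • e := by rw [he, one_smul]
  have hone : (1 : ℝ) * 1 = 1 := by norm_num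
  have h8M : O.P 8 * M = M * O.P 8 := hM.comm G_P8 he
  -- bilinear form on the vectors `c p x`
  have hT : ∀ x : Fin n → ℝ, ∀ p q : Fin 9 → ℝ, (O.c p *ᵥ x) ⬝ᵥ (M *ᵥ (O.c q *ᵥ x)) =
      p ⬝ᵥ ((Matrix.of fun a b => (O.P a *ᵥ x) ⬝ᵥ (M *ᵥ (O.P b *ᵥ x))) *ᵥ q) := by
    intro x p q
    have h1 : ∀ q : Fin 9 → ℝ, O.c q *ᵥ x = ∑ b, q b • (O.P b *ᵥ x) := by
      intro q; simp only [c, sum_mulVec, smul_mulVec]
    rw [h1, h1, mulVec_sum, sum_dotProduct]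
    simp only [dotProduct_sum, mulVec_smul, smul_dotProduct, dotProduct_smul, smul_eq_mul]
    have h2 : p ⬝ᵥ ((Matrix.of fun a b => (O.P a *ᵥ x) ⬝ᵥ (M *ᵥ (O.P b *ᵥ x))) *ᵥ q) =
        ∑ a, p a * ∑ b, ((O.P a *ᵥ x) ⬝ᵥ (M *ᵥ (O.P b *ᵥ x))) * q b := rfl
    rw [h2]
    refine Finset.sum_congr rfl fun a _ => ?_
    rw [Finset.mul_sum]
    refine Finset.sum_congr rfl fun b _ => ?_
    ring
  have hTs : ∀ x : Fin n → ℝ, (Matrix.of fun a b : Fin 9 => (O.P a *ᵥ x) ⬝ᵥ (M *ᵥ (O.P b *ᵥ x)))ᵀ =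
      Matrix.of fun a b => (O.P a *ᵥ x) ⬝ᵥ (M *ᵥ (O.P b *ᵥ x)) := by
    intro x
    ext a b
    rw [transpose_apply, Matrix.of_apply, Matrix.of_apply, ← Quat.mulVec_dot_symm hM.1,
      dotProduct_comm]
  -- horizontal part
  obtain ⟨al, hal⟩ := const_form (hTs e)
    (LinearMap.ker (LinearMap.proj (R := ℝ) (φ := fun _ : Fin 9 => ℝ) 8))
    (fun p hp q hq hp1 hq1 hpq => by
      rw [← hT, ← hT]
      exact hM.step2 he1 he hp1 hq1 hpq (by simpa using hp) (by simpa using hq))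
    (fun p q => by
      obtain ⟨r, hr1, hr8, hrp, hrq, -⟩ := exists_perp3 p q q
      exact ⟨r, by simpa using hr8, hr1, hrp, hrq⟩)
  -- fibre part
  set e' := O.c q0 *ᵥ e with he'def
  have he'1 : e' ⬝ᵥ e' = 1 := by rw [he'def, O.dot_cc, hq0, he1, mul_one]
  have he'8 : O.P 8 *ᵥ e' = (-1 : ℝ) • e' := by
    have := O.c_flip he' hq8
    rw [this, one_smul, neg_smul, one_smul]
  obtain ⟨s, hs⟩ := const_form (hTs e')
    (LinearMap.ker (LinearMap.proj (R := ℝ) (φ := fun _ : Fin 9 => ℝ) 8) ⊓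
      LinearMap.ker (lin ![q0]))
    (fun p hp p' hp' hp1 hp1' hpp => by
      rw [← hT, ← hT]
      have h1 : p 8 = 0 := by simpa using hp.1
      have h2 : p' 8 = 0 := by simpa using hp'.1
      have h3 : p ⬝ᵥ q0 = 0 := congrFun (LinearMap.mem_ker.1 hp.2) 0
      have h4 : p' ⬝ᵥ q0 = 0 := congrFun (LinearMap.mem_ker.1 hp'.2) 0
      exact hM.step4 he1 he hp1 hp1' hpp (by rw [dotProduct_comm]; exact h3)
        (by rw [dotProduct_comm]; exact h4) h1 h2)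
    (fun p q => by
      obtain ⟨r, hr1, hr8, hrp, hrq, hr0⟩ := exists_perp3 p q q0
      refine ⟨r, ⟨by simpa using hr8, ?_⟩, hr1, hrp, hrq⟩
      exact LinearMap.mem_ker.2 (funext fun i => by
        fin_cases i; exact hr0))
  have hS2 := O.S_base hone he1 he'
  rw [one_smul] at hS2
  refine ⟨al, e ⬝ᵥ (M *ᵥ e), s, ?_⟩
  -- eigenvectors
  have hMminus : ∀ h : Fin n → ℝ, O.P 8 *ᵥ h = -h → M *ᵥ h = al • h := by
    intro h hh
    have hh' : O.P 8 *ᵥ h = -((1 : ℝ) • h) := by rw [hh, one_smul]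
    obtain ⟨u, hu8, hue, -⟩ := O.exists_c hone he1 he' hh'
    -- the difference is in the same eigenspace
    have hd : O.P 8 *ᵥ (M *ᵥ h - al • h) = -((1 : ℝ) • (M *ᵥ h - al • h)) := by
      rw [mulVec_sub, mulVec_mulVec, h8M, ← mulVec_mulVec, hh, mulVec_smul, hh, mulVec_neg,
        one_smul, smul_neg]
      abel
    obtain ⟨v, hv8, hve, -⟩ := O.exists_c hone he1 he' hd
    have h0 : (O.c v *ᵥ e) ⬝ᵥ (M *ᵥ (O.c u *ᵥ e) - al • (O.c u *ᵥ e)) = 0 := by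
      rw [dotProduct_sub, dotProduct_smul, hT, hal v (by simpa using hv8) u
        (by simpa using hu8), O.dot_cc, he1, mul_one, smul_eq_mul, sub_self]
    rw [hue, hve] at h0
    exact sub_eq_zero.1 (dotProduct_self_eq_zero.1 h0)
  -- fibre vectors
  have hfib : ∀ f : Fin n → ℝ, O.P 8 *ᵥ f = f → e ⬝ᵥ f = 0 →
      ∃ u : Fin 9 → ℝ, u 8 = 0 ∧ u ⬝ᵥ q0 = 0 ∧ O.c u *ᵥ e' = f := by
    intro f hf hef
    obtain ⟨u, hu8, hue, -⟩ := O.exists_c (ε := -1) (by norm_num) he'1 he'8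
      (by rw [hf, neg_smul, one_smul, neg_neg])
    refine ⟨u, hu8, ?_, hue⟩
    have h1 := O.dot_cc u q0 e'
    have h2 : O.c q0 *ᵥ e' = e := by rw [he'def, mulVec_mulVec, O.c_sq hq0, one_mulVec]
    rw [hue, h2, he'1, mul_one, dotProduct_comm, hef] at h1
    exact h1.symm
  -- no mixed terms
  have hmix : ∀ f : Fin n → ℝ, O.P 8 *ᵥ f = f → e ⬝ᵥ f = 0 → e ⬝ᵥ (M *ᵥ f) = 0 := by
    intro f hf hef
    by_cases h0 : f = 0
    · simp [h0]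
    obtain ⟨u, hu8, huq, hue⟩ := hfib f hf hef
    have hu0 : u ≠ 0 := by
      rintro rfl
      apply h0
      rw [← hue]
      simp [c]
    have hpos := Quat.dot_self_pos hu0
    have hs : √(u ⬝ᵥ u) ≠ 0 := (Real.sqrt_pos.2 hpos).ne'
    have h1 : ((√(u ⬝ᵥ u))⁻¹ • u) ⬝ᵥ ((√(u ⬝ᵥ u))⁻¹ • u) = 1 := by
      rw [smul_dotProduct, dotProduct_smul, smul_eq_mul, smul_eq_mul]
      field_simp
      rw [Real.sq_sqrt hpos.le]
    have h2 := hM.step3 he1 he h1 hq0 (by rw [smul_dotProduct, huq, smul_zero])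
      (by simp [hu8]) hq8
    rw [← he'def, O.c_smul, smul_mulVec, hue, mulVec_smul, dotProduct_smul, smul_eq_mul] at h2
    exact (mul_eq_zero.1 h2).resolve_left (inv_ne_zero hs)
  have hMplus : ∀ f : Fin n → ℝ, O.P 8 *ᵥ f = f → e ⬝ᵥ f = 0 → M *ᵥ f = s • f := by
    intro f hf hef
    obtain ⟨u, hu8, huq, hue⟩ := hfib f hf hef
    have hd : O.P 8 *ᵥ (M *ᵥ f - s • f) = M *ᵥ f - s • f := by
      rw [mulVec_sub, mulVec_mulVec, h8M, ← mulVec_mulVec, hf, mulVec_smul, hf]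
    have hd2 : e ⬝ᵥ (M *ᵥ f - s • f) = 0 := by
      rw [dotProduct_sub, hmix f hf hef, dotProduct_smul, hef, smul_zero, sub_zero]
    obtain ⟨v, hv8, hvq, hve⟩ := hfib _ hd hd2
    have h0 : (O.c v *ᵥ e') ⬝ᵥ (M *ᵥ (O.c u *ᵥ e') - s • (O.c u *ᵥ e')) = 0 := by
      rw [dotProduct_sub, dotProduct_smul, hT, hs v
        ⟨by simpa using hv8, LinearMap.mem_ker.2 (funext fun i => by fin_cases i; exact hvq)⟩ u
        ⟨by simpa using hu8, LinearMap.mem_ker.2 (funext fun i => by fin_cases i; exact huq)⟩,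
        O.dot_cc, he'1, mul_one, smul_eq_mul, sub_self]
    rw [hue, hve] at h0
    exact sub_eq_zero.1 (dotProduct_self_eq_zero.1 h0)
  have hMe : M *ᵥ e = (e ⬝ᵥ (M *ᵥ e)) • e := by
    set d := M *ᵥ e - (e ⬝ᵥ (M *ᵥ e)) • e with hd
    have hd8 : O.P 8 *ᵥ d = d := by
      rw [hd, mulVec_sub, mulVec_mulVec, h8M, ← mulVec_mulVec, he, mulVec_smul, he]
    have hde : e ⬝ᵥ d = 0 := by
      rw [hd, dotProduct_sub, dotProduct_smul, he1, smul_eq_mul, mul_one, sub_self]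
    have h1 := hmix d hd8 hde
    have h2 : d ⬝ᵥ d = 0 := by
      have h3 : d ⬝ᵥ (M *ᵥ e) = 0 := by
        rw [← Quat.mulVec_dot_symm hM.1, dotProduct_comm]; exact h1
      conv_lhs => rw [hd]
      rw [← hd, sub_dotProduct, smul_dotProduct, hde, smul_zero, sub_zero, dotProduct_comm, h3]
    exact sub_eq_zero.1 (dotProduct_self_eq_zero.1 h2)
  -- conclusion
  refine ⟨?_, hMminus, hMe, hMplus⟩
  refine Matrix.ext_of_mulVec_single fun i => ?_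
  set v : Fin n → ℝ := _root_.Pi.single i 1 with hv
  have hSv : (2 : ℝ) • (O.S e *ᵥ v) = v + (2 : ℝ) • ((e ⬝ᵥ v) • e) - O.P 8 *ᵥ v := by
    have := congrArg (fun M => M *ᵥ v) hS2
    simpa only [smul_mulVec, sub_mulVec, add_mulVec, one_mulVec, vecMulVec_mulVec,
      op_smul_eq_smul] using this
  set a1 : Fin n → ℝ := (1 / 2 : ℝ) • (v - O.P 8 *ᵥ v) with ha1
  set a2 : Fin n → ℝ := (1 / 2 : ℝ) • (v + O.P 8 *ᵥ v) - (e ⬝ᵥ v) • e with ha2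
  have hSv' : O.S e *ᵥ v = a1 + (e ⬝ᵥ v) • e := by
    have h2 : (2 : ℝ) • (O.S e *ᵥ v) = (2 : ℝ) • (a1 + (e ⬝ᵥ v) • e) := by
      rw [hSv, ha1]
      ext j
      simp only [Pi.add_apply, Pi.sub_apply, Pi.smul_apply, smul_eq_mul]
      ring
    exact smul_right_injective _ (two_ne_zero (α := ℝ)) h2
  have h88 : O.P 8 *ᵥ (O.P 8 *ᵥ v) = v := by rw [mulVec_mulVec, O.sq_one, one_mulVec]
  have ha18 : O.P 8 *ᵥ a1 = -a1 := by
    rw [ha1, mulVec_smul, mulVec_sub, h88, ← smul_neg, neg_sub]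
  have ha28 : O.P 8 *ᵥ a2 = a2 := by
    rw [ha2, mulVec_sub, mulVec_smul, mulVec_add, h88, mulVec_smul, he, add_comm]
  have hea2 : e ⬝ᵥ a2 = 0 := by
    rw [ha2, dotProduct_sub, dotProduct_smul, dotProduct_add, dotProduct_smul, he1,
      ← O.dot_P 8, he]
    simp only [smul_eq_mul]
    ring
  have hv2 : v = a1 + (e ⬝ᵥ v) • e + a2 := by
    rw [ha1, ha2]
    ext j
    simp only [Pi.add_apply, Pi.sub_apply, Pi.smul_apply, smul_eq_mul]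
    ring
  have hL : M *ᵥ v = al • a1 + (e ⬝ᵥ v) • ((e ⬝ᵥ (M *ᵥ e)) • e) + s • a2 := by
    conv_lhs => rw [hv2]
    rw [mulVec_add, mulVec_add, mulVec_smul M (e ⬝ᵥ v) e, hMminus a1 ha18, hMplus a2 ha28 hea2,
      ← hMe]
  rw [hL]
  simp only [add_mulVec, smul_mulVec, sub_mulVec, one_mulVec, hSv', vecMulVec_mulVec,
    op_smul_eq_smul]
  have h5 : v - (a1 + (e ⬝ᵥ v) • e) = a2 := by
    conv_lhs => rw [hv2]
    have : e ⬝ᵥ (a1 + (e ⬝ᵥ v) • e + a2) = e ⬝ᵥ v := by rw [← hv2]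
    rw [this]
    abel
  rw [h5, add_sub_cancel_right, smul_comm (e ⬝ᵥ v)]

/-! ### transitivity -/

lemma to_base {x : Fin n → ℝ} (hx : x ⬝ᵥ x = 1) :
    ∃ u : Fin 9 → ℝ, u ⬝ᵥ u = 1 ∧ O.P 8 *ᵥ (O.c u *ᵥ x) = O.c u *ᵥ x := by
  set w : Fin 9 → ℝ := fun a => x ⬝ᵥ (O.P a *ᵥ x) with hw
  have hlen : len (WithLp.toLp 2 x : E n) ^ 2 = 1 := by rw [len_sq_eq]; exact hx
  have hww : w ⬝ᵥ w = 1 := by
    have h := O.sum_w_sq (WithLp.toLp 2 x : E n)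
    have h2 : ∀ a, O.w a (WithLp.toLp 2 x : E n) = w a := fun a => rfl
    simp only [h2] at h
    rw [show len (WithLp.toLp 2 x : E n) ^ 4 = (len (WithLp.toLp 2 x : E n) ^ 2) ^ 2 by ring,
      hlen] at h
    rw [dotProduct, ← one_pow (M := ℝ) 2, ← h]
    exact Finset.sum_congr rfl fun a _ => by rw [sq]
  have hcw : O.c w *ᵥ x = x := by
    funext i
    have h := O.hopf (WithLp.toLp 2 x : E n) i
    rw [hlen, one_mul] at h
    have h2 : (O.c w *ᵥ x) i = ∑ a, w a * (O.P a *ᵥ x) i := by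
      simp only [c, sum_mulVec, smul_mulVec, Finset.sum_apply, Pi.smul_apply, smul_eq_mul]
    rw [h2]
    exact h
  by_cases h0 : w + _root_.Pi.single 8 1 = 0
  · refine ⟨_root_.Pi.single 0 1, by simp, ?_⟩
    have hw' : w = (-1 : ℝ) • _root_.Pi.single 8 1 := by
      rw [neg_smul, one_smul]; exact eq_neg_of_add_eq_zero_left h0
    have h8 : O.P 8 *ᵥ x = -((1 : ℝ) • x) := by
      rw [hw', O.c_smul, O.c_single, smul_mulVec, neg_smul, one_smul] at hcw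
      rw [one_smul]
      conv_rhs => rw [← hcw]
      rw [neg_neg]
    have := O.c_flip' (ε := 1) h8 (u := _root_.Pi.single 0 1) (by simp)
    rw [one_smul] at this
    exact this
  · have hpos := Quat.dot_self_pos h0
    have hs : √((w + _root_.Pi.single 8 1) ⬝ᵥ (w + _root_.Pi.single 8 1)) ≠ 0 :=
      (Real.sqrt_pos.2 hpos).ne'
    refine ⟨(√((w + _root_.Pi.single 8 1) ⬝ᵥ (w + _root_.Pi.single 8 1)))⁻¹ •
      (w + _root_.Pi.single 8 1), ?_, ?_⟩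
    · rw [smul_dotProduct, dotProduct_smul, smul_eq_mul, smul_eq_mul]
      field_simp
      rw [Real.sq_sqrt hpos.le]
    · rw [O.c_smul, smul_mulVec, mulVec_smul]
      congr 1
      have h1 : O.P 8 * O.c (w + _root_.Pi.single 8 1) =
          O.c (w + _root_.Pi.single 8 1) * O.c w := by
        rw [O.c_add, O.c_single, mul_add, add_mul, O.sq_one, O.c_sq hww, add_comm]
      rw [mulVec_mulVec, h1, ← mulVec_mulVec, hcw]

lemma exists_base (hn : 0 < n) : ∃ e : Fin n → ℝ, e ⬝ᵥ e = 1 ∧ O.P 8 *ᵥ e = e := by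
  have hx : (_root_.Pi.single (⟨0, hn⟩ : Fin n) (1 : ℝ) : Fin n → ℝ) ⬝ᵥ
      _root_.Pi.single ⟨0, hn⟩ 1 = 1 := by simp
  obtain ⟨u, hu, h⟩ := O.to_base hx
  exact ⟨_, by rw [O.dot_cc, hu, hx, one_mul], h⟩

lemma transitive {e : Fin n → ℝ} (he1 : e ⬝ᵥ e = 1) (he : O.P 8 *ᵥ e = e) {x : Fin n → ℝ}
    (hx : x ⬝ᵥ x = 1) : ∃ A, O.G A ∧ O.Eqv A ∧ A *ᵥ e = x := by
  obtain ⟨u, hu, h⟩ := O.to_base hx
  have hy1 : (O.c u *ᵥ x) ⬝ᵥ (O.c u *ᵥ x) = 1 := by rw [O.dot_cc, hu, hx, one_mul]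
  obtain ⟨s, t, hs, ht, -, -, -, -, -, -, hst⟩ := O.fix hy1 h he1 he 0 0
  refine ⟨O.c u * (O.c s * O.c t), (O.G_c hu).mul ((O.G_c hs).mul (O.G_c ht)),
    (O.Eqv_c hu).mul ((O.Eqv_c hs).mul (O.Eqv_c ht)), ?_⟩
  rw [← mulVec_mulVec, ← mulVec_mulVec, hst, mulVec_mulVec, O.c_sq hu, one_mulVec]

/-- `g` is invariant under `Spin(9)` outside the ball of radius `R`. -/
def Inv (R : ℝ) (g : Field n) : Prop :=
  ∀ A : Matrix (Fin n) (Fin n) ℝ, Aᵀ * A = 1 →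
    (∀ a, ∃ v : Fin 9 → ℝ, A * O.P a * Aᵀ = ∑ b, v b • O.P b) →
    ∀ x : E n, R ≤ len x → Aᵀ * mat g (act A x) * A = mat g x

lemma Inv.stab {R : ℝ} {g : Field n} (h : O.Inv R g) (hs : ∀ x i j, g x i j = g x j i)
    {e : Fin n → ℝ} {r : ℝ} (hr : R ≤ len (pt e r)) : O.Stab e (mat g (pt e r)) := by
  refine ⟨?_, fun A hA hAe => ?_⟩
  · ext i j; exact hs _ j i
  · have h1 := h A hA.1 hA.2 (pt e r) hr
    rwa [act_pt, hAe] at h1

/-- Invariant symmetric tensors have the form `ten`. -/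
theorem Inv.ten_form {R : ℝ} (hR : 0 < R) {g : Field n} (h : O.Inv R g)
    (hs : ∀ x i j, g x i j = g x j i) {e : Fin n → ℝ} (he1 : e ⬝ᵥ e = 1)
    (he : O.P 8 *ᵥ e = e) {x : E n} (hx : R ≤ len x) (i j : Fin n) :
    g x i j = O.ten (fun r => (O.P 0 *ᵥ e) ⬝ᵥ (mat g (pt e r) *ᵥ (O.P 0 *ᵥ e)))
      (fun r => e ⬝ᵥ (mat g (pt e r) *ᵥ e))
      (fun r => (O.P 1 *ᵥ (O.P 0 *ᵥ e)) ⬝ᵥ (mat g (pt e r) *ᵥ (O.P 1 *ᵥ (O.P 0 *ᵥ e)))) x i j := by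
  have hx0 : 0 < len x := hR.trans_le hx
  have hlen : len (pt e (len x)) = len x := by rw [len_pt he1, abs_of_pos hx0]
  have hst := h.stab hs (e := e) (r := len x) (by rw [hlen]; exact hx)
  obtain ⟨al, u, s, hM, hm1, hm2, hm3⟩ := hst.eq he1 he (q0 := _root_.Pi.single 0 1) (by simp)
    (by simp)
  set M := mat g (pt e (len x)) with hMdef
  have he' : O.P 8 *ᵥ e = (1 : ℝ) • e := by rw [he, one_smul]
  have hdot : ∀ a : Fin 9, ∀ y : Fin n → ℝ, (O.P a *ᵥ y) ⬝ᵥ (O.P a *ᵥ y) = y ⬝ᵥ y := by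
    intro a y
    rw [← O.c_single a, O.dot_cc]; simp
  have h0 : O.P 8 *ᵥ (O.P 0 *ᵥ e) = -(O.P 0 *ᵥ e) := by
    have := O.c_flip he' (u := _root_.Pi.single 0 1) (by simp)
    rwa [O.c_single, one_smul] at this
  have h1 : O.P 8 *ᵥ (O.P 1 *ᵥ (O.P 0 *ᵥ e)) = O.P 1 *ᵥ (O.P 0 *ᵥ e) := by
    have := O.c_flip' (ε := 1) (e := O.P 0 *ᵥ e) (by rw [h0, one_smul])
      (u := _root_.Pi.single 1 1) (by simp)
    rwa [O.c_single, one_smul] at this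
  have h2 : e ⬝ᵥ (O.P 1 *ᵥ (O.P 0 *ᵥ e)) = 0 := by
    rw [← O.dot_P, ← O.c_single 1, ← O.c_single 0, O.dot_cc]
    simp
  have e1 : (O.P 0 *ᵥ e) ⬝ᵥ (M *ᵥ (O.P 0 *ᵥ e)) = al := by
    rw [hm1 _ h0, dotProduct_smul, hdot, he1, smul_eq_mul, mul_one]
  have e2 : e ⬝ᵥ (M *ᵥ e) = u := by rw [hm2, dotProduct_smul, he1, smul_eq_mul, mul_one]
  have e3 : (O.P 1 *ᵥ (O.P 0 *ᵥ e)) ⬝ᵥ (M *ᵥ (O.P 1 *ᵥ (O.P 0 *ᵥ e))) = s := by
    rw [hm3 _ h1 h2, dotProduct_smul, hdot, hdot, he1, smul_eq_mul, mul_one]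
  -- transport
  obtain ⟨A, hA, hAE, hAe⟩ := O.transitive he1 he (hat_unit hx0)
  have h3 := h A hA.1 hA.2 (pt e (len x)) (by rw [hlen]; exact hx)
  rw [act_pt, hAe, pt_hat hx0, ← hMdef] at h3
  have h4 : mat g x = A * M * Aᵀ := by
    rw [← h3]
    simp only [Matrix.mul_assoc]
    rw [hA.ortho', Matrix.mul_one, ← Matrix.mul_assoc, hA.ortho', Matrix.one_mul]
  have h5 : A * vecMulVec e e * Aᵀ = vecMulVec (hat x) (hat x) := by
    rw [mul_vecMulVec, vecMulVec_mul, vecMul_transpose, hAe]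
  have h6 : A * O.S e * Aᵀ = O.S (hat x) := by rw [← hAE e, hAe]
  have h7 : mat g x = al • (O.S (hat x) - vecMulVec (hat x) (hat x)) +
      u • vecMulVec (hat x) (hat x) + s • (1 - O.S (hat x)) := by
    rw [h4, hM]
    simp only [mul_add, add_mul, mul_sub, sub_mul, Matrix.mul_smul, Matrix.smul_mul, h5, h6,
      Matrix.mul_one, hA.ortho']
  have h8 : g x i j = (mat g x) i j := rfl
  rw [h8, h7]
  unfold Oct.ten
  simp only [Matrix.add_apply, Matrix.smul_apply, Matrix.sub_apply, vecMulVec_apply, smul_eq_mul,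
    Quat.hat_apply, Matrix.one_apply, ← hMdef, e1, e2, e3]
  have h9 : O.S (hat x) i j = (∑ a, O.Z a x i * O.Z a x j) / len x ^ 2 := by
    rw [S, Matrix.sum_apply, Finset.sum_div]
    refine Finset.sum_congr rfl fun a _ => ?_
    have h10 : ∀ i, (O.P a *ᵥ hat x) i = O.Z a x i / len x := by
      intro i
      rw [hat, mulVec_smul, Pi.smul_apply, smul_eq_mul, div_eq_inv_mul]
      rfl
    rw [vecMulVec_apply, h10, h10]
    field_simp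
  rw [h9]
  field_simp

end Oct

/-- `Spin(9)`-invariant data are given by coefficient functions. -/
theorem fits_of_invariant (hn : 0 < n) (O : Oct n) {g K : Field n} {R : ℝ} (hR : 0 < R)
    (hsm : ∀ i j, Smooth (fun x => g x i j) ∧ Smooth (fun x => K x i j))
    (hs : ∀ x i j, g x i j = g x j i ∧ K x i j = K x j i)
    (hpos : ∀ x, R ≤ len x → (mat g x).PosDef)
    (hg : O.Inv R g) (hK : O.Inv R K) :
    ∃ D : Data n, D.R = R ∧ D.O = O ∧ Fits D g K := by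
  obtain ⟨e, he1, he⟩ := O.exists_base hn
  have hlen : ∀ r, R ≤ r → R ≤ len (pt e r) := by
    intro r hr
    rw [len_pt he1, abs_of_pos (hR.trans_le hr)]; exact hr
  have hgs := fun i j => (hsm i j).1
  have hKs := fun i j => (hsm i j).2
  have hgy := fun x i j => (hs x i j).1
  have hKy := fun x i j => (hs x i j).2
  have hdot : ∀ a : Fin 9, ∀ y : Fin n → ℝ, (O.P a *ᵥ y) ⬝ᵥ (O.P a *ᵥ y) = y ⬝ᵥ y := by
    intro a y
    rw [← O.c_single a, O.dot_cc]; simp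
  have hP : ∀ v : Fin n → ℝ, v ⬝ᵥ v = 1 → ∀ r, R ≤ r → 0 < v ⬝ᵥ (mat g (pt e r) *ᵥ v) := by
    intro v hv r hr
    have := (hpos _ (hlen r hr)).dotProduct_mulVec_pos (x := v) (by
      intro h0; rw [h0] at hv; simp at hv)
    rwa [star_trivial] at this
  exact ⟨{ O := O, R := R, hR := hR
           al := fun r => (O.P 0 *ᵥ e) ⬝ᵥ (mat g (pt e r) *ᵥ (O.P 0 *ᵥ e))
           p := fun r => e ⬝ᵥ (mat g (pt e r) *ᵥ e)
           c := fun r => (O.P 1 *ᵥ (O.P 0 *ᵥ e)) ⬝ᵥ (mat g (pt e r) *ᵥ (O.P 1 *ᵥ (O.P 0 *ᵥ e)))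
           ka := fun r => (O.P 0 *ᵥ e) ⬝ᵥ (mat K (pt e r) *ᵥ (O.P 0 *ᵥ e))
           kn := fun r => e ⬝ᵥ (mat K (pt e r) *ᵥ e)
           kc := fun r => (O.P 1 *ᵥ (O.P 0 *ᵥ e)) ⬝ᵥ (mat K (pt e r) *ᵥ (O.P 1 *ᵥ (O.P 0 *ᵥ e)))
           al_smooth := Quat.form_smooth hgs e _ _
           p_smooth := Quat.form_smooth hgs e _ _
           c_smooth := Quat.form_smooth hgs e _ _
           ka_smooth := Quat.form_smooth hKs e _ _
           kn_smooth := Quat.form_smooth hKs e _ _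
           kc_smooth := Quat.form_smooth hKs e _ _
           al_pos := hP _ (by rw [hdot, he1])
           p_pos := hP _ he1
           c_pos := hP _ (by rw [hdot, hdot, he1]) }, rfl, rfl,
    ⟨hsm, fun x hx i j => hg.ten_form hR hgy he1 he hx i j,
      fun x hx i j => hK.ten_form hR hKy he1 he hx i j⟩⟩

end Vale.Agent.S9
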