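import Vale.Agent.P366.T2.Assemble
import Vale.Agent.P366.T2.S9.Asympt
import Vale.Agent.P366.T2.S9.B765
import Vale.Agent.P366.T2.S9.Inv591

/-! The Penrose inequality for `Spin(9)`-invariant data. -/

open MeasureTheory Metric Filter Topology Set
open scoped BigOperators ENNReal ContDiff

noncomputable section
namespace Vale.Agent.S9
open Vale.Agent.P366.Stmt

variable {n : ℕ}

theorem assemble (D : Data n) {X : Exterior n} (h : Fits D X.g X.K)
    (hR : IsGreatest {r | ∃ x, X.F x = 0 ∧ len x = r} D.R)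
    (hdec : ∀ r, D.R < r → |D.JN r| ≤ D.mu r) (h0 : D.H D.R + D.k D.R ≤ 0)
    (hinf : ∀ᶠ r in atTop, |D.k r| < D.H r) {m : ℝ}
    (hm : Tendsto D.mass atTop (𝓝 (2 * m))) {P : Fin n → ℝ} (hP : P = 0) :
    X.Amin ≠ ⊤ ∧ √(∑ i, P i ^ 2) < m ∧
    (X.Amin.toReal / omega n) ^ (((n : ℝ) - 2) / (n - 1)) / 2 ≤
      √(m ^ 2 - ∑ i, P i ^ 2) := by
  have hn : n = 16 := by
    obtain ⟨x, -, hx⟩ := hR.1
    exact Oct.card_eq (ne_zero_of_le hx.ge) D.O
  have hn' : (n : ℝ) = 16 := by exact_mod_cast hn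
  obtain ⟨r, hr, hle⟩ := D.key hdec h0 hinf hm
  have hρ : 0 < D.rho r := D.rho_pos hr
  refine Vale.Agent.P366.T2.conclude (by omega) hP hρ ?_ ?_
  · have hA := Amin_le D h hR hr
    have : D.rho r ^ ((n : ℝ) - 1) = D.ar r := by
      unfold Data.rho
      rw [← Real.rpow_mul (D.ar_pos hr).le, hn']
      norm_num
    rw [this]
    exact hA
  · rw [hn', show (16 : ℝ) - 2 = 14 by norm_num]
    exact hle

/-- The spacetime Penrose inequality for data given by coefficient functions outside a ball. -/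
theorem penrose_fits (D : Data n) {X : Exterior n} (h : Fits D X.g X.K) (hAF : X.IsAF)
    (hDEC : X.DEC) (hT : X.Trapped) {m : ℝ} {P : Fin n → ℝ} (hm : X.IsEnergy m)
    (hP : X.IsMomentum P) (hR : IsGreatest {r | ∃ x, X.F x = 0 ∧ len x = r} D.R) :
    P = 0 ∧ X.Amin ≠ ⊤ ∧ √(∑ i, P i ^ 2) < m ∧
    (X.Amin.toReal / omega n) ^ (((n : ℝ) - 2) / (n - 1)) / 2 ≤
      √(m ^ 2 - ∑ i, P i ^ 2) := by
  have hn : n = 16 := by
    obtain ⟨x, -, hx⟩ := hR.1
    exact Oct.card_eq (ne_zero_of_le hx.ge) D.O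
  obtain ⟨h1, h2, h3⟩ := asympt D h hAF hm hP
  have hout := Vale.Agent.C92.outside_nonneg (by omega) X hR
  refine ⟨h3, assemble D h hR ?_ (touch D h hT hR) h2 h1 h3⟩
  intro r hr
  have hr0 : 0 < r := D.hR.trans hr
  set x : E n := EuclideanSpace.single ⟨0, by omega⟩ r with hxdef
  have hx : len x = r := by
    rw [hxdef, len, PiLp.norm_single, Real.norm_eq_abs, abs_of_pos hr0]
  have hx' : D.R < len x := by rw [hx]; exact hr
  have := dec_eq h hx' (hDEC x (hout x hx'.le))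
  rwa [hx] at this

theorem Oct.Invariant.inv {O : Oct n} {R : ℝ} {T : Field n} (h : O.Invariant R T) :
    O.Inv R T := by
  intro A hA hJ x hx
  ext i j
  refine Eq.trans ?_ (h A hA hJ x (Vale.Agent.P366.T2.act A x) hx (fun i => rfl) i j)
  have key : ∀ M : Matrix (Fin n) (Fin n) ℝ, (A.transpose * M * A) i j =
      ∑ k, ∑ l, A k i * M k l * A l j := by
    intro M
    simp only [Matrix.mul_apply, Matrix.transpose_apply, Finset.sum_mul]
    rw [Finset.sum_comm]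
  exact key _

/-- **The spacetime Penrose inequality for `Spin(9)`-invariant data.** -/
theorem penrose_spin9 (O : Oct n) {X : Exterior n} (hAF : X.IsAF)
    (hDEC : X.DEC) (hT : X.Trapped) {m : ℝ} {P : Fin n → ℝ} (hm : X.IsEnergy m)
    (hP : X.IsMomentum P) {R₁ : ℝ} (hR : IsGreatest {r | ∃ x, X.F x = 0 ∧ len x = r} R₁)
    (hg : O.Invariant R₁ X.g) (hK : O.Invariant R₁ X.K) :
    P = 0 ∧ X.Amin ≠ ⊤ ∧ √(∑ i, P i ^ 2) < m ∧
    (X.Amin.toReal / omega n) ^ (((n : ℝ) - 2) / (n - 1)) / 2 ≤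
      √(m ^ 2 - ∑ i, P i ^ 2) := by
  obtain ⟨x0, hx0⟩ := X.bdry
  obtain ⟨i0, -⟩ := X.dom.2.1 x0 hx0
  have hn : n = 16 := O.n_eq i0.pos
  have hR1 : 0 < R₁ :=
    (Vale.Agent.P366.Bridge.toRaw X).R1_pos (by omega) (Vale.Agent.P366.Bridge.raw_R1 X hR)
  have hout := Vale.Agent.C92.outside_nonneg (by omega) X hR
  obtain ⟨D, rfl, -, hfit⟩ := fits_of_invariant i0.pos O hR1 X.smooth X.symm
    (fun x hx => X.pos x (hout x hx)) hg.inv hK.inv
  exact penrose_fits D hfit hAF hDEC hT hm hP hR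

end Vale.Agent.S9
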