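import Vale.Agent.P366.T2.S9.Alg

/-!
An explicit `Spin(9)`-structure on `ℝ¹⁶` (nine signed permutation matrices).
-/

open Matrix

noncomputable section
namespace Vale.Agent.S9
open Vale.Agent.P366.Stmt

/-- the permutations -/
def pm : Fin 9 → Fin 16 → Fin 16 :=
  ![
    ![8, 9, 10, 11, 12, 13, 14, 15, 0, 1, 2, 3, 4, 5, 6, 7],
    ![14, 15, 12, 13, 10, 11, 8, 9, 6, 7, 4, 5, 2, 3, 0, 1],
    ![12, 13, 14, 15, 8, 9, 10, 11, 4, 5, 6, 7, 0, 1, 2, 3],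
    ![11, 10, 9, 8, 15, 14, 13, 12, 3, 2, 1, 0, 7, 6, 5, 4],
    ![10, 11, 8, 9, 14, 15, 12, 13, 2, 3, 0, 1, 6, 7, 4, 5],
    ![13, 12, 15, 14, 9, 8, 11, 10, 5, 4, 7, 6, 1, 0, 3, 2],
    ![9, 8, 11, 10, 13, 12, 15, 14, 1, 0, 3, 2, 5, 4, 7, 6],
    ![15, 14, 13, 12, 11, 10, 9, 8, 7, 6, 5, 4, 3, 2, 1, 0],
    ![0, 1, 2, 3, 4, 5, 6, 7, 8, 9, 10, 11, 12, 13, 14, 15]]

/-- the signs -/
def sg : Fin 9 → Fin 16 → ℤ :=
  ![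
    ![1, 1, 1, 1, 1, 1, 1, 1, 1, 1, 1, 1, 1, 1, 1, 1],
    ![1, 1, 1, 1, -1, -1, -1, -1, -1, -1, -1, -1, 1, 1, 1, 1],
    ![1, 1, -1, -1, -1, -1, 1, 1, -1, -1, 1, 1, 1, 1, -1, -1],
    ![1, 1, -1, -1, 1, 1, -1, -1, -1, -1, 1, 1, -1, -1, 1, 1],
    ![1, -1, -1, 1, 1, -1, -1, 1, -1, 1, 1, -1, -1, 1, 1, -1],
    ![1, -1, 1, -1, 1, -1, 1, -1, -1, 1, -1, 1, -1, 1, -1, 1],
    ![1, -1, 1, -1, -1, 1, -1, 1, -1, 1, -1, 1, 1, -1, 1, -1],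
    ![1, -1, -1, 1, -1, 1, 1, -1, -1, 1, 1, -1, 1, -1, -1, 1],
    ![1, 1, 1, 1, 1, 1, 1, 1, -1, -1, -1, -1, -1, -1, -1, -1]]

lemma pm_pm : ∀ a i, pm a (pm a i) = i := by decide

lemma sg_symm : ∀ a i, sg a (pm a i) = sg a i := by decide

lemma sg_sq : ∀ a i, sg a i * sg a i = 1 := by decide

lemma pm_comm : ∀ a b i, pm b (pm a i) = pm a (pm b i) := by decide

lemma sg_anti : ∀ a b i, a ≠ b → sg a i * sg b (pm a i) = -(sg b i * sg a (pm b i)) := by decide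

/-- the nine matrices -/
def octP (a : Fin 9) : Matrix (Fin 16) (Fin 16) ℝ :=
  Matrix.of fun i j => if j = pm a i then (sg a i : ℝ) else 0

lemma octP_sum (a : Fin 9) (i : Fin 16) (x : Fin 16 → ℝ) :
    ∑ j, octP a i j * x j = sg a i * x (pm a i) := by
  simp [octP]

lemma octP_mul (a b : Fin 9) (i k : Fin 16) :
    (octP a * octP b) i k = if k = pm b (pm a i) then (sg a i : ℝ) * sg b (pm a i) else 0 := by
  rw [Matrix.mul_apply, octP_sum]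
  simp only [octP, Matrix.of_apply]
  split_ifs <;> simp

/-- the quadratic form number 0 -/
def wv0 (x : Fin 16 → ℝ) : ℝ :=
  2 * (x 0 * x 8 + x 1 * x 9 + x 2 * x 10 + x 3 * x 11 + x 4 * x 12 + x 5 * x 13 + x 6 * x 14 + x 7 * x 15)

lemma wv0_eq (x : Fin 16 → ℝ) : ∑ j, x j * ((sg 0 j : ℝ) * x (pm 0 j)) = wv0 x := by
  simp [Fin.sum_univ_succ, pm, sg, wv0]
  ring

/-- the quadratic form number 1 -/
def wv1 (x : Fin 16 → ℝ) : ℝ :=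
  2 * (x 0 * x 14 + x 1 * x 15 + x 2 * x 12 + x 3 * x 13 - x 4 * x 10 - x 5 * x 11 - x 6 * x 8 - x 7 * x 9)

lemma wv1_eq (x : Fin 16 → ℝ) : ∑ j, x j * ((sg 1 j : ℝ) * x (pm 1 j)) = wv1 x := by
  simp [Fin.sum_univ_succ, pm, sg, wv1]
  ring

/-- the quadratic form number 2 -/
def wv2 (x : Fin 16 → ℝ) : ℝ :=
  2 * (x 0 * x 12 + x 1 * x 13 - x 2 * x 14 - x 3 * x 15 - x 4 * x 8 - x 5 * x 9 + x 6 * x 10 + x 7 * x 11)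

lemma wv2_eq (x : Fin 16 → ℝ) : ∑ j, x j * ((sg 2 j : ℝ) * x (pm 2 j)) = wv2 x := by
  simp [Fin.sum_univ_succ, pm, sg, wv2]
  ring

/-- the quadratic form number 3 -/
def wv3 (x : Fin 16 → ℝ) : ℝ :=
  2 * (x 0 * x 11 + x 1 * x 10 - x 2 * x 9 - x 3 * x 8 + x 4 * x 15 + x 5 * x 14 - x 6 * x 13 - x 7 * x 12)

lemma wv3_eq (x : Fin 16 → ℝ) : ∑ j, x j * ((sg 3 j : ℝ) * x (pm 3 j)) = wv3 x := by
  simp [Fin.sum_univ_succ, pm, sg, wv3]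
  ring

/-- the quadratic form number 4 -/
def wv4 (x : Fin 16 → ℝ) : ℝ :=
  2 * (x 0 * x 10 - x 1 * x 11 - x 2 * x 8 + x 3 * x 9 + x 4 * x 14 - x 5 * x 15 - x 6 * x 12 + x 7 * x 13)

lemma wv4_eq (x : Fin 16 → ℝ) : ∑ j, x j * ((sg 4 j : ℝ) * x (pm 4 j)) = wv4 x := by
  simp [Fin.sum_univ_succ, pm, sg, wv4]
  ring

/-- the quadratic form number 5 -/
def wv5 (x : Fin 16 → ℝ) : ℝ :=
  2 * (x 0 * x 13 - x 1 * x 12 + x 2 * x 15 - x 3 * x 14 + x 4 * x 9 - x 5 * x 8 + x 6 * x 11 - x 7 * x 10)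

lemma wv5_eq (x : Fin 16 → ℝ) : ∑ j, x j * ((sg 5 j : ℝ) * x (pm 5 j)) = wv5 x := by
  simp [Fin.sum_univ_succ, pm, sg, wv5]
  ring

/-- the quadratic form number 6 -/
def wv6 (x : Fin 16 → ℝ) : ℝ :=
  2 * (x 0 * x 9 - x 1 * x 8 + x 2 * x 11 - x 3 * x 10 - x 4 * x 13 + x 5 * x 12 - x 6 * x 15 + x 7 * x 14)

lemma wv6_eq (x : Fin 16 → ℝ) : ∑ j, x j * ((sg 6 j : ℝ) * x (pm 6 j)) = wv6 x := by
  simp [Fin.sum_univ_succ, pm, sg, wv6]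
  ring

/-- the quadratic form number 7 -/
def wv7 (x : Fin 16 → ℝ) : ℝ :=
  2 * (x 0 * x 15 - x 1 * x 14 - x 2 * x 13 + x 3 * x 12 - x 4 * x 11 + x 5 * x 10 + x 6 * x 9 - x 7 * x 8)

lemma wv7_eq (x : Fin 16 → ℝ) : ∑ j, x j * ((sg 7 j : ℝ) * x (pm 7 j)) = wv7 x := by
  simp [Fin.sum_univ_succ, pm, sg, wv7]
  ring

/-- the quadratic form number 8 -/
def wv8 (x : Fin 16 → ℝ) : ℝ :=
  x 0 * x 0 + x 1 * x 1 + x 2 * x 2 + x 3 * x 3 + x 4 * x 4 + x 5 * x 5 + x 6 * x 6 + x 7 * x 7 - x 8 * x 8 - x 9 * x 9 - x 10 * x 10 - x 11 * x 11 - x 12 * x 12 - x 13 * x 13 - x 14 * x 14 - x 15 * x 15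

lemma wv8_eq (x : Fin 16 → ℝ) : ∑ j, x j * ((sg 8 j : ℝ) * x (pm 8 j)) = wv8 x := by
  simp [Fin.sum_univ_succ, pm, sg, wv8]
  ring

lemma hopf_0 (x : Fin 16 → ℝ) : wv0 x * x 8 + wv1 x * x 14 + wv2 x * x 12 + wv3 x * x 11 + wv4 x * x 10 + wv5 x * x 13 + wv6 x * x 9 + wv7 x * x 15 + wv8 x * x 0 =
    (∑ j, x j * x j) * x 0 := by
  simp only [Fin.sum_univ_succ, Fin.sum_univ_zero]
  simp only [wv0, wv1, wv2, wv3, wv4, wv5, wv6, wv7, wv8]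
  show _ = (x 0 * x 0 + (x 1 * x 1 + (x 2 * x 2 + (x 3 * x 3 + (x 4 * x 4 + (x 5 * x 5 +
    (x 6 * x 6 + (x 7 * x 7 + (x 8 * x 8 + (x 9 * x 9 + (x 10 * x 10 + (x 11 * x 11 +
    (x 12 * x 12 + (x 13 * x 13 + (x 14 * x 14 + (x 15 * x 15 + 0)))))))))))))))) * x 0
  ring

lemma hopf_1 (x : Fin 16 → ℝ) : wv0 x * x 9 + wv1 x * x 15 + wv2 x * x 13 + wv3 x * x 10 + wv4 x * (-x 11) + wv5 x * (-x 12) + wv6 x * (-x 8) + wv7 x * (-x 14) + wv8 x * x 1 =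
    (∑ j, x j * x j) * x 1 := by
  simp only [Fin.sum_univ_succ, Fin.sum_univ_zero]
  simp only [wv0, wv1, wv2, wv3, wv4, wv5, wv6, wv7, wv8]
  show _ = (x 0 * x 0 + (x 1 * x 1 + (x 2 * x 2 + (x 3 * x 3 + (x 4 * x 4 + (x 5 * x 5 +
    (x 6 * x 6 + (x 7 * x 7 + (x 8 * x 8 + (x 9 * x 9 + (x 10 * x 10 + (x 11 * x 11 +
    (x 12 * x 12 + (x 13 * x 13 + (x 14 * x 14 + (x 15 * x 15 + 0)))))))))))))))) * x 1
  ring

lemma hopf_2 (x : Fin 16 → ℝ) : wv0 x * x 10 + wv1 x * x 12 + wv2 x * (-x 14) + wv3 x * (-x 9) + wv4 x * (-x 8) + wv5 x * x 15 + wv6 x * x 11 + wv7 x * (-x 13) + wv8 x * x 2 =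
    (∑ j, x j * x j) * x 2 := by
  simp only [Fin.sum_univ_succ, Fin.sum_univ_zero]
  simp only [wv0, wv1, wv2, wv3, wv4, wv5, wv6, wv7, wv8]
  show _ = (x 0 * x 0 + (x 1 * x 1 + (x 2 * x 2 + (x 3 * x 3 + (x 4 * x 4 + (x 5 * x 5 +
    (x 6 * x 6 + (x 7 * x 7 + (x 8 * x 8 + (x 9 * x 9 + (x 10 * x 10 + (x 11 * x 11 +
    (x 12 * x 12 + (x 13 * x 13 + (x 14 * x 14 + (x 15 * x 15 + 0)))))))))))))))) * x 2
  ring

lemma hopf_3 (x : Fin 16 → ℝ) : wv0 x * x 11 + wv1 x * x 13 + wv2 x * (-x 15) + wv3 x * (-x 8) + wv4 x * x 9 + wv5 x * (-x 14) + wv6 x * (-x 10) + wv7 x * x 12 + wv8 x * x 3 =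
    (∑ j, x j * x j) * x 3 := by
  simp only [Fin.sum_univ_succ, Fin.sum_univ_zero]
  simp only [wv0, wv1, wv2, wv3, wv4, wv5, wv6, wv7, wv8]
  show _ = (x 0 * x 0 + (x 1 * x 1 + (x 2 * x 2 + (x 3 * x 3 + (x 4 * x 4 + (x 5 * x 5 +
    (x 6 * x 6 + (x 7 * x 7 + (x 8 * x 8 + (x 9 * x 9 + (x 10 * x 10 + (x 11 * x 11 +
    (x 12 * x 12 + (x 13 * x 13 + (x 14 * x 14 + (x 15 * x 15 + 0)))))))))))))))) * x 3
  ring

lemma hopf_4 (x : Fin 16 → ℝ) : wv0 x * x 12 + wv1 x * (-x 10) + wv2 x * (-x 8) + wv3 x * x 15 + wv4 x * x 14 + wv5 x * x 9 + wv6 x * (-x 13) + wv7 x * (-x 11) + wv8 x * x 4 =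
    (∑ j, x j * x j) * x 4 := by
  simp only [Fin.sum_univ_succ, Fin.sum_univ_zero]
  simp only [wv0, wv1, wv2, wv3, wv4, wv5, wv6, wv7, wv8]
  show _ = (x 0 * x 0 + (x 1 * x 1 + (x 2 * x 2 + (x 3 * x 3 + (x 4 * x 4 + (x 5 * x 5 +
    (x 6 * x 6 + (x 7 * x 7 + (x 8 * x 8 + (x 9 * x 9 + (x 10 * x 10 + (x 11 * x 11 +
    (x 12 * x 12 + (x 13 * x 13 + (x 14 * x 14 + (x 15 * x 15 + 0)))))))))))))))) * x 4
  ring

lemma hopf_5 (x : Fin 16 → ℝ) : wv0 x * x 13 + wv1 x * (-x 11) + wv2 x * (-x 9) + wv3 x * x 14 + wv4 x * (-x 15) + wv5 x * (-x 8) + wv6 x * x 12 + wv7 x * x 10 + wv8 x * x 5 =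
    (∑ j, x j * x j) * x 5 := by
  simp only [Fin.sum_univ_succ, Fin.sum_univ_zero]
  simp only [wv0, wv1, wv2, wv3, wv4, wv5, wv6, wv7, wv8]
  show _ = (x 0 * x 0 + (x 1 * x 1 + (x 2 * x 2 + (x 3 * x 3 + (x 4 * x 4 + (x 5 * x 5 +
    (x 6 * x 6 + (x 7 * x 7 + (x 8 * x 8 + (x 9 * x 9 + (x 10 * x 10 + (x 11 * x 11 +
    (x 12 * x 12 + (x 13 * x 13 + (x 14 * x 14 + (x 15 * x 15 + 0)))))))))))))))) * x 5
  ring

lemma hopf_6 (x : Fin 16 → ℝ) : wv0 x * x 14 + wv1 x * (-x 8) + wv2 x * x 10 + wv3 x * (-x 13) + wv4 x * (-x 12) + wv5 x * x 11 + wv6 x * (-x 15) + wv7 x * x 9 + wv8 x * x 6 =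
    (∑ j, x j * x j) * x 6 := by
  simp only [Fin.sum_univ_succ, Fin.sum_univ_zero]
  simp only [wv0, wv1, wv2, wv3, wv4, wv5, wv6, wv7, wv8]
  show _ = (x 0 * x 0 + (x 1 * x 1 + (x 2 * x 2 + (x 3 * x 3 + (x 4 * x 4 + (x 5 * x 5 +
    (x 6 * x 6 + (x 7 * x 7 + (x 8 * x 8 + (x 9 * x 9 + (x 10 * x 10 + (x 11 * x 11 +
    (x 12 * x 12 + (x 13 * x 13 + (x 14 * x 14 + (x 15 * x 15 + 0)))))))))))))))) * x 6
  ring

lemma hopf_7 (x : Fin 16 → ℝ) : wv0 x * x 15 + wv1 x * (-x 9) + wv2 x * x 11 + wv3 x * (-x 12) + wv4 x * x 13 + wv5 x * (-x 10) + wv6 x * x 14 + wv7 x * (-x 8) + wv8 x * x 7 =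
    (∑ j, x j * x j) * x 7 := by
  simp only [Fin.sum_univ_succ, Fin.sum_univ_zero]
  simp only [wv0, wv1, wv2, wv3, wv4, wv5, wv6, wv7, wv8]
  show _ = (x 0 * x 0 + (x 1 * x 1 + (x 2 * x 2 + (x 3 * x 3 + (x 4 * x 4 + (x 5 * x 5 +
    (x 6 * x 6 + (x 7 * x 7 + (x 8 * x 8 + (x 9 * x 9 + (x 10 * x 10 + (x 11 * x 11 +
    (x 12 * x 12 + (x 13 * x 13 + (x 14 * x 14 + (x 15 * x 15 + 0)))))))))))))))) * x 7
  ring

lemma hopf_8 (x : Fin 16 → ℝ) : wv0 x * x 0 + wv1 x * (-x 6) + wv2 x * (-x 4) + wv3 x * (-x 3) + wv4 x * (-x 2) + wv5 x * (-x 5) + wv6 x * (-x 1) + wv7 x * (-x 7) + wv8 x * (-x 8) =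
    (∑ j, x j * x j) * x 8 := by
  simp only [Fin.sum_univ_succ, Fin.sum_univ_zero]
  simp only [wv0, wv1, wv2, wv3, wv4, wv5, wv6, wv7, wv8]
  show _ = (x 0 * x 0 + (x 1 * x 1 + (x 2 * x 2 + (x 3 * x 3 + (x 4 * x 4 + (x 5 * x 5 +
    (x 6 * x 6 + (x 7 * x 7 + (x 8 * x 8 + (x 9 * x 9 + (x 10 * x 10 + (x 11 * x 11 +
    (x 12 * x 12 + (x 13 * x 13 + (x 14 * x 14 + (x 15 * x 15 + 0)))))))))))))))) * x 8
  ring

lemma hopf_9 (x : Fin 16 → ℝ) : wv0 x * x 1 + wv1 x * (-x 7) + wv2 x * (-x 5) + wv3 x * (-x 2) + wv4 x * x 3 + wv5 x * x 4 + wv6 x * x 0 + wv7 x * x 6 + wv8 x * (-x 9) =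
    (∑ j, x j * x j) * x 9 := by
  simp only [Fin.sum_univ_succ, Fin.sum_univ_zero]
  simp only [wv0, wv1, wv2, wv3, wv4, wv5, wv6, wv7, wv8]
  show _ = (x 0 * x 0 + (x 1 * x 1 + (x 2 * x 2 + (x 3 * x 3 + (x 4 * x 4 + (x 5 * x 5 +
    (x 6 * x 6 + (x 7 * x 7 + (x 8 * x 8 + (x 9 * x 9 + (x 10 * x 10 + (x 11 * x 11 +
    (x 12 * x 12 + (x 13 * x 13 + (x 14 * x 14 + (x 15 * x 15 + 0)))))))))))))))) * x 9
  ring

lemma hopf_10 (x : Fin 16 → ℝ) : wv0 x * x 2 + wv1 x * (-x 4) + wv2 x * x 6 + wv3 x * x 1 + wv4 x * x 0 + wv5 x * (-x 7) + wv6 x * (-x 3) + wv7 x * x 5 + wv8 x * (-x 10) =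
    (∑ j, x j * x j) * x 10 := by
  simp only [Fin.sum_univ_succ, Fin.sum_univ_zero]
  simp only [wv0, wv1, wv2, wv3, wv4, wv5, wv6, wv7, wv8]
  show _ = (x 0 * x 0 + (x 1 * x 1 + (x 2 * x 2 + (x 3 * x 3 + (x 4 * x 4 + (x 5 * x 5 +
    (x 6 * x 6 + (x 7 * x 7 + (x 8 * x 8 + (x 9 * x 9 + (x 10 * x 10 + (x 11 * x 11 +
    (x 12 * x 12 + (x 13 * x 13 + (x 14 * x 14 + (x 15 * x 15 + 0)))))))))))))))) * x 10
  ring

lemma hopf_11 (x : Fin 16 → ℝ) : wv0 x * x 3 + wv1 x * (-x 5) + wv2 x * x 7 + wv3 x * x 0 + wv4 x * (-x 1) + wv5 x * x 6 + wv6 x * x 2 + wv7 x * (-x 4) + wv8 x * (-x 11) =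
    (∑ j, x j * x j) * x 11 := by
  simp only [Fin.sum_univ_succ, Fin.sum_univ_zero]
  simp only [wv0, wv1, wv2, wv3, wv4, wv5, wv6, wv7, wv8]
  show _ = (x 0 * x 0 + (x 1 * x 1 + (x 2 * x 2 + (x 3 * x 3 + (x 4 * x 4 + (x 5 * x 5 +
    (x 6 * x 6 + (x 7 * x 7 + (x 8 * x 8 + (x 9 * x 9 + (x 10 * x 10 + (x 11 * x 11 +
    (x 12 * x 12 + (x 13 * x 13 + (x 14 * x 14 + (x 15 * x 15 + 0)))))))))))))))) * x 11
  ring

lemma hopf_12 (x : Fin 16 → ℝ) : wv0 x * x 4 + wv1 x * x 2 + wv2 x * x 0 + wv3 x * (-x 7) + wv4 x * (-x 6) + wv5 x * (-x 1) + wv6 x * x 5 + wv7 x * x 3 + wv8 x * (-x 12) =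
    (∑ j, x j * x j) * x 12 := by
  simp only [Fin.sum_univ_succ, Fin.sum_univ_zero]
  simp only [wv0, wv1, wv2, wv3, wv4, wv5, wv6, wv7, wv8]
  show _ = (x 0 * x 0 + (x 1 * x 1 + (x 2 * x 2 + (x 3 * x 3 + (x 4 * x 4 + (x 5 * x 5 +
    (x 6 * x 6 + (x 7 * x 7 + (x 8 * x 8 + (x 9 * x 9 + (x 10 * x 10 + (x 11 * x 11 +
    (x 12 * x 12 + (x 13 * x 13 + (x 14 * x 14 + (x 15 * x 15 + 0)))))))))))))))) * x 12
  ring

lemma hopf_13 (x : Fin 16 → ℝ) : wv0 x * x 5 + wv1 x * x 3 + wv2 x * x 1 + wv3 x * (-x 6) + wv4 x * x 7 + wv5 x * x 0 + wv6 x * (-x 4) + wv7 x * (-x 2) + wv8 x * (-x 13) =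
    (∑ j, x j * x j) * x 13 := by
  simp only [Fin.sum_univ_succ, Fin.sum_univ_zero]
  simp only [wv0, wv1, wv2, wv3, wv4, wv5, wv6, wv7, wv8]
  show _ = (x 0 * x 0 + (x 1 * x 1 + (x 2 * x 2 + (x 3 * x 3 + (x 4 * x 4 + (x 5 * x 5 +
    (x 6 * x 6 + (x 7 * x 7 + (x 8 * x 8 + (x 9 * x 9 + (x 10 * x 10 + (x 11 * x 11 +
    (x 12 * x 12 + (x 13 * x 13 + (x 14 * x 14 + (x 15 * x 15 + 0)))))))))))))))) * x 13
  ring

lemma hopf_14 (x : Fin 16 → ℝ) : wv0 x * x 6 + wv1 x * x 0 + wv2 x * (-x 2) + wv3 x * x 5 + wv4 x * x 4 + wv5 x * (-x 3) + wv6 x * x 7 + wv7 x * (-x 1) + wv8 x * (-x 14) =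
    (∑ j, x j * x j) * x 14 := by
  simp only [Fin.sum_univ_succ, Fin.sum_univ_zero]
  simp only [wv0, wv1, wv2, wv3, wv4, wv5, wv6, wv7, wv8]
  show _ = (x 0 * x 0 + (x 1 * x 1 + (x 2 * x 2 + (x 3 * x 3 + (x 4 * x 4 + (x 5 * x 5 +
    (x 6 * x 6 + (x 7 * x 7 + (x 8 * x 8 + (x 9 * x 9 + (x 10 * x 10 + (x 11 * x 11 +
    (x 12 * x 12 + (x 13 * x 13 + (x 14 * x 14 + (x 15 * x 15 + 0)))))))))))))))) * x 14
  ring

lemma hopf_15 (x : Fin 16 → ℝ) : wv0 x * x 7 + wv1 x * x 1 + wv2 x * (-x 3) + wv3 x * x 4 + wv4 x * (-x 5) + wv5 x * x 2 + wv6 x * (-x 6) + wv7 x * x 0 + wv8 x * (-x 15) =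
    (∑ j, x j * x j) * x 15 := by
  simp only [Fin.sum_univ_succ, Fin.sum_univ_zero]
  simp only [wv0, wv1, wv2, wv3, wv4, wv5, wv6, wv7, wv8]
  show _ = (x 0 * x 0 + (x 1 * x 1 + (x 2 * x 2 + (x 3 * x 3 + (x 4 * x 4 + (x 5 * x 5 +
    (x 6 * x 6 + (x 7 * x 7 + (x 8 * x 8 + (x 9 * x 9 + (x 10 * x 10 + (x 11 * x 11 +
    (x 12 * x 12 + (x 13 * x 13 + (x 14 * x 14 + (x 15 * x 15 + 0)))))))))))))))) * x 15
  ring

lemma sum9 (f : Fin 9 → ℝ) :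
    ∑ a, f a = f 0 + f 1 + f 2 + f 3 + f 4 + f 5 + f 6 + f 7 + f 8 := by
  rw [Fin.sum_univ_castSucc, Fin.sum_univ_eight]
  rfl

lemma hopf_all (x : Fin 16 → ℝ) (i : Fin 16) :
    ∑ a, (∑ j, x j * ((sg a j : ℝ) * x (pm a j))) * ((sg a i : ℝ) * x (pm a i)) =
      (∑ j, x j * x j) * x i := by
  rw [sum9]
  rw [wv0_eq, wv1_eq, wv2_eq, wv3_eq, wv4_eq, wv5_eq, wv6_eq, wv7_eq, wv8_eq]
  fin_cases i
  · refine Eq.trans ?_ (hopf_0 x); simp [sg, pm]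
  · refine Eq.trans ?_ (hopf_1 x); simp [sg, pm]
  · refine Eq.trans ?_ (hopf_2 x); simp [sg, pm]
  · refine Eq.trans ?_ (hopf_3 x); simp [sg, pm]
  · refine Eq.trans ?_ (hopf_4 x); simp [sg, pm]
  · refine Eq.trans ?_ (hopf_5 x); simp [sg, pm]
  · refine Eq.trans ?_ (hopf_6 x); simp [sg, pm]
  · refine Eq.trans ?_ (hopf_7 x); simp [sg, pm]
  · refine Eq.trans ?_ (hopf_8 x); simp [sg, pm]
  · refine Eq.trans ?_ (hopf_9 x); simp [sg, pm]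
  · refine Eq.trans ?_ (hopf_10 x); simp [sg, pm]
  · refine Eq.trans ?_ (hopf_11 x); simp [sg, pm]
  · refine Eq.trans ?_ (hopf_12 x); simp [sg, pm]
  · refine Eq.trans ?_ (hopf_13 x); simp [sg, pm]
  · refine Eq.trans ?_ (hopf_14 x); simp [sg, pm]
  · refine Eq.trans ?_ (hopf_15 x); simp [sg, pm]

/-- The `Spin(9)`-structure on `ℝ¹⁶`. -/
def oct16 : Oct 16 where
  P := octP
  symm a := by
    ext i j
    simp only [Matrix.transpose_apply, octP, Matrix.of_apply]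
    by_cases h : i = pm a j
    · rw [if_pos h, if_pos (by rw [h, pm_pm]), h, sg_symm]
    · rw [if_neg h, if_neg (by
        intro h2
        apply h
        rw [h2, pm_pm])]
  cliff a b := by
    ext i k
    rw [Matrix.add_apply, octP_mul, octP_mul]
    by_cases hab : a = b
    · subst hab
      rw [if_pos rfl, pm_pm, sg_symm]
      have h1 : ((sg a i : ℤ) : ℝ) * sg a i = 1 := by exact_mod_cast sg_sq a i
      rw [h1, show (2 : Matrix (Fin 16) (Fin 16) ℝ) = (2 : ℝ) • 1 by rw [two_smul]; norm_num,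
        Matrix.smul_apply, Matrix.one_apply]
      by_cases hik : i = k
      · rw [if_pos hik.symm, if_pos hik]; norm_num
      · rw [if_neg (Ne.symm hik), if_neg hik]; norm_num
    · rw [if_neg hab, pm_comm b a i]
      have h1 : ((sg a i : ℤ) : ℝ) * sg b (pm a i) = -((sg b i : ℤ) * sg a (pm b i)) := by
        exact_mod_cast sg_anti a b i hab
      rw [h1, pm_comm a b i]
      split_ifs <;> simp
  hopf x i := by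
    have hZ : ∀ a i, ∑ k, octP a i k * x k = sg a i * x (pm a i) := fun a i => octP_sum a i x
    simp only [hZ, ← sum_sq]
    exact hopf_all x i

end Vale.Agent.S9
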