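import Vale.Agent.P366.T2.S9.Up
import Vale.Agent.P366.T2.Calc

/-! Pointwise algebra and first derivatives of the invariant tensors. -/

open MeasureTheory Metric Filter Topology Set
open scoped ContDiff ENNReal

noncomputable section
namespace Vale.Agent.S9
open Vale.Agent.P366.Stmt
open Vale.Agent.P366.T2 (HP)

variable {n : ℕ}

/-- unit radial vector -/
def Nn (x : E n) (i : Fin n) : ℝ := x i / len x

theorem Nn_sq {x : E n} (hx : x ≠ 0) : ∑ i, Nn x i * Nn x i = 1 := by
  have hr : len x ≠ 0 := len_ne hx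
  have h : ∀ i, Nn x i * Nn x i = (x i * x i) / len x ^ 2 := by
    intro i; unfold Nn; field_simp
  simp only [h, ← Finset.sum_div, sum_sq]
  exact div_self (pow_ne_zero 2 hr)

namespace Oct

variable (O : Oct n)

theorem card_eq {x : E n} (hx : x ≠ 0) (O : Oct n) : n = 16 := by
  rcases Nat.eq_zero_or_pos n with h0 | h0
  · exfalso; subst h0; exact hx (Subsingleton.elim _ _)
  · exact O.n_eq h0

/-- horizontal vectors -/
def bb (x : E n) (a : Fin 9) (i : Fin n) : ℝ := O.Z a x i / len x - O.om x a * Nn x i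

/-- the operator `Σ u_a P_a` -/
def Mm (x : E n) (i j : Fin n) : ℝ := ∑ a, O.om x a * O.P a i j

/-- the derivative of `Mm` in direction `k`, up to the factor `2 / r` -/
def Bb (x : E n) (k i j : Fin n) : ℝ := ∑ a, O.bb x a k * O.P a i j

/-- the derivative of `N Nᵀ`, up to the factor `1 / r` -/
def Ww (x : E n) (k i j : Fin n) : ℝ :=
  (if i = k then 1 else 0) * Nn x j + Nn x i * (if j = k then 1 else 0) -
    2 * (Nn x i * Nn x j * Nn x k)

theorem om_eq (x : E n) (hx : x ≠ 0) (a : Fin 9) : O.om x a = ∑ i, Nn x i * (O.Z a x i / len x) := by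
  have hr : len x ≠ 0 := len_ne hx
  unfold om w Nn
  rw [Finset.sum_div]
  exact Finset.sum_congr rfl fun i _ => by field_simp

theorem ZZ_eq {x : E n} (hx : x ≠ 0) (i j : Fin n) :
    (∑ a, O.Z a x i * O.Z a x j) / len x ^ 2 =
      Nn x i * Nn x j + ((if i = j then 1 else 0) - O.Mm x i j) / 2 := by
  have hr : len x ≠ 0 := len_ne hx
  have h := O.fierz x i j
  have h1 : O.Mm x i j = (∑ a, O.w a x * O.P a i j) / len x ^ 2 := by
    unfold Mm om
    rw [Finset.sum_div]
    exact Finset.sum_congr rfl fun a _ => by ring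
  have h2 : ∑ a, O.Z a x i * O.Z a x j =
      ((if i = j then len x ^ 2 else 0) + 2 * (x i * x j) - ∑ a, O.w a x * O.P a i j) / 2 := by
    linarith
  rw [h1, h2]
  unfold Nn
  split_ifs <;> field_simp <;> ring

/-- the tensor in terms of `1`, `N Nᵀ`, `M` -/
theorem tv_M {x : E n} (hx : x ≠ 0) (f u s : ℝ) (i j : Fin n) :
    O.tv f u s x i j = ((f + s) / 2) * (if i = j then 1 else 0) + (u - s) * (Nn x i * Nn x j) +
      ((s - f) / 2) * O.Mm x i j := by
  have hr : len x ≠ 0 := len_ne hx
  have h1 : (∑ a, O.Z a x i * O.Z a x j - x i * x j) / len x ^ 2 =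
      (∑ a, O.Z a x i * O.Z a x j) / len x ^ 2 - Nn x i * Nn x j := by
    unfold Nn; field_simp
  have h2 : x i * x j / len x ^ 2 = Nn x i * Nn x j := by unfold Nn; field_simp
  unfold tv
  rw [h1, h2, O.ZZ_eq hx]
  ring

theorem bb_sum_om {x : E n} (hx : x ≠ 0) (i : Fin n) : ∑ a, O.om x a * O.bb x a i = 0 := by
  have hr : len x ≠ 0 := len_ne hx
  have h1 : ∀ a, O.om x a * O.bb x a i = O.U x i a * O.om x a -
      O.om x a * O.om x a * Nn x i := by
    intro a; unfold bb U; simp only [Matrix.of_apply]; ring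
  simp only [h1, Finset.sum_sub_distrib, ← Finset.sum_mul, O.om_sq hx, O.U_om hx]
  unfold Nn; ring

theorem N_bb {x : E n} (hx : x ≠ 0) (a : Fin 9) : ∑ i, Nn x i * O.bb x a i = 0 := by
  have h1 : ∀ i, Nn x i * O.bb x a i = Nn x i * (O.Z a x i / len x) -
      O.om x a * (Nn x i * Nn x i) := by
    intro i; unfold bb; ring
  simp only [h1, Finset.sum_sub_distrib, ← Finset.mul_sum, Nn_sq hx]
  rw [← O.om_eq x hx]
  ring

theorem bb_bb {x : E n} (hx : x ≠ 0) (a b : Fin 9) :
    ∑ i, O.bb x a i * O.bb x b i = (if a = b then 1 else 0) - O.om x a * O.om x b := by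
  have hr : len x ≠ 0 := len_ne hx
  have h1 : ∀ i, O.bb x a i * O.bb x b i = (O.Z a x i * O.Z b x i) / len x ^ 2 -
      O.om x a * (Nn x i * (O.Z b x i / len x)) - O.om x b * (Nn x i * (O.Z a x i / len x)) +
      O.om x a * O.om x b * (Nn x i * Nn x i) := by
    intro i; unfold bb; field_simp; ring
  simp only [h1, Finset.sum_add_distrib, Finset.sum_sub_distrib, ← Finset.mul_sum, Nn_sq hx,
    ← O.om_eq x hx, ← Finset.sum_div, O.Z_Z]
  split_ifs
  · rw [div_self (pow_ne_zero 2 hr)]; ring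
  · ring

theorem sum_bb_sq {x : E n} (hx : x ≠ 0) : ∑ a, ∑ i, O.bb x a i * O.bb x a i = 8 := by
  simp only [O.bb_bb hx, if_true, Finset.sum_sub_distrib, O.om_sq hx]
  simp
  norm_num

/-- projection to the horizontal space -/
theorem sum_bb_bb {x : E n} (hx : x ≠ 0) (i j : Fin n) :
    ∑ a, O.bb x a i * O.bb x a j = O.tv 1 0 0 x i j := by
  have hr : len x ≠ 0 := len_ne hx
  have h1 : ∀ a, O.bb x a i * O.bb x a j = (O.Z a x i * O.Z a x j) / len x ^ 2 -
      Nn x j * (O.U x i a * O.om x a) - Nn x i * (O.U x j a * O.om x a) +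
      (O.om x a * O.om x a) * (Nn x i * Nn x j) := by
    intro a; unfold bb U; simp only [Matrix.of_apply]; field_simp; ring
  simp only [h1, Finset.sum_add_distrib, Finset.sum_sub_distrib, ← Finset.mul_sum,
    ← Finset.sum_mul, ← Finset.sum_div, O.om_sq hx, O.U_om hx]
  unfold tv Nn
  field_simp
  ring

theorem P_N {x : E n} (hx : x ≠ 0) (a : Fin 9) (i : Fin n) :
    ∑ j, O.P a i j * Nn x j = O.bb x a i + O.om x a * Nn x i := by
  have h1 : ∑ j, O.P a i j * Nn x j = O.Z a x i / len x := by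
    unfold Oct.Z Nn
    rw [Finset.sum_div]
    exact Finset.sum_congr rfl fun j _ => by ring
  rw [h1]; unfold bb; ring

theorem tv_bb {x : E n} (hx : x ≠ 0) (f u s : ℝ) (a : Fin 9) (i : Fin n) :
    ∑ j, O.tv f u s x i j * O.bb x a j = f * O.bb x a i := by
  -- multiply the projection identity
  have h1 : ∀ j, O.bb x a j = ∑ k, O.tv 1 0 0 x j k * O.bb x a k := by
    intro j
    have e1 : ∀ k, O.tv 1 0 0 x j k * O.bb x a k =
        ∑ b, O.bb x b j * (O.bb x b k * O.bb x a k) := by
      intro k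
      rw [← O.sum_bb_bb hx, Finset.sum_mul]
      exact Finset.sum_congr rfl fun b _ => by ring
    simp only [e1]
    rw [Finset.sum_comm]
    simp only [← Finset.mul_sum, O.bb_bb hx]
    have e2 : ∀ b, O.bb x b j * ((if b = a then 1 else 0) - O.om x b * O.om x a) =
        (if b = a then O.bb x b j else 0) - (O.om x b * O.bb x b j) * O.om x a := by
      intro b; split_ifs <;> ring
    simp only [e2, Finset.sum_sub_distrib, ← Finset.sum_mul, O.bb_sum_om hx]
    simp
  calc ∑ j, O.tv f u s x i j * O.bb x a j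
      = ∑ j, ∑ k, O.tv f u s x i j * O.tv 1 0 0 x j k * O.bb x a k := by
        refine Finset.sum_congr rfl fun j _ => ?_
        conv_lhs => rw [h1 j]
        rw [Finset.mul_sum]
        exact Finset.sum_congr rfl fun k _ => by ring
    _ = ∑ k, O.tv f 0 0 x i k * O.bb x a k := by
        rw [Finset.sum_comm]
        refine Finset.sum_congr rfl fun k _ => ?_
        rw [← Finset.sum_mul, O.tv_mul hx]
        simp
    _ = f * O.bb x a i := by
        rw [h1 i, Finset.mul_sum]
        refine Finset.sum_congr rfl fun k _ => ?_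
        have : O.tv f 0 0 x i k = f * O.tv 1 0 0 x i k := by unfold tv; ring
        rw [this]; ring

theorem tv_N {x : E n} (hx : x ≠ 0) (f u s : ℝ) (i : Fin n) :
    ∑ j, O.tv f u s x i j * Nn x j = u * Nn x i := by
  have h : ∑ j, O.tv f u s x i j * Nn x j = (∑ j, O.tv f u s x i j * x j) / len x := by
    rw [Finset.sum_div]; exact Finset.sum_congr rfl fun j _ => by unfold Nn; ring
  rw [h, O.tv_x hx]; unfold Nn; ring

theorem M_N {x : E n} (hx : x ≠ 0) (i : Fin n) : ∑ j, O.Mm x i j * Nn x j = Nn x i := by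
  have h1 : ∀ j, O.Mm x i j * Nn x j = ∑ a, O.om x a * (O.P a i j * Nn x j) := by
    intro j; unfold Mm; rw [Finset.sum_mul]; exact Finset.sum_congr rfl fun a _ => by ring
  simp only [h1]
  rw [Finset.sum_comm]
  simp only [← Finset.mul_sum, O.P_N hx, mul_add, Finset.sum_add_distrib, O.bb_sum_om hx]
  have : ∀ a, O.om x a * (O.om x a * Nn x i) = (O.om x a * O.om x a) * Nn x i := fun a => by ring
  simp only [this, ← Finset.sum_mul, O.om_sq hx]
  ring

/-- `Σ P_a b_a = 8 N` -/
theorem P_bb {x : E n} (hx : x ≠ 0) (i : Fin n) :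
    ∑ a, ∑ j, O.P a i j * O.bb x a j = 8 * Nn x i := by
  have h1 : ∀ a, ∑ j, O.P a i j * O.bb x a j = Nn x i - O.om x a * O.bb x a i -
      O.om x a * O.om x a * Nn x i := by
    intro a
    have e1 : ∀ j, O.bb x a j = ∑ k, O.P a j k * Nn x k - O.om x a * Nn x j := by
      intro j; rw [O.P_N hx]; ring
    have e2 : ∀ j, O.P a i j * O.bb x a j = ∑ k, O.P a i j * O.P a j k * Nn x k -
        O.om x a * (O.P a i j * Nn x j) := by
      intro j
      rw [e1 j, mul_sub, Finset.mul_sum]
      congr 1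
      · exact Finset.sum_congr rfl fun k _ => by ring
      · ring
    simp only [e2, Finset.sum_sub_distrib, ← Finset.mul_sum, O.P_N hx]
    rw [Finset.sum_comm]
    have e3 : ∀ k, ∑ j, O.P a i j * O.P a j k * Nn x k = (if i = k then 1 else 0) * Nn x k := by
      intro k
      rw [← Finset.sum_mul]
      congr 1
      have := congrFun (congrFun (O.sq_one a) i) k
      rw [Matrix.mul_apply, Matrix.one_apply] at this
      exact this
    simp only [e3]
    simp
    ring
  simp only [h1, Finset.sum_sub_distrib, ← Finset.sum_mul, O.om_sq hx, O.bb_sum_om hx]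
  simp
  ring

theorem trace_P (a : Fin 9) : ∑ i, O.P a i i = 0 := O.trace_zero a

theorem trace_PP (a b : Fin 9) :
    ∑ i, ∑ j, O.P a i j * O.P b i j = if a = b then (n : ℝ) else 0 := by
  have h1 : ∀ a b, ∑ i, ∑ j, O.P a i j * O.P b i j = ∑ i, ∑ j, O.P a i j * O.P b j i := by
    intro a b
    exact Finset.sum_congr rfl fun i _ => Finset.sum_congr rfl fun j _ => by
      rw [O.symm_apply b i j]
  have h2 : (∑ i, ∑ j, O.P a i j * O.P b i j) + (∑ i, ∑ j, O.P b i j * O.P a i j) =
      if a = b then 2 * (n : ℝ) else 0 := by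
    rw [h1, h1, ← Finset.sum_add_distrib]
    simp only [O.cliff_apply]
    by_cases h : a = b
    · simp [h]; ring
    · simp [h]
  have h3 : (∑ i, ∑ j, O.P b i j * O.P a i j) = ∑ i, ∑ j, O.P a i j * O.P b i j :=
    Finset.sum_congr rfl fun i _ => Finset.sum_congr rfl fun j _ => mul_comm _ _
  rw [h3] at h2
  split_ifs at h2 ⊢ <;> linarith

end Oct

end Vale.Agent.S9
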