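import Vale.Agent.P366.Stmt

open scoped ContDiff

noncomputable section
namespace Vale.Agent.S9
open Vale.Agent.P366.Stmt

variable {n : ℕ}

/-- A `Spin(9)`-structure on Euclidean `n`-space (so `n = 16`): nine symmetric matrices with the
Clifford relations such that `x ↦ (⟨P_a x, x⟩)` is the Hopf map. -/
structure Oct (n : ℕ) where
  P : Fin 9 → Matrix (Fin n) (Fin n) ℝ
  symm : ∀ a, (P a).transpose = P a
  cliff : ∀ a b, P a * P b + P b * P a = if a = b then 2 else 0
  hopf : ∀ (x : E n) (i : Fin n), ∑ a, (∑ j, x j * ∑ k, P a j k * x k) * (∑ k, P a i k * x k) =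
    len x ^ 2 * x i

/-- The tensor field `T` is invariant, on `R ≤ |x|`, under `Spin(9)`: the orthogonal matrices that
normalize the span of the nine matrices. -/
def Oct.Invariant (O : Oct n) (R : ℝ) (T : Field n) : Prop :=
  ∀ A : Matrix (Fin n) (Fin n) ℝ, A.transpose * A = 1 →
    (∀ a, ∃ v : Fin 9 → ℝ, A * O.P a * A.transpose = ∑ b, v b • O.P b) →
    ∀ x y : E n, R ≤ len x → (∀ i, y i = ∑ j, A i j * x j) →
      ∀ i j, ∑ k, ∑ l, A k i * T y k l * A l j = T x i j

end Vale.Agent.S9
end
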