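import Vale.Agent.P366.T2.S9.Up
import Vale.Agent.P366.T2.P765

/-!
# The momentum of `Spin(9)`-invariant data vanishes
-/

open MeasureTheory Metric Filter Topology Set
open scoped BigOperators ENNReal ContDiff

noncomputable section
namespace Vale.Agent.S9
open Vale.Agent.P366.Stmt
open Vale.Agent.P366.T2 (len_neg flx_even)

variable {n : ℕ}

theorem Z_neg (O : Oct n) (a : Fin 9) (x : E n) (i : Fin n) : O.Z a (-x) i = -O.Z a x i := by
  unfold Oct.Z
  simp [Finset.sum_neg_distrib]

theorem ten_neg (O : Oct n) (f u s : ℝ → ℝ) (x : E n) (i j : Fin n) :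
    O.ten f u s (-x) i j = O.ten f u s x i j := by
  unfold Oct.ten
  simp only [len_neg, Z_neg, PiLp.neg_apply, mul_neg, neg_mul, neg_neg]

variable {D : Data n} {g K : Field n}

theorem momT_even (h : Fits D g K) {x : E n} (hx : D.R ≤ len x) (i j : Fin n) :
    momT g K (-x) i j = momT g K x i j := by
  have hx' : D.R ≤ len (-x) := by rwa [len_neg]
  have hg : ∀ i j, g (-x) i j = g x i j := fun i j => by
    rw [h.hg _ hx', h.hg _ hx, ten_neg]
  have hK : ∀ i j, K (-x) i j = K x i j := fun i j => by
    rw [h.hK _ hx', h.hK _ hx, ten_neg]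
  have hm : mat g (-x) = mat g x := by
    funext i j; exact hg i j
  have hu : ∀ i j, up g i j (-x) = up g i j x := fun i j => by
    unfold up; rw [hm]
  unfold momT tr
  simp only [hg, hK, hu]

/-- The momentum vanishes. -/
theorem momentum_zero {X : Exterior n} (h : Fits D X.g X.K) {P : Fin n → ℝ}
    (hP : X.IsMomentum P) : P = 0 := by
  funext i
  have h1 : (flx fun j x => momT X.g X.K x i j) =ᶠ[atTop] fun _ => (0 : ℝ) := by
    filter_upwards [eventually_ge_atTop D.R] with R hR
    have hR0 : 0 ≤ R := D.hR.le.trans hR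
    refine flx_even (fun x hx j => ?_) hR0
    exact momT_even h (by rw [hx]; exact hR) i j
  have h2 := (tendsto_congr' h1).1 (hP i)
  exact tendsto_nhds_unique h2 tendsto_const_nhds

end Vale.Agent.S9
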