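import Vale.Agent.P366.T2.S9.Der

/-! Contractions of two first derivatives. -/

open MeasureTheory Metric Filter Topology Set
open scoped ContDiff ENNReal

noncomputable section
namespace Vale.Agent.S9
open Vale.Agent.P366.Stmt

variable {n : ℕ}

namespace Oct

variable (O : Oct n) {x : E n} (hx : x ≠ 0)

theorem W_symm (k i j : Fin n) : Ww x k i j = Ww x k j i := by
  unfold Ww; ring

theorem B_symm (k i j : Fin n) : O.Bb x k i j = O.Bb x k j i := by
  unfold Bb
  exact Finset.sum_congr rfl fun a _ => by rw [O.symm_apply a i j]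

include hx in
theorem N_W (k j : Fin n) :
    ∑ i, Nn x i * Ww x k i j = (if j = k then 1 else 0) - Nn x j * Nn x k := by
  have e : ∀ i, Nn x i * Ww x k i j = (if i = k then Nn x i * Nn x j else 0) +
      (if j = k then 1 else 0) * (Nn x i * Nn x i) - 2 * Nn x j * Nn x k * (Nn x i * Nn x i) := by
    intro i; unfold Ww; split_ifs <;> ring
  simp only [e, Finset.sum_sub_distrib, Finset.sum_add_distrib, ← Finset.mul_sum, Nn_sq hx]
  simp
  ring

include hx in
theorem N_B (k i : Fin n) : ∑ j, O.Bb x k i j * Nn x j = O.tv 1 0 0 x k i := by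
  have e : ∀ j, O.Bb x k i j * Nn x j = ∑ a, O.bb x a k * (O.P a i j * Nn x j) := by
    intro j; unfold Bb; rw [Finset.sum_mul]; exact Finset.sum_congr rfl fun a _ => by ring
  simp only [e]
  rw [Finset.sum_comm]
  simp only [← Finset.mul_sum, O.P_N hx]
  have e2 : ∀ a, O.bb x a k * (O.bb x a i + O.om x a * Nn x i) = O.bb x a k * O.bb x a i +
      (O.om x a * O.bb x a k) * Nn x i := fun a => by ring
  simp only [e2, Finset.sum_add_distrib, ← Finset.sum_mul, O.bb_sum_om hx, O.sum_bb_bb hx]
  ring

include hx in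
theorem N_B' (k j : Fin n) : ∑ i, Nn x i * O.Bb x k i j = O.tv 1 0 0 x k j := by
  rw [← O.N_B hx k j]
  exact Finset.sum_congr rfl fun i _ => by rw [O.B_symm k i j]; ring

include hx in
theorem sum_N_B (i j : Fin n) : ∑ k, Nn x k * O.Bb x k i j = 0 := by
  have e : ∀ k, Nn x k * O.Bb x k i j = ∑ a, (Nn x k * O.bb x a k) * O.P a i j := by
    intro k; unfold Bb; rw [Finset.mul_sum]; exact Finset.sum_congr rfl fun a _ => by ring
  simp only [e]
  rw [Finset.sum_comm]
  refine Finset.sum_eq_zero fun a _ => ?_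
  rw [← Finset.sum_mul, O.N_bb hx, zero_mul]

include hx in
theorem tr_B (k : Fin n) : ∑ i, O.Bb x k i i = 0 := by
  unfold Bb
  rw [Finset.sum_comm]
  refine Finset.sum_eq_zero fun a _ => ?_
  rw [← Finset.mul_sum, O.trace_P, mul_zero]

include hx in
theorem N_tv (f u s : ℝ) (j : Fin n) : ∑ i, Nn x i * O.tv f u s x i j = u * Nn x j := by
  rw [← O.tv_N hx f u s j]
  exact Finset.sum_congr rfl fun i _ => by rw [O.tv_symm f u s x i j]; ring

/-! #### the first contraction -/

include hx in
theorem D12 (f u s : ℝ) (l : Fin n) :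
    ∑ i, ∑ j, O.tv f u s x i j * Ww x i j l = (8 * f + 7 * s) * Nn x l := by
  have e : ∀ i, ∑ j, O.tv f u s x i j * Ww x i j l = O.tv f u s x i i * Nn x l +
      (if l = i then u * Nn x i else 0) - 2 * u * Nn x l * (Nn x i * Nn x i) := by
    intro i
    have e1 : ∀ j, O.tv f u s x i j * Ww x i j l =
        (if j = i then O.tv f u s x i j * Nn x l else 0) +
        (if l = i then 1 else 0) * (O.tv f u s x i j * Nn x j) -
        2 * Nn x l * Nn x i * (O.tv f u s x i j * Nn x j) := by
      intro j; unfold Ww; split_ifs <;> ring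
    simp only [e1, Finset.sum_sub_distrib, Finset.sum_add_distrib, ← Finset.mul_sum, O.tv_N hx]
    simp only [Finset.sum_ite_eq', Finset.mem_univ, if_true]
    split_ifs <;> ring
  simp only [e, Finset.sum_sub_distrib, Finset.sum_add_distrib, ← Finset.mul_sum,
    ← Finset.sum_mul, O.trace_tv hx, Nn_sq hx]
  simp only [Finset.sum_ite_eq, Finset.mem_univ, if_true]
  ring

include hx in
theorem D13 (f u s : ℝ) (l : Fin n) :
    ∑ i, ∑ j, O.tv f u s x i j * O.Bb x i j l = 8 * f * Nn x l := by
  have e : ∑ i, ∑ j, O.tv f u s x i j * O.Bb x i j l =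
      ∑ j, ∑ a, (∑ i, O.tv f u s x j i * O.bb x a i) * O.P a j l := by
    rw [Finset.sum_comm]
    refine Finset.sum_congr rfl fun j _ => ?_
    simp only [Finset.sum_mul]
    rw [Finset.sum_comm]
    refine Finset.sum_congr rfl fun i _ => ?_
    unfold Bb
    rw [Finset.mul_sum]
    exact Finset.sum_congr rfl fun a _ => by rw [O.tv_symm f u s x i j]; ring
  rw [e]
  simp only [O.tv_bb hx]
  rw [Finset.sum_comm]
  have e2 : ∀ a, ∑ j, f * O.bb x a j * O.P a j l = f * ∑ j, O.P a l j * O.bb x a j := by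
    intro a
    rw [Finset.mul_sum]
    exact Finset.sum_congr rfl fun j _ => by rw [O.symm_apply a l j]; ring
  simp only [e2, ← Finset.mul_sum, O.P_bb hx]
  ring

include hx in
theorem D21 (f u s : ℝ) (k l : Fin n) :
    ∑ i, ∑ j, Ww x k i j * (Nn x i * O.tv f u s x j l) =
      O.tv f u s x k l - u * (Nn x k * Nn x l) := by
  rw [Finset.sum_comm]
  have e : ∀ j, ∑ i, Ww x k i j * (Nn x i * O.tv f u s x j l) =
      (if j = k then O.tv f u s x j l else 0) - Nn x k * (Nn x j * O.tv f u s x j l) := by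
    intro j
    have e1 : ∀ i, Ww x k i j * (Nn x i * O.tv f u s x j l) =
      (Nn x i * Ww x k i j) * O.tv f u s x j l := fun i => by ring
    simp only [e1, ← Finset.sum_mul, N_W hx]
    split_ifs <;> ring
  simp only [e, Finset.sum_sub_distrib, ← Finset.mul_sum, O.N_tv hx]
  simp only [Finset.sum_ite_eq', Finset.mem_univ, if_true]
  ring

include hx in
theorem D22 (k l : Fin n) :
    ∑ i, ∑ j, Ww x k i j * Ww x i j l = (if k = l then 1 else 0) - Nn x k * Nn x l := by
  have e : ∀ i, ∑ j, Ww x k i j * Ww x i j l =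
      Ww x k i i * Nn x l + ((if l = i then 1 else 0) - 2 * Nn x l * Nn x i) *
        ((if i = k then 1 else 0) - Nn x i * Nn x k) := by
    intro i
    have e1 : ∀ j, Ww x k i j * Ww x i j l = (if j = i then Ww x k i j * Nn x l else 0) +
        ((if l = i then 1 else 0) - 2 * Nn x l * Nn x i) * (Nn x j * Ww x k j i) := by
      intro j
      rw [W_symm k j i]
      conv_lhs => rw [show Ww x i j l = (if j = i then 1 else 0) * Nn x l +
        Nn x j * (if l = i then 1 else 0) - 2 * (Nn x j * Nn x l * Nn x i) from rfl]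
      split_ifs <;> ring
    simp only [e1, Finset.sum_add_distrib, ← Finset.mul_sum, N_W hx]
    simp only [Finset.sum_ite_eq', Finset.mem_univ, if_true]
  simp only [e]
  have e2 : ∀ i, Ww x k i i * Nn x l + ((if l = i then 1 else 0) - 2 * Nn x l * Nn x i) *
        ((if i = k then 1 else 0) - Nn x i * Nn x k) =
      2 * Nn x l * (if i = k then Nn x i else 0) - 2 * Nn x l * Nn x k * (Nn x i * Nn x i) +
      (if l = i then (if i = k then 1 else 0) - Nn x i * Nn x k else 0) -
      2 * Nn x l * (if i = k then Nn x i else 0) + 2 * Nn x l * Nn x k * (Nn x i * Nn x i) := by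
    intro i; unfold Ww; split_ifs <;> ring
  simp only [e2, Finset.sum_sub_distrib, Finset.sum_add_distrib, ← Finset.mul_sum, Nn_sq hx]
  simp only [Finset.sum_ite_eq', Finset.sum_ite_eq, Finset.mem_univ, if_true]
  simp only [eq_comm (a := l) (b := k)]
  ring

include hx in
theorem D23 (k l : Fin n) :
    ∑ i, ∑ j, Ww x k i j * O.Bb x i j l = O.tv 1 0 0 x k l := by
  have e : ∀ i, ∑ j, Ww x k i j * O.Bb x i j l =
      (if i = k then O.tv 1 0 0 x i l else 0) + Nn x i * O.Bb x i k l -
        2 * Nn x k * (Nn x i * O.tv 1 0 0 x i l) := by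
    intro i
    have e1 : ∀ j, Ww x k i j * O.Bb x i j l =
        (if i = k then 1 else 0) * (Nn x j * O.Bb x i j l) +
        (if j = k then Nn x i * O.Bb x i j l else 0) -
        2 * Nn x k * Nn x i * (Nn x j * O.Bb x i j l) := by
      intro j; unfold Ww; split_ifs <;> ring
    simp only [e1, Finset.sum_sub_distrib, Finset.sum_add_distrib, ← Finset.mul_sum, O.N_B' hx]
    simp only [Finset.sum_ite_eq', Finset.mem_univ, if_true]
    split_ifs <;> ring
  simp only [e, Finset.sum_sub_distrib, Finset.sum_add_distrib, ← Finset.mul_sum, O.sum_N_B hx,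
    O.N_tv hx]
  simp only [Finset.sum_ite_eq', Finset.mem_univ, if_true]
  ring

include hx in
theorem D31 (f u s : ℝ) (k l : Fin n) :
    ∑ i, ∑ j, O.Bb x k i j * (Nn x i * O.tv f u s x j l) = O.tv f 0 0 x k l := by
  rw [Finset.sum_comm]
  have e : ∀ j, ∑ i, O.Bb x k i j * (Nn x i * O.tv f u s x j l) =
      O.tv 1 0 0 x k j * O.tv f u s x j l := by
    intro j
    rw [← O.N_B' hx k j, Finset.sum_mul]
    exact Finset.sum_congr rfl fun i _ => by ring
  simp only [e, O.tv_mul hx]
  simp

include hx in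
theorem D32 (k l : Fin n) :
    ∑ i, ∑ j, O.Bb x k i j * Ww x i j l = O.tv 1 0 0 x k l := by
  have e : ∀ i, ∑ j, O.Bb x k i j * Ww x i j l = O.Bb x k i i * Nn x l +
      (if l = i then O.tv 1 0 0 x k i else 0) - 2 * Nn x l * (O.tv 1 0 0 x k i * Nn x i) := by
    intro i
    have e1 : ∀ j, O.Bb x k i j * Ww x i j l = (if j = i then O.Bb x k i j * Nn x l else 0) +
        (if l = i then 1 else 0) * (O.Bb x k i j * Nn x j) -
        2 * Nn x l * Nn x i * (O.Bb x k i j * Nn x j) := by
      intro j; unfold Ww; split_ifs <;> ring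
    simp only [e1, Finset.sum_sub_distrib, Finset.sum_add_distrib, ← Finset.mul_sum, O.N_B hx]
    simp only [Finset.sum_ite_eq', Finset.mem_univ, if_true]
    split_ifs <;> ring
  simp only [e, Finset.sum_sub_distrib, Finset.sum_add_distrib, ← Finset.mul_sum,
    ← Finset.sum_mul, O.tr_B hx, O.tv_N hx]
  simp only [Finset.sum_ite_eq, Finset.mem_univ, if_true]
  ring

include hx in
theorem D33 (cf cu cs : ℝ) :
    ∑ k, ∑ l, O.tv cf cu cs x k l * ∑ i, ∑ j, O.Bb x k i j * O.Bb x i j l = -48 * cf := by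
  -- rewrite as a double sum over the Clifford index
  have e1 : ∑ k, ∑ l, O.tv cf cu cs x k l * ∑ i, ∑ j, O.Bb x k i j * O.Bb x i j l =
      ∑ a, ∑ b, cf * ∑ l, ∑ i, (∑ j, O.P a i j * O.P b j l) * (O.bb x b i * O.bb x a l) := by
    have e2 : ∀ k l, O.tv cf cu cs x k l * ∑ i, ∑ j, O.Bb x k i j * O.Bb x i j l =
        ∑ a, ∑ b, (O.tv cf cu cs x l k * O.bb x a k) *
          ∑ i, ∑ j, O.P a i j * (O.bb x b i * O.P b j l) := by
      intro k l
      have e3 : ∑ i, ∑ j, O.Bb x k i j * O.Bb x i j l =
          ∑ a, ∑ b, O.bb x a k * ∑ i, ∑ j, O.P a i j * (O.bb x b i * O.P b j l) := by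
        have e4 : ∀ i j, O.Bb x k i j * O.Bb x i j l = ∑ a, ∑ b,
            O.bb x a k * (O.P a i j * (O.bb x b i * O.P b j l)) := by
          intro i j
          unfold Bb
          rw [Finset.sum_mul_sum]
          exact Finset.sum_congr rfl fun a _ => Finset.sum_congr rfl fun b _ => by ring
        simp only [e4]
        calc ∑ i, ∑ j, ∑ a, ∑ b, O.bb x a k * (O.P a i j * (O.bb x b i * O.P b j l))
            = ∑ i, ∑ a, ∑ j, ∑ b, O.bb x a k * (O.P a i j * (O.bb x b i * O.P b j l)) :=
              Finset.sum_congr rfl fun i _ => Finset.sum_comm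
          _ = ∑ a, ∑ i, ∑ j, ∑ b, O.bb x a k * (O.P a i j * (O.bb x b i * O.P b j l)) :=
              Finset.sum_comm
          _ = ∑ a, ∑ i, ∑ b, ∑ j, O.bb x a k * (O.P a i j * (O.bb x b i * O.P b j l)) :=
              Finset.sum_congr rfl fun a _ => Finset.sum_congr rfl fun i _ => Finset.sum_comm
          _ = ∑ a, ∑ b, ∑ i, ∑ j, O.bb x a k * (O.P a i j * (O.bb x b i * O.P b j l)) :=
              Finset.sum_congr rfl fun a _ => Finset.sum_comm
          _ = _ := by
              refine Finset.sum_congr rfl fun a _ => Finset.sum_congr rfl fun b _ => ?_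
              rw [Finset.mul_sum]
              exact Finset.sum_congr rfl fun i _ => by rw [Finset.mul_sum]
      rw [e3, Finset.mul_sum]
      refine Finset.sum_congr rfl fun a _ => ?_
      rw [Finset.mul_sum]
      refine Finset.sum_congr rfl fun b _ => ?_
      rw [O.tv_symm cf cu cs x k l]; ring
    simp only [e2]
    rw [Finset.sum_comm]
    have e5 : ∀ l, ∑ k, ∑ a, ∑ b, (O.tv cf cu cs x l k * O.bb x a k) *
          ∑ i, ∑ j, O.P a i j * (O.bb x b i * O.P b j l) =
        ∑ a, ∑ b, cf * (O.bb x a l * ∑ i, ∑ j, O.P a i j * (O.bb x b i * O.P b j l)) := by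
      intro l
      rw [Finset.sum_comm]
      refine Finset.sum_congr rfl fun a _ => ?_
      rw [Finset.sum_comm]
      refine Finset.sum_congr rfl fun b _ => ?_
      rw [← Finset.sum_mul, O.tv_bb hx]
      ring
    simp only [e5]
    rw [Finset.sum_comm]
    refine Finset.sum_congr rfl fun a _ => ?_
    rw [Finset.sum_comm]
    refine Finset.sum_congr rfl fun b _ => ?_
    rw [← Finset.mul_sum]
    congr 1
    refine Finset.sum_congr rfl fun l _ => ?_
    rw [Finset.mul_sum]
    refine Finset.sum_congr rfl fun i _ => ?_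
    rw [Finset.sum_mul, Finset.mul_sum]
    exact Finset.sum_congr rfl fun j _ => by ring
  rw [e1]
  have e6 : ∀ a b, ∑ l, ∑ i, (∑ j, O.P a i j * O.P b j l) * (O.bb x b i * O.bb x a l) =
      (if a = b then 2 * ∑ i, O.bb x a i * O.bb x a i else 0) -
        ∑ l, (∑ i, O.P b l i * O.bb x b i) * (∑ i, O.P a l i * O.bb x a i) := by
    intro a b
    have e7 : ∀ l i, (∑ j, O.P a i j * O.P b j l) * (O.bb x b i * O.bb x a l) =
        (if a = b then (if i = l then 2 * (O.bb x b i * O.bb x a l) else 0) else 0) -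
        (∑ j, O.P b i j * O.P a j l) * (O.bb x b i * O.bb x a l) := by
      intro l i
      have := O.cliff_apply a b i l
      have h8 : ∑ j, O.P a i j * O.P b j l = (if a = b then (if i = l then 2 else 0) else 0) -
          ∑ j, O.P b i j * O.P a j l := by linarith
      rw [h8]
      split_ifs <;> ring
    simp only [e7, Finset.sum_sub_distrib]
    congr 1
    · by_cases h : a = b
      · subst h
        simp only [if_true, Finset.sum_ite_eq', Finset.mem_univ]
        rw [Finset.mul_sum]
      · simp only [if_neg h, Finset.sum_const_zero]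
    · have e9 : ∀ l i, (∑ j, O.P b i j * O.P a j l) * (O.bb x b i * O.bb x a l) =
          ∑ j, (O.P b j i * O.bb x b i) * (O.P a j l * O.bb x a l) := by
        intro l i
        rw [Finset.sum_mul]
        exact Finset.sum_congr rfl fun j _ => by rw [O.symm_apply b i j]; ring
      simp only [e9]
      calc ∑ l, ∑ i, ∑ j, (O.P b j i * O.bb x b i) * (O.P a j l * O.bb x a l)
          = ∑ l, ∑ j, ∑ i, (O.P b j i * O.bb x b i) * (O.P a j l * O.bb x a l) :=
            Finset.sum_congr rfl fun l _ => Finset.sum_comm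
        _ = ∑ j, ∑ l, ∑ i, (O.P b j i * O.bb x b i) * (O.P a j l * O.bb x a l) :=
            Finset.sum_comm
        _ = _ := by
            refine Finset.sum_congr rfl fun j _ => ?_
            rw [Finset.sum_mul_sum, Finset.sum_comm]
  simp only [← Finset.mul_sum, e6, Finset.sum_sub_distrib]
  have e10 : ∑ a : Fin 9, ∑ b : Fin 9, (if a = b then 2 * ∑ i, O.bb x a i * O.bb x a i else 0) =
      16 := by
    simp only [Finset.sum_ite_eq, Finset.mem_univ, if_true, ← Finset.mul_sum]
    rw [O.sum_bb_sq hx]; norm_num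
  have e11 : ∑ a : Fin 9, ∑ b : Fin 9,
      ∑ l, (∑ i, O.P b l i * O.bb x b i) * (∑ i, O.P a l i * O.bb x a i) = 64 := by
    have : ∀ a : Fin 9, ∑ b : Fin 9,
        ∑ l, (∑ i, O.P b l i * O.bb x b i) * (∑ i, O.P a l i * O.bb x a i) =
        ∑ l, 8 * Nn x l * (∑ i, O.P a l i * O.bb x a i) := by
      intro a
      rw [Finset.sum_comm]
      refine Finset.sum_congr rfl fun l _ => ?_
      rw [← Finset.sum_mul, O.P_bb hx]
    simp only [this]
    rw [Finset.sum_comm]
    simp only [← Finset.mul_sum, O.P_bb hx]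
    have : ∀ l, 8 * Nn x l * (8 * Nn x l) = 64 * (Nn x l * Nn x l) := fun l => by ring
    simp only [this, ← Finset.mul_sum, Nn_sq hx]
    norm_num
  rw [e10, e11]
  ring

end Oct

end Vale.Agent.S9
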