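import Vale.Agent.P366.T2.S9.Quad

/-! The two quadratic contractions of the scalar curvature. -/

open MeasureTheory Metric Filter Topology Set
open scoped ContDiff ENNReal

noncomputable section
namespace Vale.Agent.S9
open Vale.Agent.P366.Stmt

variable {n : ℕ}

namespace Oct

variable (O : Oct n) {x : E n} (hx : x ≠ 0)

include hx in
theorem quad1 (cf cu cs f u s f' u' s' a1 b1 a2 b2 : ℝ) :
    ∑ k, ∑ l, O.tv cf cu cs x k l * ∑ i, ∑ j,
      (Nn x k * O.tv f u s x i j + a1 * Ww x k i j + b1 * O.Bb x k i j) *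
      (Nn x i * O.tv f' u' s' x j l + a2 * Ww x i j l + b2 * O.Bb x i j l) =
    cu * u * u' + a2 * cu * (8 * f + 7 * s) + b2 * cu * (8 * f) +
      a1 * (8 * cf * f' + 7 * cs * s') + a1 * a2 * (8 * cf + 7 * cs) + a1 * b2 * (8 * cf) +
      b1 * (8 * cf * f') + b1 * a2 * (8 * cf) - 48 * b1 * b2 * cf := by
  have hD : ∀ k l, ∑ i, ∑ j,
      (Nn x k * O.tv f u s x i j + a1 * Ww x k i j + b1 * O.Bb x k i j) *
      (Nn x i * O.tv f' u' s' x j l + a2 * Ww x i j l + b2 * O.Bb x i j l) =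
      (u * u' + a2 * (8 * f + 7 * s) + b2 * (8 * f) - a1 * u' - a1 * a2) * (Nn x k * Nn x l) +
      a1 * O.tv f' u' s' x k l + a1 * a2 * (if k = l then 1 else 0) +
      a1 * b2 * O.tv 1 0 0 x k l + b1 * O.tv f' 0 0 x k l + b1 * a2 * O.tv 1 0 0 x k l +
      b1 * b2 * ∑ i, ∑ j, O.Bb x k i j * O.Bb x i j l := by
    intro k l
    have e : ∀ i j, (Nn x k * O.tv f u s x i j + a1 * Ww x k i j + b1 * O.Bb x k i j) *
      (Nn x i * O.tv f' u' s' x j l + a2 * Ww x i j l + b2 * O.Bb x i j l) =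
      Nn x k * ((Nn x i * O.tv f u s x i j) * O.tv f' u' s' x j l) +
      Nn x k * a2 * (O.tv f u s x i j * Ww x i j l) +
      Nn x k * b2 * (O.tv f u s x i j * O.Bb x i j l) +
      a1 * (Ww x k i j * (Nn x i * O.tv f' u' s' x j l)) +
      a1 * a2 * (Ww x k i j * Ww x i j l) + a1 * b2 * (Ww x k i j * O.Bb x i j l) +
      b1 * (O.Bb x k i j * (Nn x i * O.tv f' u' s' x j l)) +
      b1 * a2 * (O.Bb x k i j * Ww x i j l) +
      b1 * b2 * (O.Bb x k i j * O.Bb x i j l) := fun i j => by ring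
    simp only [e, Finset.sum_add_distrib, ← Finset.mul_sum, O.D12 hx, O.D13 hx, O.D21 hx,
      D22 hx, O.D23 hx, O.D31 hx, O.D32 hx]
    have e11 : ∑ i, ∑ j, (Nn x i * O.tv f u s x i j) * O.tv f' u' s' x j l =
        u * u' * Nn x l := by
      rw [Finset.sum_comm]
      simp only [← Finset.sum_mul, O.N_tv hx]
      have : ∀ j, u * Nn x j * O.tv f' u' s' x j l = u * (Nn x j * O.tv f' u' s' x j l) :=
        fun j => by ring
      simp only [this, ← Finset.mul_sum, O.N_tv hx]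
      ring
    rw [e11]
    ring
  simp only [hD]
  have e : ∀ k l, O.tv cf cu cs x k l *
      ((u * u' + a2 * (8 * f + 7 * s) + b2 * (8 * f) - a1 * u' - a1 * a2) * (Nn x k * Nn x l) +
      a1 * O.tv f' u' s' x k l + a1 * a2 * (if k = l then 1 else 0) +
      a1 * b2 * O.tv 1 0 0 x k l + b1 * O.tv f' 0 0 x k l + b1 * a2 * O.tv 1 0 0 x k l +
      b1 * b2 * ∑ i, ∑ j, O.Bb x k i j * O.Bb x i j l) =
      (u * u' + a2 * (8 * f + 7 * s) + b2 * (8 * f) - a1 * u' - a1 * a2) *
        (Nn x k * (O.tv cf cu cs x k l * Nn x l)) +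
      a1 * (O.tv cf cu cs x k l * O.tv f' u' s' x k l) +
      a1 * a2 * (O.tv cf cu cs x k l * O.tv 1 1 1 x k l) +
      a1 * b2 * (O.tv cf cu cs x k l * O.tv 1 0 0 x k l) +
      b1 * (O.tv cf cu cs x k l * O.tv f' 0 0 x k l) +
      b1 * a2 * (O.tv cf cu cs x k l * O.tv 1 0 0 x k l) +
      b1 * b2 * (O.tv cf cu cs x k l * ∑ i, ∑ j, O.Bb x k i j * O.Bb x i j l) := by
    intro k l
    rw [O.tv_one]
    ring
  simp only [e, Finset.sum_add_distrib, ← Finset.mul_sum, O.tv_N hx, O.C_tv hx, O.D33 hx]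
  have e2 : ∑ k, Nn x k * (cu * Nn x k) = cu := by
    have : ∀ k, Nn x k * (cu * Nn x k) = cu * (Nn x k * Nn x k) := fun k => by ring
    simp only [this, ← Finset.mul_sum, Nn_sq hx, mul_one]
  rw [e2]
  ring

include hx in
theorem WW (k l : Fin n) : ∑ i, ∑ j, Ww x k i j * Ww x l i j =
    2 * ((if k = l then 1 else 0) - Nn x k * Nn x l) := by
  have e : ∀ i, ∑ j, Ww x k i j * Ww x l i j =
      (if i = l then (if k = l then 1 else 0) * 0 + Nn x k * 0 else 0) +
      (if i = l then (if i = k then 1 else 0) - Nn x i * Nn x k else 0) +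
      Nn x i * Ww x k i l - 2 * Nn x i * Nn x l * ((if i = k then 1 else 0) - Nn x i * Nn x k) := by
    intro i
    have e1 : ∀ j, Ww x k i j * Ww x l i j = (if i = l then 1 else 0) * (Nn x j * Ww x k j i) +
        (if j = l then Nn x i * Ww x k i j else 0) -
        2 * Nn x i * Nn x l * (Nn x j * Ww x k j i) := by
      intro j
      rw [W_symm k j i]
      conv_lhs => rw [show Ww x l i j = (if i = l then 1 else 0) * Nn x j +
        Nn x i * (if j = l then 1 else 0) - 2 * (Nn x i * Nn x j * Nn x l) from rfl]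
      split_ifs <;> ring
    simp only [e1, Finset.sum_sub_distrib, Finset.sum_add_distrib, ← Finset.mul_sum, N_W hx]
    simp only [Finset.sum_ite_eq', Finset.mem_univ, if_true]
    split_ifs <;> ring
  simp only [e, Finset.sum_sub_distrib, Finset.sum_add_distrib, N_W hx]
  have e2 : ∀ i, 2 * Nn x i * Nn x l * ((if i = k then 1 else 0) - Nn x i * Nn x k) =
      2 * Nn x l * (if i = k then Nn x i else 0) - 2 * Nn x l * Nn x k * (Nn x i * Nn x i) := by
    intro i; split_ifs <;> ring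
  simp only [e2, Finset.sum_sub_distrib, ← Finset.mul_sum, Nn_sq hx]
  simp only [Finset.sum_ite_eq', Finset.mem_univ, if_true, mul_zero, add_zero, ite_self,
    Finset.sum_const_zero, zero_add, eq_comm (a := l) (b := k)]
  ring

include hx in
theorem WB (k l : Fin n) : ∑ i, ∑ j, Ww x k i j * O.Bb x l i j = 2 * O.tv 1 0 0 x l k := by
  have e : ∀ i, ∑ j, Ww x k i j * O.Bb x l i j =
      (if i = k then O.tv 1 0 0 x l i else 0) + Nn x i * O.Bb x l i k -
        2 * Nn x k * (O.tv 1 0 0 x l i * Nn x i) := by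
    intro i
    have e1 : ∀ j, Ww x k i j * O.Bb x l i j =
        (if i = k then 1 else 0) * (O.Bb x l i j * Nn x j) +
        (if j = k then Nn x i * O.Bb x l i j else 0) -
        2 * Nn x k * Nn x i * (O.Bb x l i j * Nn x j) := by
      intro j; unfold Ww; split_ifs <;> ring
    simp only [e1, Finset.sum_sub_distrib, Finset.sum_add_distrib, ← Finset.mul_sum, O.N_B hx]
    simp only [Finset.sum_ite_eq', Finset.mem_univ, if_true]
    split_ifs <;> ring
  simp only [e, Finset.sum_sub_distrib, Finset.sum_add_distrib, ← Finset.mul_sum, O.N_B' hx,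
    O.tv_N hx]
  simp only [Finset.sum_ite_eq', Finset.mem_univ, if_true]
  ring

include hx in
theorem BB (k l : Fin n) : ∑ i, ∑ j, O.Bb x k i j * O.Bb x l i j = 16 * O.tv 1 0 0 x k l := by
  have hn' : (n : ℝ) = 16 := by exact_mod_cast card_eq hx O
  have e : ∀ i j, O.Bb x k i j * O.Bb x l i j =
      ∑ a, ∑ b, (O.bb x a k * O.bb x b l) * (O.P a i j * O.P b i j) := by
    intro i j
    unfold Bb
    rw [Finset.sum_mul_sum]
    exact Finset.sum_congr rfl fun a _ => Finset.sum_congr rfl fun b _ => by ring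
  simp only [e]
  calc ∑ i, ∑ j, ∑ a, ∑ b, (O.bb x a k * O.bb x b l) * (O.P a i j * O.P b i j)
      = ∑ i, ∑ a, ∑ j, ∑ b, (O.bb x a k * O.bb x b l) * (O.P a i j * O.P b i j) :=
        Finset.sum_congr rfl fun i _ => Finset.sum_comm
    _ = ∑ a, ∑ i, ∑ j, ∑ b, (O.bb x a k * O.bb x b l) * (O.P a i j * O.P b i j) :=
        Finset.sum_comm
    _ = ∑ a, ∑ i, ∑ b, ∑ j, (O.bb x a k * O.bb x b l) * (O.P a i j * O.P b i j) :=
        Finset.sum_congr rfl fun a _ => Finset.sum_congr rfl fun i _ => Finset.sum_comm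
    _ = ∑ a, ∑ b, ∑ i, ∑ j, (O.bb x a k * O.bb x b l) * (O.P a i j * O.P b i j) :=
        Finset.sum_congr rfl fun a _ => Finset.sum_comm
    _ = ∑ a, ∑ b, (O.bb x a k * O.bb x b l) * (if a = b then 16 else 0) := by
        refine Finset.sum_congr rfl fun a _ => Finset.sum_congr rfl fun b _ => ?_
        rw [← hn', ← O.trace_PP a b, Finset.mul_sum]
        exact Finset.sum_congr rfl fun i _ => by rw [Finset.mul_sum]
    _ = 16 * O.tv 1 0 0 x k l := by
        rw [← O.sum_bb_bb hx, Finset.mul_sum]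
        refine Finset.sum_congr rfl fun a _ => ?_
        simp
        ring

include hx in
theorem quad2 (cf cu cs f u s f' u' s' a1 b1 a2 b2 : ℝ) :
    ∑ k, ∑ l, O.tv cf cu cs x k l * ∑ i, ∑ j,
      (Nn x k * O.tv f u s x i j + a1 * Ww x k i j + b1 * O.Bb x k i j) *
      (Nn x l * O.tv f' u' s' x i j + a2 * Ww x l i j + b2 * O.Bb x l i j) =
    cu * (8 * (f * f') + u * u' + 7 * (s * s')) + 2 * a1 * a2 * (8 * cf + 7 * cs) +
      16 * (a1 * b2 + b1 * a2) * cf + 128 * b1 * b2 * cf := by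
  have hD : ∀ k l, ∑ i, ∑ j,
      (Nn x k * O.tv f u s x i j + a1 * Ww x k i j + b1 * O.Bb x k i j) *
      (Nn x l * O.tv f' u' s' x i j + a2 * Ww x l i j + b2 * O.Bb x l i j) =
      (8 * (f * f') + u * u' + 7 * (s * s') - 2 * a1 * a2) * (Nn x k * Nn x l) +
      2 * a1 * a2 * (if k = l then 1 else 0) +
      (2 * a1 * b2 + 2 * b1 * a2 + 16 * b1 * b2) * O.tv 1 0 0 x k l := by
    intro k l
    have e : ∀ i j, (Nn x k * O.tv f u s x i j + a1 * Ww x k i j + b1 * O.Bb x k i j) *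
      (Nn x l * O.tv f' u' s' x i j + a2 * Ww x l i j + b2 * O.Bb x l i j) =
      Nn x k * Nn x l * (O.tv f u s x i j * O.tv f' u' s' x i j) +
      Nn x k * a2 * (O.tv f u s x i j * Ww x l i j) +
      Nn x k * b2 * (O.tv f u s x i j * O.Bb x l i j) +
      a1 * Nn x l * (O.tv f' u' s' x i j * Ww x k i j) +
      a1 * a2 * (Ww x k i j * Ww x l i j) + a1 * b2 * (Ww x k i j * O.Bb x l i j) +
      b1 * Nn x l * (O.tv f' u' s' x i j * O.Bb x k i j) +
      b1 * a2 * (Ww x l i j * O.Bb x k i j) +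
      b1 * b2 * (O.Bb x k i j * O.Bb x l i j) := fun i j => by ring
    simp only [e, Finset.sum_add_distrib, ← Finset.mul_sum, O.C_tv hx, O.C_W hx, O.C_B hx,
      WW hx, O.WB hx, O.BB hx]
    rw [O.tv_symm 1 0 0 x l k]
    ring
  simp only [hD]
  have e : ∀ k l, O.tv cf cu cs x k l *
      ((8 * (f * f') + u * u' + 7 * (s * s') - 2 * a1 * a2) * (Nn x k * Nn x l) +
      2 * a1 * a2 * (if k = l then 1 else 0) +
      (2 * a1 * b2 + 2 * b1 * a2 + 16 * b1 * b2) * O.tv 1 0 0 x k l) =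
      (8 * (f * f') + u * u' + 7 * (s * s') - 2 * a1 * a2) *
        (Nn x k * (O.tv cf cu cs x k l * Nn x l)) +
      2 * a1 * a2 * (O.tv cf cu cs x k l * O.tv 1 1 1 x k l) +
      (2 * a1 * b2 + 2 * b1 * a2 + 16 * b1 * b2) *
        (O.tv cf cu cs x k l * O.tv 1 0 0 x k l) := by
    intro k l
    rw [O.tv_one]
    ring
  simp only [e, Finset.sum_add_distrib, ← Finset.mul_sum, O.tv_N hx, O.C_tv hx]
  have e2 : ∑ k, Nn x k * (cu * Nn x k) = cu := by
    have : ∀ k, Nn x k * (cu * Nn x k) = cu * (Nn x k * Nn x k) := fun k => by ring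
    simp only [this, ← Finset.mul_sum, Nn_sq hx, mul_one]
  rw [e2]
  ring

end Oct

end Vale.Agent.S9
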