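import Vale.Agent.P366.T2.S9.Alg

open MeasureTheory Metric Filter Topology Set
open scoped ContDiff ENNReal

noncomputable section
namespace Vale.Agent.S9
open Vale.Agent.P366.Stmt
open Vale.Agent.C92.Frame (ten_mul ten_inv det_ten trace_ten)

variable {n : ℕ}

namespace Oct

variable (O : Oct n)

/-- pointwise invariant tensor -/
def tv (f u s : ℝ) (x : E n) (i j : Fin n) : ℝ :=
  f * ((∑ a, O.Z a x i * O.Z a x j - x i * x j) / len x ^ 2) +
    u * (x i * x j / len x ^ 2) +
    s * ((if i = j then 1 else 0) - (∑ a, O.Z a x i * O.Z a x j) / len x ^ 2)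

theorem ten_eq_tv (f u s : ℝ → ℝ) (x : E n) (i j : Fin n) :
    O.ten f u s x i j = O.tv (f (len x)) (u (len x)) (s (len x)) x i j := rfl

theorem tv_symm (f u s : ℝ) (x : E n) (i j : Fin n) : O.tv f u s x i j = O.tv f u s x j i := by
  unfold tv
  simp only [eq_comm (a := i) (b := j), mul_comm (x i) (x j), mul_comm (O.Z _ x i) (O.Z _ x j)]

/-- orthonormal frame of the radial and horizontal directions -/
def U (x : E n) : Matrix (Fin n) (Fin 9) ℝ := Matrix.of fun i a => O.Z a x i / len x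

def om (x : E n) (a : Fin 9) : ℝ := O.w a x / len x ^ 2

/-- the block of an invariant tensor on the frame -/
def blk (f u : ℝ) (x : E n) : Matrix (Fin 9) (Fin 9) ℝ :=
  f • 1 + (u - f) • Matrix.vecMulVec (O.om x) (O.om x)

theorem U_orth {x : E n} (hx : x ≠ 0) : (O.U x).transpose * O.U x = 1 := by
  have hr : len x ≠ 0 := len_ne hx
  ext a b
  rw [Matrix.mul_apply, Matrix.one_apply]
  have h : ∀ i, (O.U x).transpose a i * O.U x i b = (O.Z a x i * O.Z b x i) / len x ^ 2 := by
    intro i; simp only [U, Matrix.transpose_apply, Matrix.of_apply]; ring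
  simp only [h, ← Finset.sum_div, O.Z_Z]
  split_ifs
  · exact div_self (pow_ne_zero 2 hr)
  · simp

theorem om_sq {x : E n} (hx : x ≠ 0) : ∑ a, O.om x a * O.om x a = 1 := by
  have hr : len x ≠ 0 := len_ne hx
  have h : ∀ a, O.om x a * O.om x a = O.w a x ^ 2 / len x ^ 4 := by
    intro a; unfold om; field_simp
  simp only [h, ← Finset.sum_div, O.sum_w_sq]
  exact div_self (pow_ne_zero 4 hr)

theorem U_om {x : E n} (hx : x ≠ 0) (i : Fin n) : ∑ a, O.U x i a * O.om x a = x i / len x := by
  have hr : len x ≠ 0 := len_ne hx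
  have h : ∀ a, O.U x i a * O.om x a = (O.w a x * O.Z a x i) / len x ^ 3 := by
    intro a; simp only [U, om, Matrix.of_apply]; field_simp
  simp only [h, ← Finset.sum_div, O.hopf']
  field_simp

theorem mat_tv {x : E n} (hx : x ≠ 0) (f u s : ℝ) :
    Matrix.of (O.tv f u s x) = Vale.Agent.C92.Frame.ten (O.U x) s (O.blk f u x) := by
  have hr : len x ≠ 0 := len_ne hx
  unfold Vale.Agent.C92.Frame.ten
  have h1 : O.U x * (O.blk f u x - s • 1) * (O.U x).transpose =
      (f - s) • (O.U x * (O.U x).transpose) + (u - f) • Matrix.vecMulVec (fun i => x i / len x)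
        (fun i => x i / len x) := by
    have e1 : O.blk f u x - s • 1 = (f - s) • 1 + (u - f) • Matrix.vecMulVec (O.om x) (O.om x) := by
      unfold blk; rw [sub_smul f s (1 : Matrix (Fin 9) (Fin 9) ℝ)]; abel
    rw [e1, Matrix.mul_add, Matrix.add_mul, Matrix.mul_smul, Matrix.smul_mul, Matrix.mul_one,
      Matrix.mul_smul, Matrix.smul_mul]
    congr 2
    ext i j
    rw [Matrix.mul_apply]
    have e2 : ∀ b, (O.U x * Matrix.vecMulVec (O.om x) (O.om x)) i b =
        x i / len x * O.om x b := by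
      intro b
      rw [Matrix.mul_apply, ← O.U_om hx i, Finset.sum_mul]
      exact Finset.sum_congr rfl fun a _ => by rw [Matrix.vecMulVec_apply]; ring
    simp only [e2, Matrix.transpose_apply, Matrix.vecMulVec_apply]
    rw [← O.U_om hx j, Finset.mul_sum]
    exact Finset.sum_congr rfl fun b _ => by ring
  rw [h1]
  ext i j
  rw [Matrix.add_apply, Matrix.add_apply, Matrix.smul_apply, Matrix.smul_apply, Matrix.smul_apply,
    Matrix.one_apply, Matrix.mul_apply, Matrix.vecMulVec_apply, Matrix.of_apply, tv]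
  have e3 : ∑ a, O.U x i a * (O.U x).transpose a j = (∑ a, O.Z a x i * O.Z a x j) / len x ^ 2 := by
    rw [Finset.sum_div]
    refine Finset.sum_congr rfl fun a _ => ?_
    simp only [U, Matrix.transpose_apply, Matrix.of_apply]; ring
  rw [e3]
  simp only [smul_eq_mul]
  field_simp
  ring

theorem vv {x : E n} (hx : x ≠ 0) :
    Matrix.vecMulVec (O.om x) (O.om x) * Matrix.vecMulVec (O.om x) (O.om x) =
      Matrix.vecMulVec (O.om x) (O.om x) := by
  rw [Matrix.vecMulVec_mul_vecMulVec]
  have : O.om x ⬝ᵥ O.om x = 1 := O.om_sq hx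
  rw [this]
  simp

theorem blk_mul {x : E n} (hx : x ≠ 0) (f u f' u' : ℝ) :
    O.blk f u x * O.blk f' u' x = O.blk (f * f') (u * u') x := by
  unfold blk
  rw [Matrix.add_mul, Matrix.mul_add, Matrix.mul_add]
  simp only [Matrix.smul_mul, Matrix.mul_smul, Matrix.one_mul, Matrix.mul_one, smul_smul,
    O.vv hx]
  rw [add_assoc, mul_comm f' f, ← add_assoc (((u' - f') * f) • _)]
  congr 1
  · rw [← add_smul]
    rw [← add_smul]
    congr 1
    ring

theorem blk_one (x : E n) : O.blk 1 1 x = 1 := by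
  unfold blk; simp

theorem tv_mul {x : E n} (hx : x ≠ 0) (f u s f' u' s' : ℝ) (i k : Fin n) :
    ∑ j, O.tv f u s x i j * O.tv f' u' s' x j k = O.tv (f * f') (u * u') (s * s') x i k := by
  have h : Matrix.of (O.tv f u s x) * Matrix.of (O.tv f' u' s' x) =
      Matrix.of (O.tv (f * f') (u * u') (s * s') x) := by
    rw [O.mat_tv hx, O.mat_tv hx, O.mat_tv hx, ten_mul (O.U_orth hx), O.blk_mul hx]
  have := congrFun (congrFun h i) k
  rw [Matrix.mul_apply] at this
  exact this

theorem tv_one {x : E n} (i j : Fin n) : O.tv 1 1 1 x i j = if i = j then 1 else 0 := by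
  unfold tv; ring

theorem tv_x {x : E n} (hx : x ≠ 0) (f u s : ℝ) (i : Fin n) :
    ∑ j, O.tv f u s x i j * x j = u * x i := by
  have hr : len x ≠ 0 := len_ne hx
  have h0 : ∀ j, O.tv f u s x i j * x j =
      f * ((∑ a, O.Z a x i * (O.Z a x j * x j) - x i * (x j * x j)) / len x ^ 2) +
      u * (x i * (x j * x j) / len x ^ 2) +
      s * ((if i = j then x j else 0) - (∑ a, O.Z a x i * (O.Z a x j * x j)) / len x ^ 2) := by
    intro j
    unfold tv
    have : ∑ a, O.Z a x i * (O.Z a x j * x j) = (∑ a, O.Z a x i * O.Z a x j) * x j := by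
      rw [Finset.sum_mul]; exact Finset.sum_congr rfl fun a _ => by ring
    rw [this]
    split_ifs <;> ring
  have hz : ∑ j, ∑ a, O.Z a x i * (O.Z a x j * x j) = len x ^ 2 * x i := by
    rw [Finset.sum_comm]
    rw [← O.hopf']
    refine Finset.sum_congr rfl fun a _ => ?_
    rw [← Finset.mul_sum]
    unfold w
    rw [mul_comm]
    congr 1
    exact Finset.sum_congr rfl fun j _ => mul_comm _ _
  simp only [h0, Finset.sum_add_distrib, ← Finset.mul_sum, ← Finset.sum_div,
    Finset.sum_sub_distrib, sum_sq]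
  rw [hz]
  simp
  field_simp
  ring

theorem blk_inv {x : E n} (hx : x ≠ 0) {f u : ℝ} (hf : f ≠ 0) (hu : u ≠ 0) :
    O.blk f u x * O.blk f⁻¹ u⁻¹ x = 1 := by
  rw [O.blk_mul hx, mul_inv_cancel₀ hf, mul_inv_cancel₀ hu, O.blk_one]

theorem det_blk {x : E n} (hx : x ≠ 0) {f u : ℝ} (hf : f ≠ 0) :
    (O.blk f u x).det = f ^ 8 * u := by
  have h1 : O.blk f u x = f • (1 + Matrix.vecMulVec (((u - f) / f) • O.om x) (O.om x)) := by
    unfold blk
    rw [smul_add]
    congr 1
    ext i j
    simp only [Matrix.smul_apply, Matrix.vecMulVec_apply, Pi.smul_apply, smul_eq_mul]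
    field_simp
  rw [h1, Matrix.det_smul, Fintype.card_fin]
  have h2 : (1 + Matrix.vecMulVec (((u - f) / f) • O.om x) (O.om x)).det = 1 + (u - f) / f := by
    rw [Matrix.vecMulVec_eq Unit, Matrix.det_one_add_mul_comm]
    simp only [Matrix.det_unique]
    rw [Matrix.add_apply, Matrix.mul_apply]
    simp only [Matrix.one_apply_eq, Matrix.replicateRow_apply, Matrix.replicateCol_apply,
      Pi.smul_apply, smul_eq_mul]
    have : ∑ a, O.om x a * ((u - f) / f * O.om x a) = (u - f) / f * ∑ a, O.om x a * O.om x a := by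
      rw [Finset.mul_sum]; exact Finset.sum_congr rfl fun a _ => by ring
    rw [this, O.om_sq hx, mul_one]
  rw [h2]
  field_simp
  ring

theorem trace_blk {x : E n} (hx : x ≠ 0) (f u : ℝ) : (O.blk f u x).trace = 8 * f + u := by
  unfold blk
  rw [Matrix.trace_add, Matrix.trace_smul, Matrix.trace_smul, Matrix.trace_one]
  have : (Matrix.vecMulVec (O.om x) (O.om x)).trace = 1 := by
    rw [Matrix.trace_vecMulVec]; exact O.om_sq hx
  rw [this]
  simp
  ring

theorem trace_tv {x : E n} (hx : x ≠ 0) (f u s : ℝ) :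
    ∑ i, O.tv f u s x i i = 8 * f + u + 7 * s := by
  have hn : n = 16 := by
    rcases Nat.eq_zero_or_pos n with h0 | h0
    · exfalso; subst h0; exact hx (Subsingleton.elim _ _)
    · exact O.n_eq h0
  have h : (Matrix.of (O.tv f u s x)).trace = 8 * f + u + 7 * s := by
    rw [O.mat_tv hx, trace_ten (O.U_orth hx), O.trace_blk hx]
    simp only [Fintype.card_fin, hn]
    push_cast
    ring
  exact h

theorem det_tv {x : E n} (hx : x ≠ 0) {f u s : ℝ} (hf : f ≠ 0) (hs : s ≠ 0) :
    (Matrix.of (O.tv f u s x)).det = s ^ 7 * (f ^ 8 * u) := by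
  have hn : n = 16 := by
    rcases Nat.eq_zero_or_pos n with h0 | h0
    · exfalso; subst h0; exact hx (Subsingleton.elim _ _)
    · exact O.n_eq h0
  rw [O.mat_tv hx, det_ten (O.U_orth hx) s hs _ 7 (by simp [hn]), O.det_blk hx hf]

end Oct

theorem ne_zero_of_le {D : Data n} {x : E n} (hx : D.R ≤ len x) : x ≠ 0 := by
  have := D.hR
  intro h
  rw [h] at hx
  simp [len] at hx
  linarith

variable {D : Data n} {g K : Field n}

theorem g_tv (h : Fits D g K) {x : E n} (hx : D.R ≤ len x) (i j : Fin n) :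
    g x i j = D.O.tv (D.al (len x)) (D.p (len x)) (D.c (len x)) x i j := h.hg x hx i j

theorem K_tv (h : Fits D g K) {x : E n} (hx : D.R ≤ len x) (i j : Fin n) :
    K x i j = D.O.tv (D.ka (len x)) (D.kn (len x)) (D.kc (len x)) x i j := h.hK x hx i j

theorem up_eq (h : Fits D g K) {x : E n} (hx : D.R ≤ len x) (i j : Fin n) :
    up g i j x = D.O.tv (D.al (len x))⁻¹ (D.p (len x))⁻¹ (D.c (len x))⁻¹ x i j := by
  have h0 := ne_zero_of_le hx
  have hal := (D.al_pos _ hx).ne'
  have hp := (D.p_pos _ hx).ne'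
  have hc := (D.c_pos _ hx).ne'
  have h1 : mat g x * Matrix.of (D.O.tv (D.al (len x))⁻¹ (D.p (len x))⁻¹ (D.c (len x))⁻¹ x) = 1 := by
    ext i k
    rw [Matrix.mul_apply]
    have : ∀ j, mat g x i j * Matrix.of (D.O.tv (D.al (len x))⁻¹ (D.p (len x))⁻¹
        (D.c (len x))⁻¹ x) j k = D.O.tv (D.al (len x)) (D.p (len x)) (D.c (len x)) x i j *
          D.O.tv (D.al (len x))⁻¹ (D.p (len x))⁻¹ (D.c (len x))⁻¹ x j k := by
      intro j
      rw [← g_tv h hx]; rfl
    simp only [this]
    rw [D.O.tv_mul h0, mul_inv_cancel₀ hal, mul_inv_cancel₀ hp, mul_inv_cancel₀ hc, D.O.tv_one,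
      Matrix.one_apply]
  unfold up
  rw [Matrix.inv_eq_right_inv h1]
  rfl

theorem det_g (h : Fits D g K) {x : E n} (hx : D.R ≤ len x) :
    (mat g x).det = D.c (len x) ^ 7 * (D.al (len x) ^ 8 * D.p (len x)) := by
  have h0 := ne_zero_of_le hx
  have hal := (D.al_pos _ hx).ne'
  have hc := (D.c_pos _ hx).ne'
  rw [← D.O.det_tv h0 hal hc]
  congr 1
  ext i j
  exact g_tv h hx i j

end Vale.Agent.S9
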